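import Vale.Agent.P231Z.C.Defs

/-!
# P231, spheres and real projective spaces, the volume: cycles, boundaries, chain homotopies
-/

set_option linter.unusedSectionVars false
set_option linter.unusedVariables false
set_option maxSynthPendingDepth 3

open Set Filter Module MeasureTheory Metric
open scoped ContDiff Topology

namespace Vale.Agent.P231Z.C

noncomputable section

open Vale.Agent.P231 Vale.Agent.P231.Fm Vale.Agent.P231.W Vale.Agent.P231.H584
  Vale.Agent.P231Z.I7

section Basic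

variable {X Y : Type*} {D : Dif X} {D' : Dif Y} {n : ℕ} {z z' : Form D → ℝ}

theorem rep_nsmul (h : Rep D n z) (m : ℕ) : Rep D n fun w => m * z w := by
  induction m with
  | zero => exact Rep.zero.congr fun w => by simp
  | succ m ih => exact (ih.add h).congr fun w => by push_cast; ring

theorem rep_zsmul (h : Rep D n z) (m : ℤ) : Rep D n fun w => m * z w := by
  obtain ⟨k, rfl | rfl⟩ := m.eq_nat_or_neg
  · exact (rep_nsmul h k).congr fun w => by simp
  · exact (rep_nsmul h k).neg.congr fun w => by simp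

theorem rep_zero (h : Rep D n z) : z 0 = 0 := by
  have h1 := h.map_smul 0 0
  rwa [zero_smul, zero_mul] at h1

theorem rep_neg (h : Rep D n z) (w : Form D) : z (-w) = -z w := by
  rw [← neg_one_smul ℝ w, h.map_smul, neg_one_mul]

/-- a sum of cells only sees the values of degree `n` along the plots -/
theorem rep_congr (h : Rep D n z) {v w : Form D}
    (e : ∀ {V : Type} [NormedAddCommGroup V] [NormedSpace ℝ V] [FiniteDimensional ℝ V]
      {u : V → X} {x : V}, D.At u x → ∀ a : Fin n → V,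
        evalForm (v.val u x) a = evalForm (w.val u x) a) : z v = z w := by
  induction h with
  | cell C => exact C.I_congr fun t ht => e (C.plot t ht) _
  | zero => rfl
  | add _ _ h1 h2 => simp only [h1, h2]
  | neg _ h1 => simp only [h1]

theorem RepIn.rep {S : Set X} (h : RepIn D n S z) : Rep D n z := by
  obtain ⟨z₁, h1, h2⟩ := h
  exact (h1.pull id Dif.map_on).congr h2

theorem RepIn.pull {S : Set X} (h : RepIn D n S z) (f : X → Y) (hf : D.Map D' f) {S' : Set Y}
    (hs : ∀ x ∈ S, f x ∈ S') : RepIn D' n S' fun w => z (Form.pull f hf w) := by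
  obtain ⟨z₁, h1, h2⟩ := h
  have h3 : (D.on S).Map (D'.on S') f := Dif.Map.on_on hf hs
  refine ⟨_, h1.pull f h3, fun w => ?_⟩
  beta_reduce
  rw [h2]
  congr 1
  exact (pull_pull (k := f) Dif.map_on hf (fun hh => hf hh.1) (fun _ => rfl) w).trans
    (pull_pull (k := f) h3 Dif.map_on (fun hh => hf hh.1) (fun _ => rfl) w).symm

theorem RepIn.of_eq {S : Set X} (h : RepIn D n S z) (e : ∀ w, z' w = z w) : RepIn D n S z' := by
  obtain rfl : z' = z := funext e
  exact h

theorem RepIn.mono {S S' : Set X} (h : RepIn D n S z) (hs : S ⊆ S') : RepIn D n S' z :=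
  (h.pull id Dif.map_id fun x hx => hs hx).of_eq fun w => by rw [Form.pull_id]

theorem RepIn.add {S : Set X} (h : RepIn D n S z) (h' : RepIn D n S z') :
    RepIn D n S fun w => z w + z' w := by
  obtain ⟨z₁, h1, h2⟩ := h
  obtain ⟨z₂, h3, h4⟩ := h'
  exact ⟨_, h1.add h3, fun w => by beta_reduce; rw [h2, h4]⟩

theorem RepIn.zsmul {S : Set X} (h : RepIn D n S z) (m : ℤ) :
    RepIn D n S fun w => m * z w := by
  obtain ⟨z₁, h1, h2⟩ := h
  exact ⟨_, rep_zsmul h1 m, fun w => by beta_reduce; rw [h2]⟩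

theorem RepIn.congr {S : Set X} (h : RepIn D n S z) {v w : Form D}
    (e : ∀ {V : Type} [NormedAddCommGroup V] [NormedSpace ℝ V] [FiniteDimensional ℝ V]
      {u : V → X} {x : V}, (D.on S).At u x → ∀ a : Fin n → V,
        evalForm (v.val u x) a = evalForm (w.val u x) a) : z v = z w := by
  obtain ⟨z₁, h1, h2⟩ := h
  rw [h2, h2]
  refine rep_congr h1 fun hu a => ?_
  rw [Form.res_val _ hu, Form.res_val _ hu]
  exact e hu a

/-- cells in a set which is open in the plots -/
theorem repIn_of_family {ι : Type} [Fintype ι] (C : ι → Cell D n) (ε : ι → ℤ)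
    (h : ∀ w, z w = ∑ i, ε i * (C i).I w) {S : Set X} (hS : POpen D S)
    (hC : ∀ i, ∀ t ∈ (C i).K, (C i).c t ∈ S) : RepIn D n S z :=
  ⟨_, Rep.sum Finset.univ fun i _ => rep_zsmul (Rep.cell ((C i).on hS (hC i))) (ε i),
    fun w => by simp only [h, Cell.on_I]⟩

theorem RepIn.thin {S : Set X} (h : RepIn D n S z) {f : X → X} (hf : D.Map D f)
    (ht : ThinOn D S n f) (w : Form D) : z (Form.pull f hf w) = 0 := by
  rw [← rep_zero h.rep]
  refine h.congr fun hu a => ?_
  rw [Form.pull_val _ _ hu.1, (ht hu).eval w a, Form.zero_val]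
  exact (map_zero (evalL a)).symm

theorem Cy.pull (h : Cy D n z) (f : X → Y) (hf : D.Map D' f) :
    Cy D' n fun w => z (Form.pull f hf w) :=
  ⟨h.rep.pull f hf, fun ρ => by rw [Form.pull_d, h.cl]⟩

theorem Cy.add (h : Cy D n z) (h' : Cy D n z') : Cy D n fun w => z w + z' w :=
  ⟨h.rep.add h'.rep, fun ρ => by rw [h.cl, h'.cl, add_zero]⟩

theorem Cy.zsmul (h : Cy D n z) (m : ℤ) : Cy D n fun w => m * z w :=
  ⟨rep_zsmul h.rep m, fun ρ => by rw [h.cl, mul_zero]⟩

theorem Cy.of_eq (h : Cy D n z) (e : ∀ w, z' w = z w) : Cy D n z' := by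
  obtain rfl : z' = z := funext e
  exact h

theorem Bd.add (h : Bd D n z) (h' : Bd D n z') : Bd D n fun w => z w + z' w := by
  obtain ⟨C, h1, h2⟩ := h
  obtain ⟨C', h3, h4⟩ := h'
  exact ⟨_, h1.add h3, fun ρ => by rw [h2, h4]⟩

theorem Bd.neg (h : Bd D n z) : Bd D n fun w => -z w := by
  obtain ⟨C, h1, h2⟩ := h
  exact ⟨_, h1.neg, fun ρ => by rw [h2]⟩

theorem Bd.of_eq (h : Bd D n z) (e : ∀ w, z' w = z w) : Bd D n z' := by
  obtain rfl : z' = z := funext e
  exact h

theorem htp_of (H : X × ℝ → X) (hH : (D.prod (Dif.lin ℝ)).Map D H) (h0 : ∀ x, H (x, 0) = x)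
    {f : X → X} (hf : D.Map D f) (h1 : ∀ x, H (x, 1) = f x) : Htp D f hf := by
  refine ⟨fun ρ => Form.K (Form.pull H hH ρ), by beta_reduce; rw [Co.pull_zero, K_zero],
    fun ρ => ?_, fun n z hz => hz.K.pull H hH⟩
  have k := homotopy' (Form.pull H hH ρ)
  have k1 : at_ 1 (Form.pull H hH ρ) = Form.pull f hf ρ :=
    pull_pull (k := f) (Form.map_slice 1) hH hf h1 ρ
  have k0 : at_ 0 (Form.pull H hH ρ) = ρ :=
    (pull_pull (k := id) (Form.map_slice 0) hH Dif.map_id h0 ρ).trans (Form.pull_id _ ρ)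
  rw [k1, k0, ← Form.pull_d] at k
  exact k

theorem Htp.comp {f g : X → X} {hf : D.Map D f} {hg : D.Map D g} (h : Htp D f hf)
    (h' : Htp D g hg) : Htp D (f ∘ g) (Dif.Map.comp hf hg) := by
  obtain ⟨P, p0, p1, p2⟩ := h
  obtain ⟨Q, q0, q1, q2⟩ := h'
  refine ⟨fun ρ => P ρ + Q (Form.pull f hf ρ),
    by beta_reduce; rw [p0, Co.pull_zero, q0, add_zero],
    fun ρ => ?_, fun n z hz => ((p2 n z hz).add ((q2 n z hz).pull f hf)).congr fun ρ =>
      hz.map_add _ _⟩
  have k : Form.pull (f ∘ g) (Dif.Map.comp hf hg) ρ = Form.pull g hg (Form.pull f hf ρ) :=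
    (pull_pull (k := f ∘ g) hg hf _ (fun _ => rfl) ρ).symm
  have k1 := q1 (Form.pull f hf ρ)
  have k2 := p1 ρ
  rw [← Form.pull_d] at k1
  beta_reduce
  rw [k, Form.d_add, ← sub_add_sub_cancel _ (Form.pull f hf ρ) ρ, k1, k2]
  generalize Q (Form.pull f hf ρ.d) = a1
  generalize (Q (Form.pull f hf ρ)).d = a2
  abel

theorem Htp.bd {f : X → X} {hf : D.Map D f} (h : Htp D f hf) (hz : Cy D n z) :
    Bd D n fun w => z (Form.pull f hf w) - z w := by
  obtain ⟨P, p0, p1, p2⟩ := h
  refine ⟨_, p2 n z hz.rep, fun ρ => ?_⟩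
  change z (P ρ.d) = z _ - z ρ
  rw [← hz.rep.map_sub, p1, hz.rep.map_add, hz.cl, add_zero]

theorem Htp.closed {f : X → X} {hf : D.Map D f} (h : Htp D f hf) {w : Form D} (hw : w.d = 0) :
    ∃ η : Form D, Form.pull f hf w = w + η.d := by
  obtain ⟨P, p0, p1, p2⟩ := h
  have k := p1 w
  rw [hw, p0, zero_add] at k
  exact ⟨P w, by rw [← k, add_sub_cancel]⟩

/-- a cycle which is killed by a map homotopic to the identity bounds -/
theorem Htp.bd_of {f : X → X} {hf : D.Map D f} (h : Htp D f hf) (hz : Cy D n z)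
    (h0 : ∀ w, z (Form.pull f hf w) = 0) : Bd D n z :=
  (h.bd hz).neg.of_eq fun w => by rw [h0, zero_sub, neg_neg]

theorem thin_mono {m m' : ℕ} {V : Type} [NormedAddCommGroup V] [NormedSpace ℝ V] {u : V → X}
    {x : V} (h : Thin D m u x) (hm : m ≤ m') : Thin D m' u x := by
  obtain ⟨G, _, _, _, v, g, h1, h2⟩ := h
  exact ⟨G, inferInstance, inferInstance, inferInstance, v, g, h1.trans_le hm, h2⟩

variable {G : Type} [NormedAddCommGroup G] [NormedSpace ℝ G] [FiniteDimensional ℝ G]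
  [MeasurableSpace G] [BorelSpace G] {O : Set X} {κ : X → G} {m : ℕ} {b : Basis (Fin m) ℝ G}

theorem Deg.mono {y y' : G} {ε ε' d : ℝ} (h : Deg D O κ b z y ε d) (hs : ball y' ε' ⊆ ball y ε) :
    Deg D O κ b z y' ε' d := fun w v hv hv' hl => h w v hv (hv'.trans hs) hl

end Basic

end

end Vale.Agent.P231Z.C
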