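import Vale.Agent.P231Z.C.Defs

/-!
# P231, spheres and real projective spaces, the volume: gnomonic charts

The charts of the first vector and of the pairs on the manifold of orthonormal pairs.
-/

set_option linter.unusedSectionVars false
set_option linter.unusedVariables false
set_option maxSynthPendingDepth 3

open Set Filter Module MeasureTheory Metric
open scoped ContDiff Topology

namespace Vale.Agent.P231Z.C

noncomputable section

open Vale.Agent.P231 Vale.Agent.P231.Fm Vale.Agent.P231.W Vale.Agent.P231.H584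
  Vale.Agent.P231Z.I7

namespace Ch

variable {V V' W : Type} [NormedAddCommGroup V] [InnerProductSpace ℝ V]
  [NormedAddCommGroup V'] [InnerProductSpace ℝ V'] [NormedAddCommGroup W] [InnerProductSpace ℝ W]

/-- the central projection -/
def gn (S : Spl V W) (p : W) : V := (inner ℝ S.e p : ℝ)⁻¹ • S.pr p

/-- the vector orthogonal to `e` in the plane of two vectors -/
def wv (S : Spl V W) (p : W × W) : V := S.pr p.2 - (inner ℝ S.e p.2 : ℝ) • gn S p.1

/-- normalisation -/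
def nz (p : W) : W := ‖p‖⁻¹ • p

/-- the orthogonal part -/
def op (q : W × W) : W := q.2 - (inner ℝ (nz q.1) q.2 : ℝ) • nz q.1

/-- orthonormalisation -/
def gs (q : W × W) : W × W := (nz q.1, nz (op q))

theorem ee (S : Spl V W) : (inner ℝ S.e S.e : ℝ) = 1 := by
  rw [real_inner_self_eq_norm_sq, S.he, one_pow]

theorem sq_norm (S : Spl V W) (p : W) : ‖p‖ ^ 2 = (inner ℝ S.e p : ℝ) ^ 2 + ‖S.pr p‖ ^ 2 := by
  have h : (inner ℝ ((inner ℝ S.e p : ℝ) • S.e) (S.i (S.pr p)) : ℝ) = 0 := by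
    rw [real_inner_smul_left, S.ort, mul_zero]
  have h2 := norm_add_sq_real ((inner ℝ S.e p : ℝ) • S.e) (S.i (S.pr p))
  rw [← S.dec p, h, norm_smul, S.he, S.i.norm_map, mul_one, Real.norm_eq_abs, sq_abs] at h2
  linarith

theorem big (S : Spl V W) {p : W} (R : ℝ) (hp : 1 ≤ ‖p‖) (h0 : 0 < (inner ℝ S.e p : ℝ))
    (h1 : (inner ℝ S.e p : ℝ) < (|R| + 1)⁻¹) : R < ‖gn S p‖ := by
  set a : ℝ := inner ℝ S.e p with ha
  have h2 := sq_norm S p
  rw [← ha] at h2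
  have h3 : a * (|R| + 1) < 1 := by
    rwa [inv_eq_one_div, lt_div_iff₀ (by positivity)] at h1
  rw [gn, ← ha, norm_smul, norm_inv, Real.norm_of_nonneg h0.le, inv_mul_eq_div, lt_div_iff₀ h0]
  refine lt_of_le_of_lt (mul_le_mul_of_nonneg_right (le_abs_self R) h0.le) ?_
  have h4 : 0 ≤ |R| * a := by positivity
  refine lt_of_pow_lt_pow_left₀ 2 (norm_nonneg _) ?_
  have h5 : 1 ≤ ‖p‖ ^ 2 := one_le_pow₀ hp
  have h6 : (a * (|R| + 1)) ^ 2 < 1 := by
    have : 0 ≤ a * (|R| + 1) := by positivity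
    nlinarith
  nlinarith [mul_nonneg h4 h0.le]

theorem e_add_gn (S : Spl V W) {p : W} (h : (inner ℝ S.e p : ℝ) ≠ 0) :
    S.e + S.i (gn S p) = (inner ℝ S.e p : ℝ)⁻¹ • p := by
  have h1 := congrArg (fun z => (inner ℝ S.e p : ℝ)⁻¹ • z) (S.dec p)
  simp only [smul_add, smul_smul, inv_mul_cancel₀ h, one_smul] at h1
  rw [h1, gn, map_smul]

theorem inner_e_add (S : Spl V W) (a : V) : (inner ℝ S.e (S.e + S.i a) : ℝ) = 1 := by
  rw [inner_add_right, ee, S.ort, add_zero]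

theorem e_add_ne (S : Spl V W) (a : V) : S.e + S.i a ≠ 0 := fun h => by
  have := inner_e_add S a
  rw [h, inner_zero_right] at this
  exact zero_ne_one this

theorem gn_smul (S : Spl V W) {c : ℝ} (hc : c ≠ 0) (p : W) : gn S (c • p) = gn S p := by
  rw [gn, gn, real_inner_smul_right, map_smul, smul_smul, mul_inv, mul_right_comm,
    inv_mul_cancel₀ hc, one_mul]

theorem gn_e_add (S : Spl V W) (a : V) : gn S (S.e + S.i a) = a := by
  rw [gn, inner_e_add, map_add, S.pre, S.pri, zero_add, inv_one, one_smul]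

theorem i_wv (S : Spl V W) {p : W × W} (h : (inner ℝ S.e p.1 : ℝ) ≠ 0) :
    S.i (wv S p) = p.2 - ((inner ℝ S.e p.2 : ℝ) * (inner ℝ S.e p.1 : ℝ)⁻¹) • p.1 := by
  have h1 : S.i (gn S p.1) = (inner ℝ S.e p.1 : ℝ)⁻¹ • p.1 - S.e :=
    eq_sub_of_add_eq' (e_add_gn S h)
  have h2 : S.i (S.pr p.2) = p.2 - (inner ℝ S.e p.2 : ℝ) • S.e :=
    eq_sub_of_add_eq' (S.dec p.2).symm
  rw [wv, map_sub, map_smul, h1, h2, smul_sub, smul_smul]
  abel

theorem one_le_wv (S : Spl V W) (x : St W) (h : (inner ℝ S.e x.1.1 : ℝ) ≠ 0) :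
    1 ≤ ‖wv S x.1‖ := by
  obtain ⟨h1, h2, h3⟩ := x.2
  rw [← S.i.norm_map, i_wv S h]
  set c : ℝ := (inner ℝ S.e x.1.2 : ℝ) * (inner ℝ S.e x.1.1 : ℝ)⁻¹
  have h4 := norm_sub_sq_real x.1.2 (c • x.1.1)
  rw [real_inner_smul_right, real_inner_comm, h3, h2] at h4
  refine le_of_sq_le_sq ?_ (norm_nonneg _)
  nlinarith [sq_nonneg ‖c • x.1.1‖]

theorem norm_nm {p : W} (h : p ≠ 0) : ‖nz p‖ = 1 := by
  rw [nz, norm_smul, norm_inv, norm_norm, inv_mul_cancel₀ (norm_ne_zero_iff.2 h)]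

theorem nz_smul {c : ℝ} (hc : 0 < c) {p : W} (h : ‖p‖ = 1) : nz (c • p) = p := by
  rw [nz, norm_smul, h, mul_one, Real.norm_of_nonneg hc.le, smul_smul, inv_mul_cancel₀ hc.ne',
    one_smul]

theorem gs_ok {q : W × W} (h1 : q.1 ≠ 0) (h2 : op q ≠ 0) :
    ‖(gs q).1‖ = 1 ∧ ‖(gs q).2‖ = 1 ∧ (inner ℝ (gs q).1 (gs q).2 : ℝ) = 0 := by
  refine ⟨norm_nm h1, norm_nm h2, ?_⟩
  change (inner ℝ (nz q.1) (‖op q‖⁻¹ • op q) : ℝ) = 0
  rw [real_inner_smul_right, op, inner_sub_right, real_inner_smul_right,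
    real_inner_self_eq_norm_sq, norm_nm h1]
  simp

theorem inner_nm (S : Spl V W) (a : V) :
    (inner ℝ S.e (nz (S.e + S.i a)) : ℝ) = ‖S.e + S.i a‖⁻¹ := by
  rw [nz, real_inner_smul_right, inner_e_add, mul_one]

theorem inner_nm_pos (S : Spl V W) (a : V) : 0 < (inner ℝ S.e (nz (S.e + S.i a)) : ℝ) := by
  rw [inner_nm]
  exact inv_pos.2 (norm_pos_iff.2 (e_add_ne S a))

theorem gn_nm (S : Spl V W) (a : V) : gn S (nz (S.e + S.i a)) = a := by
  rw [nz, gn_smul S (inv_ne_zero (norm_ne_zero_iff.2 (e_add_ne S a))), gn_e_add]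

theorem nm_gn (S : Spl V W) {p : W} (hp : ‖p‖ = 1) (h : 0 < (inner ℝ S.e p : ℝ)) :
    nz (S.e + S.i (gn S p)) = p := by
  rw [e_add_gn S h.ne', nz_smul (inv_pos.2 h) hp]

theorem wv_op (S : Spl V W) (a v : V) (c : ℝ) :
    wv S (nz (S.e + S.i a), c • op (S.e + S.i a, S.i v)) = c • v := by
  have h := (inner_nm_pos S a).ne'
  simp only [wv, op]
  set y := nz (S.e + S.i a)
  set l : ℝ := inner ℝ y (S.i v)
  rw [map_smul, map_sub, map_smul, S.pri, real_inner_smul_right, inner_sub_right, S.ort,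
    real_inner_smul_right, gn, smul_smul]
  have : c * (0 - l * inner ℝ S.e y) * (inner ℝ S.e y : ℝ)⁻¹ = -(c * l) := by
    field_simp
    ring
  rw [this]
  module

theorem op_ne (S : Spl V W) (a : V) {v : V} (hv : v ≠ 0) : op (S.e + S.i a, S.i v) ≠ 0 := by
  intro h
  have := wv_op S a v 1
  rw [h, smul_zero, one_smul] at this
  apply hv
  rw [← this]
  simp [wv]

theorem cd_inner (S : Spl V W) : ContDiff ℝ ∞ fun p : W => (inner ℝ S.e p : ℝ) :=
  (innerSL ℝ S.e).contDiff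

theorem cd_gn (S : Spl V W) {p : W} (h : (inner ℝ S.e p : ℝ) ≠ 0) : ContDiffAt ℝ ∞ (gn S) p :=
  ((cd_inner S).contDiffAt.inv h).smul S.pr.contDiff.contDiffAt

theorem cd_wv (S : Spl V W) {p : W × W} (h : (inner ℝ S.e p.1 : ℝ) ≠ 0) :
    ContDiffAt ℝ ∞ (wv S) p :=
  (S.pr.contDiff.contDiffAt.comp p contDiffAt_snd).sub
    (((cd_inner S).contDiffAt.comp p contDiffAt_snd).smul ((cd_gn S h).comp p contDiffAt_fst))

theorem cd_kT (S : Spl V W) (S' : Spl V' V) {p : W × W} (h : (inner ℝ S.e p.1 : ℝ) ≠ 0)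
    (h' : (inner ℝ S'.e (wv S p) : ℝ) ≠ 0) :
    ContDiffAt ℝ ∞ (fun p : W × W => (gn S p.1, gn S' (wv S p))) p :=
  ((cd_gn S h).comp p contDiffAt_fst).prodMk ((cd_gn S' h').comp p (cd_wv S h))

theorem cd_nm {p : W} (h : p ≠ 0) : ContDiffAt ℝ ∞ (nz : W → W) p :=
  ((contDiffAt_norm ℝ h).inv (norm_ne_zero_iff.2 h)).smul contDiffAt_id

theorem cd_op {q : W × W} (h : q.1 ≠ 0) : ContDiffAt ℝ ∞ (op : W × W → W) q :=
  contDiffAt_snd.sub ((((cd_nm h).comp q contDiffAt_fst).inner ℝ contDiffAt_snd).smul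
    ((cd_nm h).comp q contDiffAt_fst))

theorem cd_gs {q : W × W} (h1 : q.1 ≠ 0) (h2 : op q ≠ 0) :
    ContDiffAt ℝ ∞ (gs : W × W → W × W) q :=
  ((cd_nm h1).comp q contDiffAt_fst).prodMk ((cd_nm h2).comp q (cd_op h1))

theorem cd_e_add (S : Spl V W) : ContDiff ℝ ∞ fun a : V => S.e + S.i a :=
  contDiff_const.add S.i.contDiff

theorem ipos (R : ℝ) : 0 < (|R| + 1)⁻¹ := by positivity

end Ch

open Ch

section Model

variable {V V' W : Type} [NormedAddCommGroup V] [InnerProductSpace ℝ V] [FiniteDimensional ℝ V]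
  [NormedAddCommGroup V'] [InnerProductSpace ℝ V'] [FiniteDimensional ℝ V']
  [NormedAddCommGroup W] [InnerProductSpace ℝ W] [FiniteDimensional ℝ W] {N : ℕ}

theorem pOpen_OF (S : Spl V W) : POpen (dSt W) (OF S) := by
  intro A _ _ _ u x hu hx
  have h1 : ContinuousAt (fun y => (u y).1) x := Sm.continuousAt hu
  exact ((cd_inner S).continuous.continuousAt.comp h1.fst).eventually (lt_mem_nhds hx)

theorem map_kF (S : Spl V W) : ((dSt W).on (OF S)).Map (Dif.lin V) (kF S) := by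
  intro A _ _ _ u x hu
  have h1 : Sm (fun y => (u y).1) x := hu.1
  change Sm (gn S ∘ fun y => (u y).1.1) x
  filter_upwards [h1, hu.2] with y k1 k2
  exact (cd_gn S (ne_of_gt k2)).comp y k1.fst

theorem prp_kF (S : Spl V W) : Prp (dSt W) (OF S) (kF S) := by
  intro A _ _ _ u x hu hx R
  have h1 : ContinuousAt (fun y => (u y).1) x := Sm.continuousAt hu
  have h2 : (inner ℝ S.e (u x).1.1 : ℝ) < (|R| + 1)⁻¹ := (not_lt.1 hx).trans_lt (ipos R)
  filter_upwards [((cd_inner S).continuous.continuousAt.comp h1.fst).eventually (gt_mem_nhds h2)]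
    with y k1 k2
  exact big S R (u y).2.1.ge k2 k1

theorem pOpen_OT (S : Spl V W) (S' : Spl V' V) : POpen (dSt W) (OT S S') := by
  intro A _ _ _ u x hu hx
  have h1 : ContinuousAt (fun y => (u y).1) x := Sm.continuousAt hu
  have h2 : ContinuousAt (fun y => wv S (u y).1) x :=
    ContinuousAt.comp (g := wv S) (cd_wv S (ne_of_gt hx.1)).continuousAt h1
  exact (pOpen_OF S hu hx.1).and
    (((cd_inner S').continuous.continuousAt.comp h2).eventually (lt_mem_nhds hx.2))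

theorem map_kT (S : Spl V W) (S' : Spl V' V) :
    ((dSt W).on (OT S S')).Map (Dif.lin (V × V')) (kT S S') := by
  intro A _ _ _ u x hu
  have h1 : Sm (fun y => (u y).1) x := hu.1
  change Sm ((fun p : W × W => (gn S p.1, gn S' (wv S p))) ∘ fun y => (u y).1) x
  filter_upwards [h1, hu.2] with y k1 k2
  exact (cd_kT S S' (ne_of_gt k2.1) (ne_of_gt k2.2)).comp y k1

theorem prp_kT (S : Spl V W) (S' : Spl V' V) : Prp (dSt W) (OT S S') (kT S S') := by
  intro A _ _ _ u x hu hx R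
  by_cases h0 : u x ∈ OF S
  · have h1 : ContinuousAt (fun y => (u y).1) x := Sm.continuousAt hu
    have h2 : ContinuousAt (fun y => wv S (u y).1) x :=
      ContinuousAt.comp (g := wv S) (cd_wv S (ne_of_gt h0)).continuousAt h1
    have h3 : (inner ℝ S'.e (wv S (u x).1) : ℝ) < (|R| + 1)⁻¹ :=
      (not_lt.1 fun h => hx ⟨h0, h⟩).trans_lt (ipos R)
    filter_upwards [((cd_inner S').continuous.continuousAt.comp h2).eventually (gt_mem_nhds h3)]
      with y k1 k2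
    exact (big S' R (one_le_wv S (u y) (ne_of_gt k2.1)) k2.2 k1).trans_le
      (norm_snd_le (kT S S' (u y)))
  · filter_upwards [prp_kF S hu h0 R] with y k1 k2
    exact (k1 k2.1).trans_le (norm_fst_le (kT S S' (u y)))

theorem exists_psi (S : Spl V W) (S' : Spl V' V) : ∃ ψ : V × V' → St W,
    (∀ g, (dSt W).At ψ g) ∧ (∀ g, ψ g ∈ OT S S') ∧ (∀ g, kT S S' (ψ g) = g) ∧
      ∀ x ∈ OT S S', ψ (kT S S' x) = x := by
  have hn : ∀ g : V × V', op (S.e + S.i g.1, S.i (S'.e + S'.i g.2)) ≠ 0 := fun g =>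
    op_ne S g.1 (e_add_ne S' g.2)
  have hw : ∀ g : V × V', wv S (gs (S.e + S.i g.1, S.i (S'.e + S'.i g.2))) =
      ‖op (S.e + S.i g.1, S.i (S'.e + S'.i g.2))‖⁻¹ • (S'.e + S'.i g.2) := fun g =>
    wv_op S g.1 _ _
  have hp : ∀ g : V × V', 0 < ‖op (S.e + S.i g.1, S.i (S'.e + S'.i g.2))‖⁻¹ := fun g =>
    inv_pos.2 (norm_pos_iff.2 (hn g))
  refine ⟨fun g => ⟨gs (S.e + S.i g.1, S.i (S'.e + S'.i g.2)), gs_ok (e_add_ne S g.1) (hn g)⟩,
    fun g => ?_, fun g => ⟨inner_nm_pos S g.1, ?_⟩, fun g => Prod.ext (gn_nm S g.1) ?_,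
    fun x hx => ?_⟩
  · change Sm (fun g : V × V' => gs (S.e + S.i g.1, S.i (S'.e + S'.i g.2))) g
    refine Eventually.of_forall fun g => ?_
    exact (cd_gs (e_add_ne S g.1) (hn g)).comp g
      ((((cd_e_add S).comp contDiff_fst).prodMk
        (S.i.contDiff.comp ((cd_e_add S').comp contDiff_snd))).contDiffAt)
  · change 0 < (inner ℝ S'.e (wv S (gs (S.e + S.i g.1, S.i (S'.e + S'.i g.2)))) : ℝ)
    rw [hw, real_inner_smul_right, inner_e_add, mul_one]
    exact hp g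
  · change gn S' (wv S (gs (S.e + S.i g.1, S.i (S'.e + S'.i g.2)))) = g.2
    rw [hw, gn_smul S' (hp g).ne', gn_e_add]
  · obtain ⟨h1, h2, h3⟩ := x.2
    have k1 : nz (S.e + S.i (gn S x.1.1)) = x.1.1 := nm_gn S h1 hx.1
    have k0 : 0 < (inner ℝ S'.e (wv S x.1) : ℝ) := hx.2
    refine Subtype.ext (Prod.ext k1 ?_)
    change nz (op (S.e + S.i (gn S x.1.1), S.i (S'.e + S'.i (gn S' (wv S x.1))))) = x.1.2
    rw [e_add_gn S' k0.ne', map_smul, i_wv S (ne_of_gt hx.1)]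
    simp only [op]
    rw [k1, real_inner_smul_right, inner_sub_right, real_inner_smul_right, h3,
      real_inner_self_eq_norm_sq, h1]
    rw [← nz_smul (inv_pos.2 k0) h2]
    congr 1
    rw [nz_smul (inv_pos.2 k0) h2]
    module

theorem near_kF (S : Spl V W) {x₀ : St W} (h : x₀ ∈ OF S) {ε : ℝ} (hε : 0 < ε) :
    ∃ δ > 0, ∀ x : St W, ‖x.1.1 - x₀.1.1‖ ≤ δ → x ∈ OF S ∧ kF S x ∈ ball (kF S x₀) ε := by
  have h1 : ∀ᶠ p in 𝓝 x₀.1.1, 0 < (inner ℝ S.e p : ℝ) ∧ gn S p ∈ ball (gn S x₀.1.1) ε :=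
    ((cd_inner S).continuous.continuousAt.eventually (lt_mem_nhds h)).and
      ((cd_gn S (ne_of_gt h)).continuousAt.eventually (ball_mem_nhds _ hε))
  obtain ⟨δ, hδ, h2⟩ := Metric.nhds_basis_closedBall.eventually_iff.1 h1
  exact ⟨δ, hδ, fun x hx => h2 (mem_closedBall_iff_norm.2 hx)⟩

theorem near_kT (S : Spl V W) (S' : Spl V' V) {x₀ : St W} (h : x₀ ∈ OT S S') {ε : ℝ}
    (hε : 0 < ε) : ∃ δ > 0, ∀ x : St W, ‖x.1 - x₀.1‖ ≤ δ →
      x ∈ OT S S' ∧ kT S S' x ∈ ball (kT S S' x₀) ε := by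
  have h0 : 0 < (inner ℝ S'.e (wv S x₀.1) : ℝ) := h.2
  have h1 : ∀ᶠ p in 𝓝 x₀.1, (0 < (inner ℝ S.e p.1 : ℝ) ∧ 0 < (inner ℝ S'.e (wv S p) : ℝ)) ∧
      (gn S p.1, gn S' (wv S p)) ∈ ball (gn S x₀.1.1, gn S' (wv S x₀.1)) ε :=
    ((((cd_inner S).continuous.comp continuous_fst).continuousAt.eventually (lt_mem_nhds h.1)).and
      (((cd_inner S').continuous.continuousAt.comp
        (cd_wv S (ne_of_gt h.1)).continuousAt).eventually (lt_mem_nhds h0))).and
      ((cd_kT S S' (ne_of_gt h.1) h0.ne').continuousAt.eventually (ball_mem_nhds _ hε))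
  obtain ⟨δ, hδ, h2⟩ := Metric.nhds_basis_closedBall.eventually_iff.1 h1
  exact ⟨δ, hδ, fun x hx => h2 (mem_closedBall_iff_norm.2 hx)⟩

/-- over the points near `kF x₀` there are pairs near `x₀` -/
theorem open_kF (S : Spl V W) {x₀ : St W} (h : x₀ ∈ OF S) {δ : ℝ} (hδ : 0 < δ) :
    ∃ ε > 0, ∀ y ∈ ball (kF S x₀) ε, ∃ x ∈ OF S, kF S x = y ∧ ‖x.1 - x₀.1‖ < δ := by
  obtain ⟨h1, h2, h3⟩ := x₀.2
  have k1 : nz (S.e + S.i (kF S x₀)) = x₀.1.1 := nm_gn S h1 h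
  have k2 : op (S.e + S.i (kF S x₀), x₀.1.2) = x₀.1.2 := by
    simp only [op]
    rw [k1, h3, zero_smul, sub_zero]
  have k3 : op (S.e + S.i (kF S x₀), x₀.1.2) ≠ 0 := by
    rw [k2, ← norm_ne_zero_iff, h2]
    exact one_ne_zero
  have k4 : gs (S.e + S.i (kF S x₀), x₀.1.2) = x₀.1 := by
    refine Prod.ext k1 ?_
    change nz (op _) = _
    rw [k2, nz, h2, inv_one, one_smul]
  have c1 : ContinuousAt (fun y : V => (S.e + S.i y, x₀.1.2)) (kF S x₀) :=
    ((cd_e_add S).continuous.prodMk continuous_const).continuousAt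
  have c2 : ContinuousAt (fun y : V => op (S.e + S.i y, x₀.1.2)) (kF S x₀) :=
    ContinuousAt.comp (g := op) (cd_op (e_add_ne S _)).continuousAt c1
  have c3 : ContinuousAt (fun y : V => gs (S.e + S.i y, x₀.1.2)) (kF S x₀) :=
    ContinuousAt.comp (g := gs) (cd_gs (e_add_ne S _) k3).continuousAt c1
  have e1 := (c2.eventually_ne k3).and (c3.eventually (ball_mem_nhds _ hδ))
  obtain ⟨ε, hε, e2⟩ := Metric.nhds_basis_ball.eventually_iff.1 e1
  refine ⟨ε, hε, fun y hy => ⟨⟨_, gs_ok (e_add_ne S y) (e2 hy).1⟩, inner_nm_pos S y, gn_nm S y, ?_⟩⟩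
  have := (e2 hy).2
  beta_reduce at this
  rwa [k4, dist_eq_norm] at this

theorem exists_kF (S : Spl V W) (hV : 0 < finrank ℝ V) (y : V) : ∃ x ∈ OF S, kF S x = y := by
  obtain ⟨v, hv⟩ := finrank_pos_iff_exists_ne_zero.1 hV
  exact ⟨⟨_, gs_ok (e_add_ne S y) (op_ne S y hv)⟩, inner_nm_pos S y, gn_nm S y⟩

end Model

end

end Vale.Agent.P231Z.C
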