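import Vale.Agent.P231Z.C.Basic

/-!
# P231, spheres and real projective spaces, the volume: collapsing homotopies
-/

set_option linter.unusedSectionVars false
set_option linter.unusedVariables false

open Set Filter Module MeasureTheory Metric
open scoped ContDiff Topology

namespace Vale.Agent.P231Z.C

noncomputable section

open Vale.Agent.P231 Vale.Agent.P231.Fm Vale.Agent.P231.W Vale.Agent.P231.H584
  Vale.Agent.P231Z.I7

variable {W : Type} [NormedAddCommGroup W] [InnerProductSpace ℝ W] [FiniteDimensional ℝ W]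

namespace Co5

theorem norm_one {a : W} (h : (inner ℝ a a : ℝ) = 1) : ‖a‖ = 1 := by
  rw [real_inner_self_eq_norm_sq] at h
  exact (pow_eq_one_iff_of_nonneg (norm_nonneg a) two_ne_zero).1 h

theorem inner_one {a : W} (h : ‖a‖ = 1) : (inner ℝ a a : ℝ) = 1 := by
  rw [real_inner_self_eq_norm_sq, h, one_pow]

theorem norm_rad' {x : W} (hx : x ≠ 0) : ‖rad x‖ = 1 := by
  rw [rad, norm_smul, norm_inv, norm_norm, inv_mul_cancel₀ (norm_ne_zero_iff.2 hx)]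

theorem rad_unit {x : W} (hx : ‖x‖ = 1) : rad x = x := by rw [rad, hx, inv_one, one_smul]

theorem cd_rad {A : Type} [NormedAddCommGroup A] [NormedSpace ℝ A] {f : A → W} {x : A}
    (hf : ContDiffAt ℝ ∞ f x) (h0 : f x ≠ 0) : ContDiffAt ℝ ∞ (fun y => rad (f y)) x :=
  ((hf.norm ℝ h0).inv (norm_ne_zero_iff.2 h0)).smul hf

theorem cd_st {A : Type} [NormedAddCommGroup A] [NormedSpace ℝ A] {f : A → ℝ} {x : A}
    (hf : ContDiffAt ℝ ∞ f x) : ContDiffAt ℝ ∞ (fun y => Real.smoothTransition (f y)) x :=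
  Real.smoothTransition.contDiff.contDiffAt.comp x hf

theorem eq_of_smul {y q : W} (hy : ‖y‖ = 1) (hq : ‖q‖ = 1) {a s : ℝ} (ha : 0 ≤ a) (hs : 0 ≤ s)
    (h0 : 0 < a + s) (h : a • y = s • q) : y = q ∧ 0 < s := by
  have h1 := congrArg norm h
  rw [norm_smul, norm_smul, hy, hq, mul_one, mul_one, Real.norm_of_nonneg ha,
    Real.norm_of_nonneg hs] at h1
  subst h1
  have h2 : 0 < a := by linarith
  exact ⟨smul_right_injective W h2.ne' h, h2⟩

/-- the second vector follows the first one -/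
def mv (y w b : W) : W := w - ((inner ℝ b w : ℝ) / (1 + inner ℝ y b)) • (y + b)

theorem mv_ok {y w b : W} (hy : ‖y‖ = 1) (hw : ‖w‖ = 1) (hyw : (inner ℝ y w : ℝ) = 0)
    (hb : ‖b‖ = 1) (h : (1 + inner ℝ y b : ℝ) ≠ 0) :
    ‖b‖ = 1 ∧ ‖mv y w b‖ = 1 ∧ (inner ℝ b (mv y w b) : ℝ) = 0 := by
  have k1 := inner_one hy
  have k2 := inner_one hw
  have k3 := inner_one hb
  have k4 : (inner ℝ w y : ℝ) = 0 := by rw [real_inner_comm, hyw]
  have k5 : (inner ℝ b y : ℝ) = inner ℝ y b := real_inner_comm _ _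
  have k6 : (inner ℝ w b : ℝ) = inner ℝ b w := real_inner_comm _ _
  refine ⟨hb, norm_one ?_, ?_⟩ <;>
  · simp only [mv, inner_sub_left, inner_sub_right, inner_add_left, inner_add_right,
      real_inner_smul_left, real_inner_smul_right, k1, k2, k3, k4, k5, k6, hyw]
    field_simp
    ring

/-- the weight -/
def sF (q : W) (δ : ℝ) (y : W) (t : ℝ) : ℝ :=
  Real.smoothTransition t * Real.smoothTransition (‖y - q‖ ^ 2 / δ ^ 2)

/-- the path of the first vector -/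
def cF (q : W) (δ : ℝ) (y : W) (t : ℝ) : W := (1 - sF q δ y t) • y - sF q δ y t • q

theorem st_mul {a b : ℝ} : 0 ≤ Real.smoothTransition a * Real.smoothTransition b ∧
    Real.smoothTransition a * Real.smoothTransition b ≤ 1 :=
  ⟨mul_nonneg (Real.smoothTransition.nonneg _) (Real.smoothTransition.nonneg _),
    mul_le_one₀ (Real.smoothTransition.le_one _) (Real.smoothTransition.nonneg _)
      (Real.smoothTransition.le_one _)⟩

theorem cF_ne {q y : W} (hq : ‖q‖ = 1) (hy : ‖y‖ = 1) (δ t : ℝ) {a : ℝ} (ha : 0 ≤ a) :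
    cF q δ y t ≠ -(a • y) := by
  intro h
  have h1 : 0 ≤ sF q δ y t ∧ sF q δ y t ≤ 1 := st_mul
  have h2 : (1 - sF q δ y t + a) • y = sF q δ y t • q := by
    rw [add_smul, ← sub_eq_zero, ← add_neg_cancel (a • y), ← h, cF]
    abel
  obtain ⟨h3, h4⟩ := eq_of_smul hy hq (by linarith) h1.1 (by linarith) h2
  rw [h3, sF, sub_self, norm_zero, zero_pow two_ne_zero, zero_div,
    Real.smoothTransition.zero, mul_zero] at h4
  exact lt_irrefl _ h4

theorem cF_ne_zero {q y : W} (hq : ‖q‖ = 1) (hy : ‖y‖ = 1) (δ t : ℝ) : cF q δ y t ≠ 0 := by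
  have h := cF_ne hq hy δ t le_rfl
  rwa [zero_smul, neg_zero] at h

theorem den_ne {q y : W} (hq : ‖q‖ = 1) (hy : ‖y‖ = 1) (δ t : ℝ) :
    (1 + inner ℝ y (rad (cF q δ y t)) : ℝ) ≠ 0 := by
  intro h
  have h0 := cF_ne_zero hq hy δ t
  have h1 : (inner ℝ (-y) (rad (cF q δ y t)) : ℝ) = 1 := by
    rw [inner_neg_left]
    linarith
  have h2 := (inner_eq_one_iff_of_norm_eq_one (𝕜 := ℝ) (by rw [norm_neg, hy]) (norm_rad' h0)).1 h1
  refine cF_ne hq hy δ t (norm_nonneg (cF q δ y t)) ?_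
  rw [← smul_neg, h2, rad, smul_smul, mul_inv_cancel₀ (norm_ne_zero_iff.2 h0), one_smul]

/-- the homotopy which collapses the first vector -/
def HF (q : W) (δ : ℝ) (p : St W × ℝ) : St W :=
  mkSt p.1 (rad (cF q δ p.1.1.1 p.2), mv p.1.1.1 p.1.1.2 (rad (cF q δ p.1.1.1 p.2)))

theorem HF_val {q : W} (hq : ‖q‖ = 1) (δ : ℝ) (p : St W × ℝ) : (HF q δ p).1 =
    (rad (cF q δ p.1.1.1 p.2), mv p.1.1.1 p.1.1.2 (rad (cF q δ p.1.1.1 p.2))) :=
  mkSt_val _ (mv_ok p.1.2.1 p.1.2.2.1 p.1.2.2.2 (norm_rad' (cF_ne_zero hq p.1.2.1 δ p.2))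
    (den_ne hq p.1.2.1 δ p.2))

theorem map_HF {q : W} (hq : ‖q‖ = 1) (δ : ℝ) :
    ((dSt W).prod (Dif.lin ℝ)).Map (dSt W) (HF q δ) := by
  intro E _ _ _ u x h
  have h1 : Sm (fun y => (u y).1.1) x := h.1
  have h2 : Sm (fun y => (u y).2) x := h.2
  change Sm (Subtype.val ∘ HF q δ ∘ u) x
  rw [show (Subtype.val ∘ HF q δ ∘ u) = _ from funext fun y => HF_val hq δ (u y)]
  filter_upwards [h1, h2] with y k1 k2
  have k3 : ContDiffAt ℝ ∞ (fun y => sF q δ (u y).1.1.1 (u y).2) y :=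
    (cd_st k2).mul (cd_st (((k1.fst.sub contDiffAt_const).norm_sq ℝ).div_const _))
  have k4 : ContDiffAt ℝ ∞ (fun y => rad (cF q δ (u y).1.1.1 (u y).2)) y :=
    cd_rad (((contDiffAt_const.sub k3).smul k1.fst).sub (k3.smul contDiffAt_const))
      (cF_ne_zero hq (u y).1.2.1 δ _)
  exact k4.prodMk (k1.snd.sub (((k4.inner ℝ k1.snd).div
    (contDiffAt_const.add (k1.fst.inner ℝ k4)) (den_ne hq (u y).1.2.1 δ _)).smul (k1.fst.add k4)))

theorem exists_HF {q : W} (hq : ‖q‖ = 1) {δ : ℝ} (hδ : 0 < δ) :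
    ∃ H : St W × ℝ → St W, ((dSt W).prod (Dif.lin ℝ)).Map (dSt W) H ∧ (∀ x, H (x, 0) = x) ∧
      (∀ x : St W, δ ≤ ‖x.1.1 - q‖ → (H (x, 1)).1.1 = -q) ∧
      ∀ x : St W, (inner ℝ q x.1.2 : ℝ) = 0 → (H (x, 1)).1.2 = x.1.2 := by
  refine ⟨HF q δ, map_HF hq δ, fun x => Subtype.ext ?_, fun x hx => ?_, fun x hx => ?_⟩
  · have h1 : rad (cF q δ x.1.1 0) = x.1.1 := by
      rw [cF, sF, Real.smoothTransition.zero, zero_mul, sub_zero, one_smul, zero_smul, sub_zero,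
        rad_unit x.2.1]
    rw [HF_val hq]
    simp only [h1]
    rw [mv, x.2.2.2, zero_div, zero_smul, sub_zero]
  · have h1 : sF q δ x.1.1 1 = 1 := by
      rw [sF, Real.smoothTransition.one, one_mul]
      exact Real.smoothTransition.one_of_one_le
        ((one_le_div (by positivity)).2 (pow_le_pow_left₀ hδ.le hx 2))
    rw [HF_val hq]
    simp only
    rw [cF, h1, sub_self, zero_smul, one_smul, zero_sub, rad_unit (by rw [norm_neg, hq])]
  · rw [HF_val hq]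
    simp only
    rw [mv, rad, cF, real_inner_smul_left, inner_sub_left, real_inner_smul_left,
      real_inner_smul_left, hx, x.2.2.2]
    simp

/-- the exchange of the two vectors -/
def sw (x : St W) : St W :=
  ⟨(x.1.2, x.1.1), x.2.2.1, x.2.1, by rw [real_inner_comm]; exact x.2.2.2⟩

theorem map_sw' : (dSt W).Map (dSt W) sw := by
  intro E _ _ _ u x h
  have h1 : Sm (fun y => (u y).1) x := h
  exact h1.snd.prodMk h1.fst

/-- the tangential part of `w₀` at `y` -/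
def tP (w₀ y : W) : W := w₀ - (inner ℝ y w₀ : ℝ) • y

theorem inner_tP (w₀ : W) {y : W} (hy : ‖y‖ = 1) : (inner ℝ y (tP w₀ y) : ℝ) = 0 := by
  rw [tP, inner_sub_right, real_inner_smul_right, inner_one hy, mul_one, sub_self]

theorem norm_tP (x₀ : St W) {y : W} (hy : ‖y‖ = 1) :
    ‖tP x₀.1.2 y - x₀.1.2‖ ≤ ‖y - x₀.1.1‖ := by
  have h1 : (inner ℝ y x₀.1.2 : ℝ) = inner ℝ (y - x₀.1.1) x₀.1.2 := by
    rw [inner_sub_left, x₀.2.2.2, sub_zero]
  have h2 := abs_real_inner_le_norm (y - x₀.1.1) x₀.1.2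
  rw [x₀.2.2.1, mul_one, ← h1] at h2
  rw [tP, sub_sub_cancel_left, norm_neg, norm_smul, hy, mul_one]
  exact h2

/-- the weight -/
def sG (x₀ : St W) (δ ε : ℝ) (p : (W × W) × ℝ) : ℝ :=
  Real.smoothTransition p.2 * (Real.smoothTransition (2 - ‖p.1.1 - x₀.1.1‖ ^ 2 / ε ^ 2) *
    Real.smoothTransition (2 * (‖p.1.2 - x₀.1.2‖ ^ 2 / δ ^ 2) - 1))

/-- the path of the second vector -/
def cG (x₀ : St W) (δ ε : ℝ) (p : (W × W) × ℝ) : W :=
  (1 - sG x₀ δ ε p) • p.1.2 - sG x₀ δ ε p • tP x₀.1.2 p.1.1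

theorem cG_ne (x₀ : St W) {δ ε : ℝ} (hε : 0 < ε) (h8 : 8 * ε ≤ δ) (x : St W) (t : ℝ) :
    cG x₀ δ ε (x.1, t) ≠ 0 := by
  intro h
  have hδ : 0 < δ := by linarith
  set s := sG x₀ δ ε (x.1, t) with hs
  have h1 : (1 - s) • x.1.2 = s • tP x₀.1.2 x.1.1 := sub_eq_zero.1 h
  have h2 : s ≠ 0 := fun h2 => by
    rw [h2, sub_zero, one_smul, zero_smul] at h1
    have h3 := x.2.2.1
    rw [h1, norm_zero] at h3
    exact zero_ne_one h3
  have h3 : 0 ≤ s ∧ s ≤ 1 := ⟨mul_nonneg (Real.smoothTransition.nonneg _) st_mul.1,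
    mul_le_one₀ (Real.smoothTransition.le_one _) st_mul.1 st_mul.2⟩
  have h4 := mul_ne_zero_iff.1 (mul_ne_zero_iff.1 h2).2
  have h5 : ‖x.1.1 - x₀.1.1‖ < 2 * ε := by
    have k := not_le.1 fun k => h4.1 (Real.smoothTransition.zero_of_nonpos k)
    rw [sub_pos, div_lt_iff₀ (by positivity)] at k
    exact lt_of_pow_lt_pow_left₀ 2 (by positivity) (by nlinarith)
  have h6 : δ / 2 < ‖x.1.2 - x₀.1.2‖ := by
    have k := not_le.1 fun k => h4.2 (Real.smoothTransition.zero_of_nonpos k)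
    rw [sub_pos, ← mul_div_assoc, lt_div_iff₀ (by positivity)] at k
    exact lt_of_pow_lt_pow_left₀ 2 (norm_nonneg _) (by nlinarith)
  have h7 : tP x₀.1.2 x.1.1 = ((1 - s) / s) • x.1.2 := by
    rw [div_eq_inv_mul, mul_smul, h1, smul_smul, inv_mul_cancel₀ h2, one_smul]
  have h9 : 0 ≤ (1 - s) / s := div_nonneg (by linarith) h3.1
  have k1 := norm_tP x₀ x.2.1
  have k2 := abs_norm_sub_norm_le (tP x₀.1.2 x.1.1) x₀.1.2
  have k3 := norm_sub_le_norm_sub_add_norm_sub x.1.2 (tP x₀.1.2 x.1.1) x₀.1.2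
  have k4 : ‖x.1.2 - tP x₀.1.2 x.1.1‖ = |‖tP x₀.1.2 x.1.1‖ - ‖x₀.1.2‖| := by
    rw [h7, norm_smul, x.2.2.1, x₀.2.2.1, mul_one, Real.norm_of_nonneg h9, abs_sub_comm]
    nth_rewrite 1 [← one_smul ℝ x.1.2]
    rw [← sub_smul, norm_smul, x.2.2.1, mul_one, Real.norm_eq_abs]
  linarith

/-- the homotopy which collapses the second vector -/
def HG (x₀ : St W) (δ ε : ℝ) (p : St W × ℝ) : St W :=
  mkSt p.1 (p.1.1.1, rad (cG x₀ δ ε (p.1.1, p.2)))

theorem HG_val (x₀ : St W) {δ ε : ℝ} (hε : 0 < ε) (h8 : 8 * ε ≤ δ) (p : St W × ℝ) :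
    (HG x₀ δ ε p).1 = (p.1.1.1, rad (cG x₀ δ ε (p.1.1, p.2))) :=
  mkSt_val _ ⟨p.1.2.1, norm_rad' (cG_ne x₀ hε h8 p.1 p.2), by
    rw [rad, cG, real_inner_smul_right, inner_sub_right, real_inner_smul_right,
      real_inner_smul_right, inner_tP _ p.1.2.1, p.1.2.2.2]
    simp⟩

theorem cd_tP {A : Type} [NormedAddCommGroup A] [NormedSpace ℝ A] {f : A → W} {x : A}
    (hf : ContDiffAt ℝ ∞ f x) (w₀ : W) : ContDiffAt ℝ ∞ (fun y => tP w₀ (f y)) x :=
  contDiffAt_const.sub ((hf.inner ℝ contDiffAt_const).smul hf)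

theorem map_HG (x₀ : St W) {δ ε : ℝ} (hε : 0 < ε) (h8 : 8 * ε ≤ δ) :
    ((dSt W).prod (Dif.lin ℝ)).Map (dSt W) (HG x₀ δ ε) := by
  intro E _ _ _ u x h
  have h1 : Sm (fun y => (u y).1.1) x := h.1
  have h2 : Sm (fun y => (u y).2) x := h.2
  change Sm (Subtype.val ∘ HG x₀ δ ε ∘ u) x
  rw [show (Subtype.val ∘ HG x₀ δ ε ∘ u) = _ from funext fun y => HG_val x₀ hε h8 (u y)]
  filter_upwards [h1, h2] with y k1 k2
  have k3 : ContDiffAt ℝ ∞ (fun y => sG x₀ δ ε ((u y).1.1, (u y).2)) y :=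
    (cd_st k2).mul ((cd_st (contDiffAt_const.sub
      (((k1.fst.sub contDiffAt_const).norm_sq ℝ).div_const _))).mul
      (cd_st ((contDiffAt_const.mul
        (((k1.snd.sub contDiffAt_const).norm_sq ℝ).div_const _)).sub contDiffAt_const)))
  exact k1.fst.prodMk (cd_rad (((contDiffAt_const.sub k3).smul k1.snd).sub
    (k3.smul (cd_tP k1.fst _))) (cG_ne x₀ hε h8 (u y).1 _))

end Co5

open Co5

theorem col_foot {q : W} (hq : ‖q‖ = 1) {δ : ℝ} (hδ : 0 < δ) :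
    ∃ (f : St W → St W) (hf : (dSt W).Map (dSt W) f), Htp (dSt W) f hf ∧
      (∀ x : St W, δ ≤ ‖x.1.1 - q‖ → (f x).1.1 = -q) ∧
      ∀ x : St W, (inner ℝ q x.1.2 : ℝ) = 0 → (f x).1.2 = x.1.2 := by
  obtain ⟨H, hH, h0, h1, h2⟩ := exists_HF hq hδ
  exact ⟨fun x => H (x, 1), map_at hH 1, htp_of H hH h0 _ fun _ => rfl, h1, h2⟩

theorem col_vec {q : W} (hq : ‖q‖ = 1) {δ : ℝ} (hδ : 0 < δ) :
    ∃ (f : St W → St W) (hf : (dSt W).Map (dSt W) f), Htp (dSt W) f hf ∧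
      (∀ x : St W, δ ≤ ‖x.1.2 - q‖ → (f x).1.2 = -q) ∧
      ∀ x : St W, (inner ℝ q x.1.1 : ℝ) = 0 → (f x).1.1 = x.1.1 := by
  obtain ⟨H, hH, h0, h1, h2⟩ := exists_HF hq hδ
  have hH' : ((dSt W).prod (Dif.lin ℝ)).Map (dSt W) fun p => sw (H (sw p.1, p.2)) :=
    fun h => map_sw' (hH (map_cyl map_sw' h))
  exact ⟨fun x => sw (H (sw x, 1)), map_at hH' 1,
    htp_of _ hH' (fun x => congrArg sw (h0 (sw x))) _ fun _ => rfl,
    fun x hx => h1 (sw x) hx, fun x hx => h2 (sw x) hx⟩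

theorem col_pt (x₀ : St W) {δ ε : ℝ} (hδ : 0 < δ) (hε : 0 < ε) :
    ∃ (f : St W → St W) (hf : (dSt W).Map (dSt W) f) (ε₁ ε₂ : ℝ) (τ : W → St W),
      Htp (dSt W) f hf ∧ ε₂ ≤ ε ∧ Col x₀ δ ε₁ ε₂ f τ := by
  obtain ⟨η, h0, h1, h2, h3⟩ : ∃ η : ℝ, 0 < η ∧ η ≤ ε ∧ 8 * η ≤ δ ∧ η ≤ 1 :=
    ⟨min ε (min (δ / 8) 1), by positivity, min_le_left _ _,
      by linarith [(min_le_right ε _).trans (min_le_left (δ / 8) 1)],
      (min_le_right _ _).trans (min_le_right _ _)⟩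
  obtain ⟨f, hf, k1, k2, -⟩ := col_foot x₀.2.1 (half_pos h0)
  have hG := @map_HG W _ _ _ x₀ δ η h0 h2
  have k3 : Htp (dSt W) (fun x => HG x₀ δ η (x, 1)) (map_at hG 1) :=
    htp_of _ hG (fun x => Subtype.ext (by
      rw [HG_val x₀ h0 h2, cG, sG]
      simp only [Real.smoothTransition.zero, zero_mul, sub_zero, one_smul, zero_smul]
      rw [rad_unit x.2.2.1])) _ fun _ => rfl
  have k4 : ∀ y : W, ‖y‖ = 1 → ‖y - x₀.1.1‖ < η → -tP x₀.1.2 y ≠ 0 := fun y hy hy' h => by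
    have k := norm_tP x₀ hy
    rw [neg_eq_zero.1 h, zero_sub, norm_neg, x₀.2.2.1] at k
    linarith
  have k5 : ∀ y : W, ‖y‖ = 1 → ‖y - x₀.1.1‖ < η →
      (mkSt x₀ (y, rad (-tP x₀.1.2 y))).1 = (y, rad (-tP x₀.1.2 y)) := fun y hy hy' =>
    mkSt_val _ ⟨hy, norm_rad' (k4 y hy hy'), by
      rw [rad, real_inner_smul_right, inner_neg_right, inner_tP _ hy, neg_zero, mul_zero]⟩
  refine ⟨_, _, η / 2, η, fun y => f (mkSt x₀ (y, rad (-tP x₀.1.2 y))), k1.comp k3, h1,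
    half_pos h0, half_lt_self h0, fun x hx => k2 _ ?_, fun x hx hx' => congrArg f ?_,
    fun {E} _ _ _ {u x} h => hf (u := fun y => mkSt x₀ (u y, rad (-tP x₀.1.2 (u y)))) ?_,
    fun y hy hy' h => k2 _ ?_⟩
  · rw [HG_val x₀ h0 h2]
    exact hx
  · have l1 : δ ≤ ‖x.1.2 - x₀.1.2‖ := by
      rw [Prod.norm_def, le_max_iff] at hx
      exact hx.resolve_left (not_le.2 (lt_of_lt_of_le hx' (by linarith)))
    have l2 : sG x₀ δ η (x.1, 1) = 1 := by
      have l3 : ‖x.1.1 - x₀.1.1‖ ^ 2 / η ^ 2 ≤ 1 :=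
        (div_le_one (by positivity)).2 (pow_le_pow_left₀ (norm_nonneg _) hx'.le 2)
      have l4 : 1 ≤ ‖x.1.2 - x₀.1.2‖ ^ 2 / δ ^ 2 :=
        (one_le_div (by positivity)).2 (pow_le_pow_left₀ hδ.le l1 2)
      rw [sG, Real.smoothTransition.one, Real.smoothTransition.one_of_one_le (by linarith),
        Real.smoothTransition.one_of_one_le (by linarith), one_mul, one_mul]
    refine Subtype.ext ?_
    rw [HG_val x₀ h0 h2, k5 _ x.2.1 hx', cG, l2, sub_self, zero_smul, one_smul, zero_sub]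
  · have l1 : Sm u x := h.1
    refine Sm.congr (f := fun y => (u y, rad (-tP x₀.1.2 (u y)))) ?_ ?_
    · filter_upwards [l1, h.2] with y l2 l3
      exact l2.prodMk (cd_rad (cd_tP l2 _).neg (k4 _ l3.1 l3.2))
    · filter_upwards [h.2] with y l3
      exact (k5 _ l3.1 l3.2).symm
  · rw [k5 y hy hy']
    exact h

end

end Vale.Agent.P231Z.C
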