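import Vale.Agent.P231Z.C.CovA

/-!
# P231, spheres and real projective spaces: the normalised differential is a covering
-/

set_option linter.unusedSectionVars false
set_option linter.unusedVariables false
set_option maxSynthPendingDepth 3

open Bundle Manifold Set Filter Module
open scoped ContDiff Topology Manifold

namespace Vale.Agent.P231Z.C

noncomputable section

open Vale.Agent.P234 Vale.Agent.P231 Vale.Agent.P231.Fm Vale.Agent.P231.W Vale.Agent.P231.WG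
  Vale.Agent.P231.H775

variable {E : Type*} [NormedAddCommGroup E] [NormedSpace ℝ E]
  {M : Type*} [MetricSpace M] [ChartedSpace E M]
  [RiemannianBundle (fun x : M => TangentSpace 𝓘(ℝ, E) x)]
  {e : ∀ x : M, TangentSpace 𝓘(ℝ, E) x → M}
  [FiniteDimensional ℝ E] [IsManifold 𝓘(ℝ, E) ∞ M]
  [IsContMDiffRiemannianBundle 𝓘(ℝ, E) ∞ E (fun x : M => TangentSpace 𝓘(ℝ, E) x)]
  {W : Type} [NormedAddCommGroup W] [InnerProductSpace ℝ W] [FiniteDimensional ℝ W]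

namespace CvA

variable {p : M} {S : Spl (Eu E) W} {c : ℝ} {j : W → M}

/-- the map in the chart at `x₀`, with the square of the norm -/
def Ps (x₀ : M) (j : W → M) (y : W) : E × ℝ :=
  (extChartAt 𝓘(ℝ, E) x₀ (j y), (inner ℝ y y : ℝ))

theorem contDiffAt_ch (hj : Jm e p S c j) {x₀ : M} {y : W} (hy : y ≠ 0)
    (hs : j y ∈ (extChartAt 𝓘(ℝ, E) x₀).source) :
    ContDiffAt ℝ ∞ (fun y => extChartAt 𝓘(ℝ, E) x₀ (j y)) y := by
  have h2 : ContMDiffAt 𝓘(ℝ, W) 𝓘(ℝ, E) ∞ (fun s' => extChartAt 𝓘(ℝ, E) x₀ (j s')) y :=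
    (contMDiffAt_extChartAt' (exm_mem_source hs)).comp y (jsm hj hy).self_of_nhds
  exact h2.contDiffAt

theorem contDiffAt_Ps (hj : Jm e p S c j) {x₀ : M} {y : W} (hy : y ≠ 0)
    (hs : j y ∈ (extChartAt 𝓘(ℝ, E) x₀).source) : ContDiffAt ℝ ∞ (Ps (E := E) x₀ j) y :=
  (contDiffAt_ch hj hy hs).prodMk (contDiffAt_id.inner ℝ contDiffAt_id)

theorem fderiv_Ps (hj : Jm e p S c j) {x₀ : M} {y : W} (hy : y ≠ 0)
    (hs : j y ∈ (extChartAt 𝓘(ℝ, E) x₀).source) (h : W) :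
    fderiv ℝ (Ps (E := E) x₀ j) y h =
      (crd (E := E) x₀ (j y) (CV.dF (E := E) j y h : E), 2 * (inner ℝ y h : ℝ)) := by
  have h1 := ((contDiffAt_ch hj hy hs).differentiableAt (by simp)).hasFDerivAt
  have h2 := (hasFDerivAt_id (𝕜 := ℝ) y).inner ℝ (hasFDerivAt_id (𝕜 := ℝ) y)
  have h3 := (h1.prodMk h2).fderiv
  have h4 : fderiv ℝ (Ps (E := E) x₀ j) y = _ := h3
  rw [h4]
  refine Prod.ext (CV.crd_mfderiv x₀ (jsm hj hy).self_of_nhds hs h).symm ?_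
  simp only [ContinuousLinearMap.prod_apply, ContinuousLinearMap.comp_apply,
    fderivInnerCLM_apply, ContinuousLinearMap.id_apply, id]
  rw [real_inner_comm y h]
  ring

theorem crd_inj {x₀ x : M} (hs : x ∈ (extChartAt 𝓘(ℝ, E) x₀).source) {a b : E}
    (h : crd (E := E) x₀ x a = crd (E := E) x₀ x b) : a = b :=
  (vec_crd (E := E) x₀ hs a).symm.trans ((congrArg (vec x₀ x) h).trans (vec_crd (E := E) x₀ hs b))

/-- a smooth local section of `Ps` -/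
theorem exists_inv (hj : Jm e p S c j) {y₀ : W} (hy : ‖y₀‖ = 1) :
    ∃ Θ : E × ℝ → W, Θ (Ps (j y₀) j y₀) = y₀ ∧
      (∀ᶠ q in 𝓝 (Ps (E := E) (j y₀) j y₀), Ps (j y₀) j (Θ q) = q) ∧
      ∀ᶠ q in 𝓝 (Ps (E := E) (j y₀) j y₀), ContDiffAt ℝ ∞ Θ q := by
  have h0 := ne_of_norm hy
  have hs : j y₀ ∈ (extChartAt 𝓘(ℝ, E) (j y₀)).source := mem_extChartAt_source _
  have hd : finrank ℝ (E × ℝ) = finrank ℝ W := by
    rw [finrank_prod, finrank_self, S.finrank_eq, finrank_euclideanSpace, Fintype.card_fin]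
  let L : (E × ℝ) ≃L[ℝ] W := ContinuousLinearEquiv.ofFinrankEq hd
  have h1 : ∀ᶠ y in 𝓝 y₀, ContDiffAt ℝ ∞ (Ps (E := E) (j y₀) j) y := by
    filter_upwards [isOpen_ne.mem_nhds h0, (jsm hj h0).self_of_nhds.continuousAt.eventually
      ((isOpen_extChartAt_source (j y₀)).mem_nhds hs)] with y k1 k2
    exact contDiffAt_Ps hj k1 k2
  have h2 : ∀ᶠ y in 𝓝 y₀, ContDiffAt ℝ ∞ (fun y => L (Ps (E := E) (j y₀) j y)) y := by
    filter_upwards [h1] with y k1 using L.contDiff.contDiffAt.comp y k1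
  have h3 : fderiv ℝ (fun y => L (Ps (E := E) (j y₀) j y)) y₀ =
      (L : (E × ℝ) →L[ℝ] W).comp (fderiv ℝ (Ps (E := E) (j y₀) j) y₀) :=
    (L.hasFDerivAt.comp y₀ (h1.self_of_nhds.differentiableAt (by simp)).hasFDerivAt).fderiv
  set A := (L : (E × ℝ) →L[ℝ] W).comp (fderiv ℝ (Ps (E := E) (j y₀) j) y₀) with hA
  have hi : Function.Injective A := by
    rw [injective_iff_map_eq_zero]
    intro h hh
    have k1 : fderiv ℝ (Ps (E := E) (j y₀) j) y₀ h = 0 := (map_eq_zero_iff L L.injective).1 hh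
    rw [fderiv_Ps hj h0 hs, Prod.mk_eq_zero] at k1
    refine hj.imm y₀ h hy (by linarith [k1.2]) (crd_inj hs (k1.1.trans ?_))
    exact (map_zero (crd (E := E) (j y₀) (j y₀))).symm
  have hb : Function.Bijective A.toLinearMap :=
    ⟨hi, LinearMap.injective_iff_surjective.1 hi⟩
  obtain ⟨G, g0, -, g2, g3⟩ := localInverse_smooth h2
    (LinearEquiv.ofBijective A.toLinearMap hb).toContinuousLinearEquiv
    (h3.trans (ContinuousLinearMap.ext fun h => rfl))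
  have hL : Tendsto L (𝓝 (Ps (E := E) (j y₀) j y₀)) (𝓝 (L (Ps (E := E) (j y₀) j y₀))) :=
    L.continuous.continuousAt
  refine ⟨fun q => G (L q), g0, ?_, ?_⟩
  · filter_upwards [hL.eventually g2] with q hq using L.injective hq
  · filter_upwards [hL.eventually g3] with q hq using hq.comp q L.contDiff.contDiffAt

theorem uu_lift (hj : Jm e p S c j) {V : Type} [NormedAddCommGroup V] [NormedSpace ℝ V]
    [FiniteDimensional ℝ V] {g : V → UT E M} {x : V} (s : St W) (hg : (dUT E M).At g x)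
    (hs : uu hj s = g x) : ∃ v : V → St W, (dSt W).At v x ∧ v x = s ∧ uu hj ∘ v =ᶠ[𝓝 x] g := by
  obtain ⟨Θ, t0, t1, t2⟩ := exists_inv hj s.2.1
  set x₀ := j s.1.1 with hx₀
  have hf : foot (g x) = x₀ := by rw [← hs]; rfl
  have hsrc : x₀ ∈ (extChartAt 𝓘(ℝ, E) x₀).source := mem_extChartAt_source _
  have hg1 : ∀ᶠ y in 𝓝 x, SmV (fun y => (g y).1.1) (fun y => (g y).1.2) y := hg
  have hg2 : ∀ᶠ y in 𝓝 x, foot (g y) ∈ (extChartAt 𝓘(ℝ, E) x₀).source :=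
    hg1.self_of_nhds.base.continuousAt.eventually
      ((isOpen_extChartAt_source x₀).mem_nhds (by
        change foot (g x) ∈ _
        rw [hf]; exact hsrc))
  let q : V → E × ℝ := fun y => (extChartAt 𝓘(ℝ, E) x₀ (foot (g y)), 1)
  let a : V → E × ℝ := fun y => (crd (E := E) x₀ (foot (g y)) (vec' (E := E) (g y) : E), 0)
  have hqa : ∀ᶠ y in 𝓝 x, ContDiffAt ℝ ∞ q y ∧ ContDiffAt ℝ ∞ a y := by
    filter_upwards [hg1, hg2] with y k1 k2
    have k3 := (smV_iff (f := fun y => (g y).1.1) (u := fun y => (g y).1.2) x₀ k2).1 k1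
    have k4 : ContMDiffAt 𝓘(ℝ, V) 𝓘(ℝ, E) ∞ (fun y => extChartAt 𝓘(ℝ, E) x₀ (foot (g y))) y :=
      (contMDiffAt_extChartAt' (exm_mem_source k2)).comp y k3.1
    exact ⟨k4.contDiffAt.prodMk contDiffAt_const, k3.2.prodMk contDiffAt_const⟩
  have hqx : q x = Ps x₀ j s.1.1 := by
    refine Prod.ext (congrArg (extChartAt 𝓘(ℝ, E) x₀) hf) ?_
    change (1 : ℝ) = inner ℝ s.1.1 s.1.1
    rw [real_inner_self_eq_norm_sq, s.2.1, one_pow]
  have hq : Tendsto q (𝓝 x) (𝓝 (Ps x₀ j s.1.1)) := hqx ▸ hqa.self_of_nhds.1.continuousAt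
  have hΘ : Tendsto Θ (𝓝 (Ps x₀ j s.1.1)) (𝓝 s.1.1) := by
    have h := t2.self_of_nhds.continuousAt.tendsto
    rwa [t0] at h
  have h0 := ne_of_norm s.2.1
  have hy : ∀ᶠ y in 𝓝 s.1.1, y ≠ 0 ∧ j y ∈ (extChartAt 𝓘(ℝ, E) x₀).source :=
    (isOpen_ne.eventually_mem h0).and ((jsm hj h0).self_of_nhds.continuousAt.eventually
      ((isOpen_extChartAt_source x₀).mem_nhds hsrc))
  let Y : V → W := fun y => Θ (q y)
  let H : V → W := fun y => fderiv ℝ Θ (q y) (a y)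
  have key : ∀ᶠ y in 𝓝 x, (ContDiffAt ℝ ∞ Y y ∧ ContDiffAt ℝ ∞ H y) ∧ H y ≠ 0 ∧
      (mkSt s (Y y, ‖H y‖⁻¹ • H y)).1 = (Y y, ‖H y‖⁻¹ • H y) ∧
        uu hj (mkSt s (Y y, ‖H y‖⁻¹ • H y)) = g y := by
    filter_upwards [hqa, hg2, hq.eventually t1.eventually_nhds, hq.eventually t2,
      (hΘ.comp hq).eventually hy] with y k1 k2 k3 k4 k5
    have k6 : Ps x₀ j (Y y) = q y := k3.self_of_nhds
    have k7 : ‖Y y‖ = 1 := by
      have k8 : (inner ℝ (Y y) (Y y) : ℝ) = 1 := congrArg Prod.snd k6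
      rw [real_inner_self_eq_norm_sq] at k8
      exact (pow_eq_one_iff_of_nonneg (norm_nonneg _) two_ne_zero).1 k8
    have k8 : j (Y y) = foot (g y) :=
      (extChartAt 𝓘(ℝ, E) x₀).injOn k5.2 k2 (congrArg Prod.fst k6)
    have k9 : fderiv ℝ (Ps (E := E) x₀ j) (Y y) (H y) = a y := by
      have m1 := (((contDiffAt_Ps hj k5.1 k5.2).differentiableAt (by simp)).hasFDerivAt.comp (q y)
        (k4.differentiableAt (by simp)).hasFDerivAt).fderiv
      have m2 : (Ps (E := E) x₀ j ∘ Θ) =ᶠ[𝓝 (q y)] id := k3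
      rw [m2.fderiv_eq, fderiv_id] at m1
      exact (congrArg (fun T : (E × ℝ) →L[ℝ] E × ℝ => T (a y)) m1).symm
    replace k9 := (fderiv_Ps hj (y := Y y) k5.1 k5.2 (H y)).symm.trans k9
    have k10 : (inner ℝ (Y y) (H y) : ℝ) = 0 := by
      have m1 : 2 * (inner ℝ (Y y) (H y) : ℝ) = 0 := congrArg Prod.snd k9
      linarith
    have k11 : (CV.dF j (Y y) (H y) : E) = vec' (g y) := by
      have m1 : crd (E := E) x₀ (j (Y y)) (CV.dF (E := E) j (Y y) (H y) : E) =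
          crd (E := E) x₀ (foot (g y)) (vec' (E := E) (g y) : E) := congrArg Prod.fst k9
      have m2 : ∀ (z z' : M) (b : E), z = z' → crd (E := E) x₀ z b = crd (E := E) x₀ z' b := by
        rintro z z' b rfl
        rfl
      exact crd_inj k2 ((m2 _ _ _ k8).symm.trans m1)
    exact ⟨⟨k4.comp y k1.1, ((k4.fderiv_right (m := ∞) (by simp)).comp y k1.1).clm_apply k1.2⟩,
      uu_of hj k7 k10 k8 k11 s⟩
  refine ⟨fun y => mkSt s (Y y, ‖H y‖⁻¹ • H y), ?_, ?_, ?_⟩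
  · have h1 : Sm (fun y => (Y y, ‖H y‖⁻¹ • H y)) x := by
      filter_upwards [key] with y k
      exact k.1.1.prodMk (((k.1.2.norm ℝ k.2.1).inv (norm_ne_zero_iff.2 k.2.1)).smul k.1.2)
    refine Sm.congr h1 ?_
    filter_upwards [key] with y k using k.2.2.1.symm
  · have k := key.self_of_nhds
    refine uu_inj hj (hs.trans k.2.2.2.symm) ?_
    rw [k.2.2.1]
    change Θ (q x) = s.1.1
    rw [hqx, t0]
  · filter_upwards [key] with y k using k.2.2.2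

end CvA

variable [CompactSpace M] [ConnectedSpace M] [IsRiemannianManifold 𝓘(ℝ, E) M] (F : Facts e)

include F in
theorem exists_cov {p : M} {S : Spl (Eu E) W} {c : ℝ} (hc : 0 < c) {j : W → M}
    (hj : Jm e p S c j) (hf : (∀ y y' : W, ‖y‖ = 1 → ‖y'‖ = 1 → j y = j y' → y' = y) ∨
      ((∀ y, j (-y) = j y) ∧ ∀ y y' : W, ‖y‖ = 1 → ‖y'‖ = 1 → j y = j y' → y' = y ∨ y' = -y)) :
    ∃ u : St W → UT E M, Cov (dUT E M) u ∧ (∀ x, foot (u x) = j x.1.1) ∧
      ((∀ y y' : W, ‖y‖ = 1 → ‖y'‖ = 1 → j y = j y' → y' = y) → Function.Injective u) ∧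
      ((∀ y, j (-y) = j y) → ∀ x, u x.neg = u x) ∧
      (∀ (R : ℝ) (x0 : St W) (v0 : UT E M), ∃ X : Fr e p R, ∀ z : Eu E × Eu E, ‖z.1‖ < R →
        z.2 ≠ 0 → cc X v0 z = u (ccM S x0 c z)) ∧
      ∀ x : St W, x.1.1 = S.e → ∀ t : ℝ, u (mf (x, t / c)) = phi F (u x, t) := by
  have hinj : (∀ y y' : W, ‖y‖ = 1 → ‖y'‖ = 1 → j y = j y' → y' = y) →
      Function.Injective (CvA.uu hj) := fun h s s' k =>
    (CvA.uu_inj hj k (h _ _ s.2.1 s'.2.1 (congrArg foot k))).symm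
  refine ⟨CvA.uu hj, ⟨CvA.map_uu hj, CvA.uu_surj F hj, fun s hg hs => CvA.uu_lift hj s hg hs,
    fun s s' k => ?_⟩, CvA.foot_uu hj, hinj, CvA.uu_neg hj, CvA.exists_frame F hc hj,
    CvA.uu_path F hc hj⟩
  rcases hf with h | ⟨hn, h⟩
  · exact Or.inl (hinj h k).symm
  · rcases h _ _ s.2.1 s'.2.1 (congrArg foot k) with h1 | h1
    · exact Or.inl (CvA.uu_inj hj k h1)
    · exact Or.inr (CvA.uu_inj hj ((CvA.uu_neg hj hn s).trans k) h1)

end

end Vale.Agent.P231Z.C
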