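import Vale.Agent.P231Z.C.Defs

/-!
# P231, spheres and real projective spaces, the volume: splittings and rotations
-/

set_option linter.unusedSectionVars false
set_option linter.unusedVariables false
set_option maxSynthPendingDepth 3

open Set Filter Module MeasureTheory Metric
open scoped ContDiff Topology

namespace Vale.Agent.P231Z.C

noncomputable section

open Vale.Agent.P231 Vale.Agent.P231.Fm Vale.Agent.P231.W Vale.Agent.P231.H584
  Vale.Agent.P231Z.I7
open Vale.Agent.P231.S2I (dP)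

section Model

variable {V V' W : Type} [NormedAddCommGroup V] [InnerProductSpace ℝ V] [FiniteDimensional ℝ V]
  [NormedAddCommGroup V'] [InnerProductSpace ℝ V'] [FiniteDimensional ℝ V']
  [NormedAddCommGroup W] [InnerProductSpace ℝ W] [FiniteDimensional ℝ W] {N : ℕ}

theorem norm_unit {v : V} (hv : v ≠ 0) : ‖‖v‖⁻¹ • v‖ = 1 := norm_smul_inv_norm (𝕜 := ℝ) hv

theorem exists_spl (a : W) (ha : ‖a‖ = 1) :
    ∃ S : Spl (ℝ ∙ a)ᗮ W, S.e = a ∧ ∀ v, S.i v = v := by
  have haa : (inner ℝ a a : ℝ) = 1 := by rw [real_inner_self_eq_norm_sq, ha, one_pow]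
  let L : W →L[ℝ] W := ContinuousLinearMap.id ℝ W - (innerSL ℝ a).smulRight a
  have hL : ∀ w, L w = w - (inner ℝ a w : ℝ) • a := fun w => by simp [L]
  have hm : ∀ w, L w ∈ (ℝ ∙ a)ᗮ := fun w => by
    rw [Submodule.mem_orthogonal_singleton_iff_inner_right, hL, inner_sub_right,
      real_inner_smul_right, haa, mul_one, sub_self]
  have ho : ∀ v : (ℝ ∙ a)ᗮ, (inner ℝ a (v : W) : ℝ) = 0 := fun v =>
    Submodule.mem_orthogonal_singleton_iff_inner_right.1 v.2
  refine ⟨⟨a, (ℝ ∙ a)ᗮ.subtypeₗᵢ, L.codRestrict _ hm, ha, ho, ?_, ?_, ?_⟩, rfl, fun v => rfl⟩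
  · intro v
    apply Subtype.ext
    change L v = v
    rw [hL, ho, zero_smul, sub_zero]
  · apply Subtype.ext
    change L a = 0
    rw [hL, haa, one_smul, sub_self]
  · intro w
    change w = _ + L w
    rw [hL, add_sub_cancel]

theorem exists_spl' (V : Type) [NormedAddCommGroup V] [InnerProductSpace ℝ V] :
    Nonempty (Spl V (WithLp 2 (ℝ × V))) := by
  let i : V →ₗᵢ[ℝ] WithLp 2 (ℝ × V) :=
    { toFun := fun v => WithLp.toLp 2 (0, v)
      map_add' := fun v w => by rw [← WithLp.toLp_add]; simp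
      map_smul' := fun c v => by rw [← WithLp.toLp_smul]; simp
      norm_map' := fun v => by simp }
  refine ⟨⟨WithLp.toLp 2 (1, 0), i,
    (ContinuousLinearMap.snd ℝ ℝ V).comp (WithLp.prodContinuousLinearEquiv 2 ℝ ℝ V :
      WithLp 2 (ℝ × V) →L[ℝ] ℝ × V), ?_, ?_, ?_, ?_, ?_⟩⟩
  · simp
  · intro v
    simp [i, WithLp.prod_inner_apply]
  · intro v
    simp [i]
  · simp
  · intro w
    have : (inner ℝ (WithLp.toLp 2 ((1 : ℝ), (0 : V))) w : ℝ) = w.fst := by
      simp [WithLp.prod_inner_apply]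
    rw [this]
    apply WithLp.ofLp_injective 2
    ext <;> simp [i]

namespace Spl

theorem inner_e_e (S : Spl V W) : (inner ℝ S.e S.e : ℝ) = 1 := by
  rw [real_inner_self_eq_norm_sq, S.he, one_pow]

theorem ort' (S : Spl V W) (v : V) : (inner ℝ (S.i v) S.e : ℝ) = 0 := by
  rw [real_inner_comm, S.ort]

theorem inner_i_i (S : Spl V W) (v w : V) : (inner ℝ (S.i v) (S.i w) : ℝ) = inner ℝ v w :=
  S.i.inner_map_map v w

theorem inner_i (S : Spl V W) (v : V) (w : W) :
    (inner ℝ (S.i v) w : ℝ) = inner ℝ v (S.pr w) := by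
  conv_lhs => rw [S.dec w]
  rw [inner_add_right, real_inner_smul_right, S.ort', mul_zero, zero_add, S.inner_i_i]

theorem i_pr (S : Spl V W) (w : W) : S.i (S.pr w) = w - (inner ℝ S.e w : ℝ) • S.e :=
  eq_sub_of_add_eq' (S.dec w).symm

theorem inner_eq (S : Spl V W) (w w' : W) : (inner ℝ w w' : ℝ) =
    inner ℝ S.e w * inner ℝ S.e w' + inner ℝ (S.pr w) (S.pr w') := by
  conv_lhs => rw [S.dec w]
  rw [inner_add_left, real_inner_smul_left, S.inner_i]

theorem norm_sq_eq (S : Spl V W) (w : W) :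
    ‖w‖ ^ 2 = (inner ℝ S.e w : ℝ) ^ 2 + ‖S.pr w‖ ^ 2 := by
  rw [← real_inner_self_eq_norm_sq, ← real_inner_self_eq_norm_sq, S.inner_eq, sq]

theorem pr_comb (S : Spl V W) (a : ℝ) (v : V) : S.pr (a • S.e + S.i v) = v := by
  rw [map_add, map_smul, S.pre, smul_zero, zero_add, S.pri]

theorem inner_comb (S : Spl V W) (a : ℝ) (v : V) :
    (inner ℝ S.e (a • S.e + S.i v) : ℝ) = a := by
  rw [inner_add_right, real_inner_smul_right, S.inner_e_e, S.ort, mul_one, add_zero]

/-- the splitting as a linear equivalence -/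
def equiv (S : Spl V W) : W ≃ₗ[ℝ] ℝ × V where
  toFun w := (inner ℝ S.e w, S.pr w)
  invFun p := p.1 • S.e + S.i p.2
  map_add' w w' := by rw [inner_add_right, map_add]; rfl
  map_smul' c w := by rw [real_inner_smul_right, map_smul]; rfl
  left_inv w := (S.dec w).symm
  right_inv p := Prod.ext (S.inner_comb _ _) (S.pr_comb _ _)

theorem finrank_eq (S : Spl V W) : finrank ℝ W = finrank ℝ V + 1 := by
  rw [S.equiv.finrank_eq, Module.finrank_prod, Module.finrank_self, add_comm]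

theorem sk_apply (S : Spl V W) (ξ : V) (a : W) :
    S.sk ξ a = (inner ℝ S.e a : ℝ) • S.i ξ - (inner ℝ (S.i ξ) a : ℝ) • S.e := by
  simp [Spl.sk]

theorem sk_e (S : Spl V W) (ξ : V) : S.sk ξ S.e = S.i ξ := by
  rw [sk_apply, S.inner_e_e, S.ort', one_smul, zero_smul, sub_zero]

theorem sk_i (S : Spl V W) (ξ a : V) : S.sk ξ (S.i a) = -(inner ℝ ξ a : ℝ) • S.e := by
  rw [sk_apply, S.ort, S.inner_i_i, zero_smul, zero_sub, neg_smul]

theorem sk_skew (S : Spl V W) (ξ : V) (a b : W) :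
    (inner ℝ a (S.sk ξ b) : ℝ) + inner ℝ (S.sk ξ a) b = 0 := by
  rw [sk_apply, sk_apply, inner_sub_left, inner_sub_right, real_inner_smul_left,
    real_inner_smul_left, real_inner_smul_right, real_inner_smul_right,
    real_inner_comm (S.i ξ) a, real_inner_comm S.e a]
  ring

/-- the generator as a linear map -/
def skL (S : Spl V W) : V →ₗ[ℝ] (W →L[ℝ] W) where
  toFun := S.sk
  map_add' ξ η := by
    ext a
    rw [add_apply, sk_apply, sk_apply, sk_apply, map_add, inner_add_left]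
    module
  map_smul' c ξ := by
    ext a
    rw [smul_apply, sk_apply, sk_apply, map_smul, real_inner_smul_left,
      RingHom.id_apply]
    module

theorem sk_smul (S : Spl V W) (c : ℝ) (ξ : V) : S.sk (c • ξ) = c • S.sk ξ := S.skL.map_smul c ξ

theorem sk_zero (S : Spl V W) : S.sk 0 = 0 := S.skL.map_zero

theorem contDiff_sk (S : Spl V W) : ContDiff ℝ ∞ S.sk :=
  (LinearMap.toContinuousLinearMap S.skL).contDiff

theorem contDiff_rot (S : Spl V W) : ContDiff ℝ ∞ S.rot := by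
  have : CompleteSpace W := FiniteDimensional.complete ℝ W
  have h : ContDiff ℝ ∞ (NormedSpace.exp : (W →L[ℝ] W) → W →L[ℝ] W) :=
    contDiff_iff_contDiffAt.2 fun x => (NormedSpace.exp_analytic (𝕂 := ℝ) x).contDiffAt
  exact h.comp S.contDiff_sk

theorem rot_zero (S : Spl V W) : S.rot 0 = 1 := by
  rw [Spl.rot, sk_zero, NormedSpace.exp_zero]

theorem hasDerivAt_rot (S : Spl V W) (ξ : V) (a : W) (t : ℝ) :
    HasDerivAt (fun s : ℝ => S.rot (s • ξ) a) (S.sk ξ (S.rot (t • ξ) a)) t := by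
  have : CompleteSpace W := FiniteDimensional.complete ℝ W
  have h := (hasDerivAt_exp_smul_const' (𝕂 := ℝ) (S.sk ξ) t).clm_apply
    (hasDerivAt_const t a)
  simp only [Spl.rot, sk_smul]
  simpa using h

theorem hasDerivAt_rot' (S : Spl V W) (ξ : V) (a : W) (t : ℝ) :
    HasDerivAt (fun s : ℝ => S.rot (s • ξ) a) (S.rot (t • ξ) (S.sk ξ a)) t := by
  have : CompleteSpace W := FiniteDimensional.complete ℝ W
  have h := (hasDerivAt_exp_smul_const (𝕂 := ℝ) (S.sk ξ) t).clm_apply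
    (hasDerivAt_const t a)
  simp only [Spl.rot, sk_smul]
  simpa using h

/-- two solutions of the skew equation have constant inner product -/
theorem inner_const (S : Spl V W) (ξ : V) {f g : ℝ → W}
    (hf : ∀ t, HasDerivAt f (S.sk ξ (f t)) t) (hg : ∀ t, HasDerivAt g (S.sk ξ (g t)) t) (t : ℝ) :
    (inner ℝ (f t) (g t) : ℝ) = inner ℝ (f 0) (g 0) := by
  have h : ∀ t, HasDerivAt (fun s => (inner ℝ (f s) (g s) : ℝ)) 0 t := fun t => by
    have := (hf t).inner ℝ (hg t)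
    rwa [S.sk_skew] at this
  exact is_const_of_deriv_eq_zero (fun t => (h t).differentiableAt) (fun t => (h t).deriv) t 0

/-- uniqueness for the skew equation -/
theorem rot_eq_of (S : Spl V W) (ξ : V) {f : ℝ → W}
    (hf : ∀ t, HasDerivAt f (S.sk ξ (f t)) t) (t : ℝ) : S.rot (t • ξ) (f 0) = f t := by
  have h : ∀ t, HasDerivAt (fun s : ℝ => S.rot (s • ξ) (f 0) - f s)
      (S.sk ξ (S.rot (t • ξ) (f 0) - f t)) t := fun t => by
    rw [map_sub]
    exact (S.hasDerivAt_rot ξ (f 0) t).sub (hf t)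
  have h2 := S.inner_const ξ h h t
  simp only [zero_smul, rot_zero, one_apply_eq_self, sub_self, inner_zero_left,
    inner_self_eq_zero] at h2
  exact sub_eq_zero.1 h2

theorem inner_rot (S : Spl V W) (ξ : V) (a a' : W) :
    (inner ℝ (S.rot ξ a) (S.rot ξ a') : ℝ) = inner ℝ a a' := by
  have h := S.inner_const ξ (S.hasDerivAt_rot ξ a) (S.hasDerivAt_rot ξ a') 1
  simpa only [one_smul, zero_smul, rot_zero, one_apply_eq_self] using h

theorem norm_rot (S : Spl V W) (ξ : V) (a : W) : ‖S.rot ξ a‖ = ‖a‖ := by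
  rw [norm_eq_sqrt_real_inner, S.inner_rot, ← norm_eq_sqrt_real_inner]

theorem rot_e (S : Spl V W) {v : V} (hv : ‖v‖ = 1) (t : ℝ) :
    S.rot (t • v) S.e = Real.cos t • S.e + Real.sin t • S.i v := by
  have hvv : (inner ℝ v v : ℝ) = 1 := by rw [real_inner_self_eq_norm_sq, hv, one_pow]
  have h := S.rot_eq_of v (f := fun t => Real.cos t • S.e + Real.sin t • S.i v) (fun t => by
    refine (((Real.hasDerivAt_cos t).smul_const S.e).add
      ((Real.hasDerivAt_sin t).smul_const (S.i v))).congr_deriv ?_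
    rw [map_add, map_smul, map_smul, sk_e, sk_i, hvv]
    module) t
  simpa only [Real.cos_zero, Real.sin_zero, one_smul, zero_smul, add_zero] using h

theorem rot_v (S : Spl V W) {v : V} (hv : ‖v‖ = 1) (t : ℝ) :
    S.rot (t • v) (S.i v) = -Real.sin t • S.e + Real.cos t • S.i v := by
  have hvv : (inner ℝ v v : ℝ) = 1 := by rw [real_inner_self_eq_norm_sq, hv, one_pow]
  have h := S.rot_eq_of v (f := fun t => -Real.sin t • S.e + Real.cos t • S.i v) (fun t => by
    refine (((Real.hasDerivAt_sin t).neg.smul_const S.e).add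
      ((Real.hasDerivAt_cos t).smul_const (S.i v))).congr_deriv ?_
    rw [map_add, map_smul, map_smul, sk_e, sk_i, hvv]
    module) t
  simpa only [Real.cos_zero, Real.sin_zero, one_smul, neg_zero, zero_smul, zero_add] using h

theorem rot_orth (S : Spl V W) (ξ : V) {a : V} (ha : (inner ℝ ξ a : ℝ) = 0) :
    S.rot ξ (S.i a) = S.i a := by
  have h := S.rot_eq_of ξ (f := fun _ => S.i a) (fun t => by
    rw [sk_i, ha, neg_zero, zero_smul]
    exact hasDerivAt_const t _) 1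
  simpa only [one_smul] using h

theorem rot_add (S : Spl V W) (ξ : V) (s t : ℝ) (a : W) :
    S.rot (t • ξ) (S.rot (s • ξ) a) = S.rot ((s + t) • ξ) a := by
  have h := S.rot_eq_of ξ (f := fun t => S.rot ((s + t) • ξ) a) (fun t =>
    (S.hasDerivAt_rot ξ a (s + t)).comp_const_add s t) t
  simpa only [add_zero] using h

theorem rot_neg_rot (S : Spl V W) (ξ : V) (a : W) : S.rot (-ξ) (S.rot ξ a) = a := by
  have h := S.rot_add ξ 1 (-1) a
  simpa only [one_smul, neg_smul, add_neg_cancel, zero_smul, rot_zero,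
    one_apply_eq_self] using h

theorem rot_rot_neg (S : Spl V W) (ξ : V) (a : W) : S.rot ξ (S.rot (-ξ) a) = a := by
  simpa only [neg_neg] using S.rot_neg_rot (-ξ) a

theorem rot_surjective (S : Spl V W) (ξ : V) : Function.Surjective (S.rot ξ) :=
  fun a => ⟨_, S.rot_rot_neg ξ a⟩

theorem rot_injective (S : Spl V W) (ξ : V) : Function.Injective (S.rot ξ) :=
  Function.LeftInverse.injective (S.rot_neg_rot ξ)

theorem inner_rot_left (S : Spl V W) (ξ : V) (a b : W) :
    (inner ℝ (S.rot ξ a) b : ℝ) = inner ℝ a (S.rot (-ξ) b) := by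
  rw [← S.inner_rot ξ a, S.rot_rot_neg]

/-- the rotation as a linear isometric equivalence -/
def rotE (S : Spl V W) (ξ : V) : W ≃ₗᵢ[ℝ] W where
  toFun := S.rot ξ
  invFun := S.rot (-ξ)
  map_add' := map_add _
  map_smul' := map_smul _
  left_inv := S.rot_neg_rot ξ
  right_inv := S.rot_rot_neg ξ
  norm_map' := S.norm_rot ξ

theorem rotE_apply (S : Spl V W) (ξ : V) (a : W) : S.rotE ξ a = S.rot ξ a := rfl

theorem rotE_symm_apply (S : Spl V W) (ξ : V) (a : W) : (S.rotE ξ).symm a = S.rot (-ξ) a := rfl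

theorem rot_e' (S : Spl V W) (ξ : V) :
    S.rot ξ S.e = Real.cos ‖ξ‖ • S.e + S.i ((Real.sin ‖ξ‖ * ‖ξ‖⁻¹) • ξ) := by
  by_cases h : ξ = 0
  · subst h
    simp [rot_zero]
  · have h0 : ‖ξ‖ ≠ 0 := norm_ne_zero_iff.2 h
    have h1 := S.rot_e (v := ‖ξ‖⁻¹ • ξ) (norm_unit h) ‖ξ‖
    rw [smul_inv_smul₀ h0] at h1
    rw [h1, ← map_smul, smul_smul]

theorem inner_e_rot (S : Spl V W) (ξ : V) :
    (inner ℝ S.e (S.rot ξ S.e) : ℝ) = Real.cos ‖ξ‖ := by
  rw [rot_e', inner_comb]

theorem pr_rot (S : Spl V W) (ξ : V) :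
    S.pr (S.rot ξ S.e) = (Real.sin ‖ξ‖ * ‖ξ‖⁻¹) • ξ := by
  rw [rot_e', pr_comb]

theorem injOn_rot (S : Spl V W) : InjOn (fun ξ => S.rot ξ S.e) (ball 0 Real.pi) := by
  intro ξ hξ η hη h
  have h' : S.rot ξ S.e = S.rot η S.e := h
  rw [mem_ball_zero_iff] at hξ hη
  have h1 : Real.cos ‖ξ‖ = Real.cos ‖η‖ := by rw [← S.inner_e_rot, ← S.inner_e_rot, h']
  have h2 : ‖ξ‖ = ‖η‖ :=
    Real.injOn_cos ⟨norm_nonneg _, hξ.le⟩ ⟨norm_nonneg _, hη.le⟩ h1
  have h3 : (Real.sin ‖ξ‖ * ‖ξ‖⁻¹) • ξ = (Real.sin ‖η‖ * ‖η‖⁻¹) • η := by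
    rw [← S.pr_rot, ← S.pr_rot, h']
  by_cases h0 : ξ = 0
  · rw [h0, norm_zero] at h2
    rw [h0, norm_eq_zero.1 h2.symm]
  · have h4 : 0 < ‖ξ‖ := norm_pos_iff.2 h0
    rw [← h2] at h3
    exact smul_right_injective V
      (mul_pos (Real.sin_pos_of_pos_of_lt_pi h4 hξ) (inv_pos.2 h4)).ne' h3

theorem exists_rot (S : Spl V W) {y : W} (hy : ‖y‖ = 1) (hne : y ≠ -S.e) :
    ∃ ξ ∈ ball (0 : V) Real.pi, S.rot ξ S.e = y := by
  set c : ℝ := inner ℝ S.e y with hc
  have h1 : c ^ 2 + ‖S.pr y‖ ^ 2 = 1 := by rw [← S.norm_sq_eq, hy, one_pow]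
  have hd := S.dec y
  rw [← hc] at hd
  by_cases h0 : S.pr y = 0
  · rw [h0, norm_zero] at h1
    rw [h0, map_zero, add_zero] at hd
    have h2 : (c - 1) * (c + 1) = 0 := by nlinarith
    rcases mul_eq_zero.1 h2 with h3 | h3
    · refine ⟨0, mem_ball_self Real.pi_pos, ?_⟩
      rw [rot_zero, one_apply_eq_self, hd, sub_eq_zero.1 h3, one_smul]
    · exact absurd (by rw [hd, eq_neg_of_add_eq_zero_left h3, neg_one_smul]) hne
  · have h2 : 0 < ‖S.pr y‖ := norm_pos_iff.2 h0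
    have h3 : -1 < c := by nlinarith
    have h4 : c ≤ 1 := by nlinarith
    have hv := norm_unit h0
    refine ⟨Real.arccos c • (‖S.pr y‖⁻¹ • S.pr y), ?_, ?_⟩
    · rw [mem_ball_zero_iff, norm_smul, hv, mul_one, Real.norm_of_nonneg (Real.arccos_nonneg c)]
      exact Real.arccos_lt_pi.2 h3
    · rw [S.rot_e hv, Real.cos_arccos h3.le h4, Real.sin_arccos,
        show 1 - c ^ 2 = ‖S.pr y‖ ^ 2 by linarith, Real.sqrt_sq h2.le, ← map_smul,
        smul_inv_smul₀ h2.ne', ← hd]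

theorem rot_pi (S : Spl V W) {ξ : V} (h : ‖ξ‖ = Real.pi) : S.rot ξ S.e = -S.e := by
  rw [rot_e', h, Real.cos_pi, Real.sin_pi, zero_mul, zero_smul, map_zero, add_zero, neg_one_smul]

end Spl

theorem ccM_val (S : Spl V W) (x0 : St W) (c : ℝ) {z : V × V} (hz : z.2 ≠ 0) :
    (ccM S x0 c z).1 = (S.rot (c⁻¹ • z.1) S.e, S.rot (c⁻¹ • z.1) (S.i (‖z.2‖⁻¹ • z.2))) := by
  refine mkSt_val _ ⟨?_, ?_, ?_⟩
  · rw [S.norm_rot, S.he]
  · rw [S.norm_rot, S.i.norm_map, norm_unit hz]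
  · rw [S.inner_rot, S.ort]

theorem at_ccM (S : Spl V W) (x0 : St W) (c : ℝ) {z : V × V} (hz : z.2 ≠ 0) :
    (dSt W).At (ccM S x0 c) z := by
  change Sm (Subtype.val ∘ ccM S x0 c) z
  have ho : IsOpen {y : V × V | y.2 ≠ 0} := isOpen_ne_fun continuous_snd continuous_const
  filter_upwards [ho.mem_nhds hz] with y hy
  have h1 : ContDiffAt ℝ ∞ (fun z : V × V => S.rot (c⁻¹ • z.1)) y :=
    (S.contDiff_rot.comp (contDiff_fst.const_smul c⁻¹)).contDiffAt
  have h2 : ContDiffAt ℝ ∞ (fun z : V × V => S.i (‖z.2‖⁻¹ • z.2)) y :=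
    S.i.toContinuousLinearMap.contDiff.contDiffAt.comp y
      (((contDiffAt_snd.norm ℝ hy).inv (norm_ne_zero_iff.2 hy)).smul contDiffAt_snd)
  refine ((h1.clm_apply (contDiffAt_const (c := S.e))).prodMk
    (h1.clm_apply h2)).congr_of_eventuallyEq ?_
  filter_upwards [ho.mem_nhds hy] with y' hy'
  exact ccM_val S x0 c hy'

theorem mf_add (x : St W) (s t : ℝ) : mf (mf (x, s), t) = mf (x, s + t) := by
  apply Subtype.ext
  rw [mf_val, mf_val, mf_val]
  simp only [Real.cos_add, Real.sin_add]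
  refine Prod.ext ?_ ?_ <;> · simp only []; module

theorem isFlow_mf : IsFlow (dSt W) (2 * Real.pi) mf where
  map := map_mf
  zero := mf_zero
  add := mf_add
  per x := Subtype.ext (by simp [mf_val])

/-- the action of the isometries on the orthonormal pairs -/
def act {W' : Type} [NormedAddCommGroup W'] [InnerProductSpace ℝ W'] (A : W ≃ₗᵢ[ℝ] W')
    (x : St W) : St W' :=
  ⟨(A x.1.1, A x.1.2), by rw [A.norm_map, x.2.1], by rw [A.norm_map, x.2.2.1],
    by rw [A.inner_map_map, x.2.2.2]⟩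

theorem act_val {W' : Type} [NormedAddCommGroup W'] [InnerProductSpace ℝ W'] (A : W ≃ₗᵢ[ℝ] W')
    (x : St W) : (act A x).1 = (A x.1.1, A x.1.2) := rfl

theorem map_act {W' : Type} [NormedAddCommGroup W'] [InnerProductSpace ℝ W'] (A : W ≃ₗᵢ[ℝ] W') :
    (dSt W).Map (dSt W') (act A) := by
  intro E _ _ _ u x h
  have h1 : Sm (fun y => (u y).1) x := h
  change Sm (fun y => (A (u y).1.1, A (u y).1.2)) x
  filter_upwards [h1] with y k
  exact (A.contDiff.contDiffAt.comp y k.fst).prodMk (A.contDiff.contDiffAt.comp y k.snd)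

theorem act_mf {W' : Type} [NormedAddCommGroup W'] [InnerProductSpace ℝ W'] (A : W ≃ₗᵢ[ℝ] W')
    (x : St W) (t : ℝ) : act A (mf (x, t)) = mf (act A x, t) := by
  apply Subtype.ext
  rw [act_val, mf_val, mf_val]
  simp only [act_val, map_add, map_smul]

theorem act_symm (A : W ≃ₗᵢ[ℝ] W) (x : St W) : act A.symm (act A x) = x :=
  Subtype.ext (by simp [act_val])

theorem St.neg_val (x : St W) : x.neg.1 = -x.1 := rfl

theorem St.neg_neg (x : St W) : x.neg.neg = x := Subtype.ext (by simp [St.neg_val])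

theorem map_neg : (dSt W).Map (dSt W) St.neg := by
  intro E _ _ _ u x h
  have h1 : Sm (fun y => (u y).1) x := h
  change Sm (fun y => -(u y).1) x
  filter_upwards [h1] with y k
  exact k.neg

end Model

end

end Vale.Agent.P231Z.C
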