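import Vale.Agent.P231Z.C.GDefs
import Vale.Agent.P231Z.C.Rot

/-!
# P231, spheres and real projective spaces: the normalised differential of the covering
-/

set_option linter.unusedSectionVars false
set_option linter.unusedVariables false
set_option maxSynthPendingDepth 3

open Bundle Manifold Set Filter Module
open scoped ContDiff Topology Manifold

namespace Vale.Agent.P231Z.C.CvA

noncomputable section

open Vale.Agent.P234 Vale.Agent.P231 Vale.Agent.P231.Fm Vale.Agent.P231.W Vale.Agent.P231.WG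
  Vale.Agent.P231.H775
open Vale.Agent.P231.S2I (dP)

variable {E : Type*} [NormedAddCommGroup E] [NormedSpace ℝ E]
  {M : Type*} [MetricSpace M] [ChartedSpace E M]
  [RiemannianBundle (fun x : M => TangentSpace 𝓘(ℝ, E) x)]
  {e : ∀ x : M, TangentSpace 𝓘(ℝ, E) x → M}
  [FiniteDimensional ℝ E] [IsManifold 𝓘(ℝ, E) ∞ M]
  [IsContMDiffRiemannianBundle 𝓘(ℝ, E) ∞ E (fun x : M => TangentSpace 𝓘(ℝ, E) x)]
  {W : Type} [NormedAddCommGroup W] [InnerProductSpace ℝ W] [FiniteDimensional ℝ W]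
  {p : M} {S : Spl (Eu E) W} {c : ℝ} {j : W → M}

theorem ne_of_norm {y : W} (h : ‖y‖ = 1) : y ≠ 0 := fun h0 => by
  rw [h0, norm_zero] at h
  exact zero_ne_one h

theorem jsm (hj : Jm e p S c j) {y : W} (hy : y ≠ 0) :
    ∀ᶠ y' in 𝓝 y, ContMDiffAt 𝓘(ℝ, W) 𝓘(ℝ, E) ∞ j y' := by
  have h1 : (dP W).At (id : W → W) y :=
    ⟨Sm.of_contDiff contDiff_id y, isOpen_ne.mem_nhds hy⟩
  exact hj.map h1

theorem nm_eq_zero {x : M} {a : E} (h : nm x a = 0) : a = 0 :=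
  (norm_eq_zero (E := TangentSpace 𝓘(ℝ, E) x)).1 h

theorem dF_sub (f : W → M) (x a b : W) :
    (CV.dF f x (a - b) : E) = CV.dF f x a - CV.dF f x b :=
  map_sub (mfderiv 𝓘(ℝ, W) 𝓘(ℝ, E) f x) a b

/-- joint smoothness of the differential -/
theorem smV_dF (hj : Jm e p S c j) {z : W × W} (hz : z.1 ≠ 0) :
    SmV (E := E) (fun z : W × W => j z.1) (fun z => (CV.dF (E := E) j z.1 z.2 : E)) z := by
  have h0 := (jsm hj hz).self_of_nhds
  have hb : ContMDiffAt 𝓘(ℝ, W × W) 𝓘(ℝ, E) ∞ (fun z : W × W => j z.1) z :=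
    h0.comp z (contDiff_fst.contDiffAt.contMDiffAt)
  refine (smV_iff (E := E) (f := fun z : W × W => j z.1)
    (u := fun z => (CV.dF (E := E) j z.1 z.2 : E)) (s := z) (j z.1)
    (mem_extChartAt_source (j z.1))).2 ⟨hb, ?_⟩
  have h1 : ContDiffAt ℝ ∞ (fun s' => extChartAt 𝓘(ℝ, E) (j z.1) (j s')) z.1 := by
    have h2 : ContMDiffAt 𝓘(ℝ, W) 𝓘(ℝ, E) ∞ (fun s' => extChartAt 𝓘(ℝ, E) (j z.1) (j s')) z.1 :=
      (contMDiffAt_extChartAt (I := 𝓘(ℝ, E)) (x := j z.1)).comp z.1 h0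
    exact h2.contDiffAt
  have h3 : ContDiffAt ℝ ∞ (fun s' : W × W =>
      fderiv ℝ (fun s' => extChartAt 𝓘(ℝ, E) (j z.1) (j s')) s'.1 s'.2) z :=
    ((h1.fderiv_right (m := ∞) (by simp)).comp z contDiffAt_fst).clm_apply contDiffAt_snd
  refine h3.congr_of_eventuallyEq ?_
  have h4 := continuous_fst.continuousAt.eventually (jsm hj hz)
  have h5 := hb.continuousAt.eventually
    ((isOpen_extChartAt_source (j z.1)).mem_nhds (mem_extChartAt_source (I := 𝓘(ℝ, E)) (j z.1)))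
  filter_upwards [h4, h5] with s' h6 h7
  exact CV.crd_mfderiv (j z.1) h6 h7 s'.2

theorem nm_ne (hj : Jm e p S c j) (x : St W) : nm (j x.1.1) (CV.dF j x.1.1 x.1.2 : E) ≠ 0 :=
  fun h => ne_of_norm x.2.2.1 (hj.imm _ _ x.2.1 x.2.2.2 (nm_eq_zero h))

theorem nm_pos (hj : Jm e p S c j) (x : St W) : 0 < nm (j x.1.1) (CV.dF j x.1.1 x.1.2 : E) :=
  lt_of_le_of_ne (nm_nonneg _ _) (nm_ne hj x).symm

/-- the normalised differential -/
def uu (hj : Jm e p S c j) (x : St W) : UT E M :=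
  mk (j x.1.1) ((nm (j x.1.1) (CV.dF j x.1.1 x.1.2 : E))⁻¹ • CV.dF j x.1.1 x.1.2)
    (nm_normalize _ _ (nm_ne hj x))

theorem foot_uu (hj : Jm e p S c j) (x : St W) : foot (uu hj x) = j x.1.1 := rfl

theorem uu_eq (hj : Jm e p S c j) (x : St W) {v : UT E M} {r : ℝ} (hr : 0 < r)
    (h1 : j x.1.1 = foot v) (h2 : (CV.dF j x.1.1 x.1.2 : E) = r • vec' v) : uu hj x = v := by
  rw [← mk_eta v]
  refine mk_congr h1 ?_
  rw [h2, h1, nm_smul, nm_vec', abs_of_pos hr, mul_one, smul_smul, inv_mul_cancel₀ hr.ne',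
    one_smul]

theorem dF_uu (hj : Jm e p S c j) (x : St W) : (CV.dF j x.1.1 x.1.2 : E) =
    nm (j x.1.1) (CV.dF j x.1.1 x.1.2 : E) • vec' (uu hj x) := by
  change _ = nm (j x.1.1) (CV.dF j x.1.1 x.1.2 : E) •
    ((nm (j x.1.1) (CV.dF j x.1.1 x.1.2 : E))⁻¹ • (CV.dF j x.1.1 x.1.2 : E))
  rw [smul_smul, mul_inv_cancel₀ (nm_ne hj x), one_smul]

theorem map_uu (hj : Jm e p S c j) : (dSt W).Map (dUT E M) (uu hj) := by
  intro V _ _ _ g x hg
  have h1 : Sm (fun y => (g y).1) x := hg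
  have h4 : (dTM E M).At (fun y => (uu hj (g y)).1) x := by
    filter_upwards [h1] with y hy
    have h2 := (smV_dF hj (z := (g y).1) (ne_of_norm (g y).2.1)).comp
      (h := fun y => (g y).1) hy
    have h3 : (CV.dF j (g y).1.1 (g y).1.2 : E) ≠ 0 := fun h =>
      ne_of_norm (g y).2.2.1 (hj.imm _ _ (g y).2.1 (g y).2.2.2 h)
    exact WF.smV_normalize h2 h3
  exact h4

/-- two pairs with the same first vector and the same image -/
theorem uu_inj (hj : Jm e p S c j) {s s' : St W} (h : uu hj s = uu hj s') (h1 : s'.1.1 = s.1.1) :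
    s' = s := by
  have k1 := dF_uu hj s
  have k2 := dF_uu hj s'
  set r := nm (j s.1.1) (CV.dF j s.1.1 s.1.2 : E) with hr
  set r' := nm (j s'.1.1) (CV.dF j s'.1.1 s'.1.2 : E) with hr'
  have p1 : 0 < r := nm_pos hj s
  have p2 : 0 < r' := nm_pos hj s'
  rw [← h, h1] at k2
  have k3 : r' • s.1.2 - r • s'.1.2 = 0 := by
    refine hj.imm s.1.1 _ s.2.1 ?_ ?_
    · have k4 : (inner ℝ s.1.1 s'.1.2 : ℝ) = 0 := by rw [← h1]; exact s'.2.2.2
      rw [inner_sub_right, real_inner_smul_right, real_inner_smul_right, s.2.2.2, k4]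
      ring
    · rw [dF_sub, CV.dF_smul, CV.dF_smul, k1, k2, smul_smul, smul_smul, mul_comm, sub_self]
  have k4 : r' • s.1.2 = r • s'.1.2 := sub_eq_zero.1 k3
  have k5 : r' = r := by
    have := congrArg norm k4
    rwa [norm_smul, norm_smul, s.2.2.1, s'.2.2.1, mul_one, mul_one, Real.norm_of_nonneg p1.le,
      Real.norm_of_nonneg p2.le] at this
  rw [k5] at k4
  exact Subtype.ext (Prod.ext h1 (smul_right_injective W p1.ne' k4).symm)

theorem dF_neg (hj : Jm e p S c j) (hn : ∀ y, j (-y) = j y) {y : W} (hy : y ≠ 0) (h : W) :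
    (CV.dF j (-y) (-h) : E) = CV.dF j y h := by
  have h1 : HasFDerivAt (fun y : W => -y) (-(ContinuousLinearMap.id ℝ W)) y :=
    (hasFDerivAt_id y).neg
  have h2 := CV.dF_comp (E := E) (G := j) (j := fun y : W => -y)
    (jsm hj (neg_ne_zero.2 hy)).self_of_nhds h1 h
  have h3 : (fun y : W => j (-y)) = j := funext hn
  rw [h3] at h2
  exact h2.symm

theorem uu_neg (hj : Jm e p S c j) (hn : ∀ y, j (-y) = j y) (x : St W) :
    uu hj x.neg = uu hj x := by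
  refine uu_eq hj _ (nm_pos hj x) (hn x.1.1) ?_
  exact (dF_neg hj hn (ne_of_norm x.2.1) x.1.2).trans (dF_uu hj x)

theorem neg_neg' (x : St W) : x.neg.neg = x := Subtype.ext (neg_neg x.1)

/-- the differential is onto -/
theorem exists_pre (hj : Jm e p S c j) {y : W} (hy : ‖y‖ = 1) (a : E) :
    ∃ h : W, (inner ℝ y h : ℝ) = 0 ∧ (CV.dF j y h : E) = a := by
  let B : W →L[ℝ] E := mfderiv 𝓘(ℝ, W) 𝓘(ℝ, E) j y
  let A : (ℝ ∙ y)ᗮ →ₗ[ℝ] E := B.toLinearMap ∘ₗ (ℝ ∙ y)ᗮ.subtype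
  have hA : ∀ h : (ℝ ∙ y)ᗮ, A h = CV.dF j y h.1 := fun h => rfl
  have hi : Function.Injective A := by
    rw [← LinearMap.ker_eq_bot, LinearMap.ker_eq_bot']
    intro h hh
    exact Subtype.ext (hj.imm y h.1 hy
      (Submodule.mem_orthogonal_singleton_iff_inner_right.1 h.2) hh)
  have hd : finrank ℝ (ℝ ∙ y)ᗮ = finrank ℝ E := by
    have h1 := Submodule.finrank_add_finrank_orthogonal (ℝ ∙ y)
    rw [finrank_span_singleton (ne_of_norm hy), S.finrank_eq, finrank_euclideanSpace,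
      Fintype.card_fin] at h1
    omega
  obtain ⟨h, hh⟩ := (LinearMap.injective_iff_surjective_of_finrank_eq_finrank hd).1 hi a
  exact ⟨h.1, Submodule.mem_orthogonal_singleton_iff_inner_right.1 h.2, hh⟩

theorem uu_ex (hj : Jm e p S c j) {y h : W} (hy : ‖y‖ = 1) (hh : (inner ℝ y h : ℝ) = 0)
    {v : UT E M} (h1 : j y = foot v) (h2 : (CV.dF j y h : E) = vec' v) :
    h ≠ 0 ∧ ∃ x : St W, x.1 = (y, ‖h‖⁻¹ • h) ∧ uu hj x = v := by
  have h0 : h ≠ 0 := by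
    rintro rfl
    have h3 : vec' v = 0 := h2.symm.trans (map_zero (mfderiv 𝓘(ℝ, W) 𝓘(ℝ, E) j y))
    have h4 := nm_vec' v
    rw [h3, ← zero_smul ℝ (0 : E), nm_smul, abs_zero, zero_mul] at h4
    exact zero_ne_one h4
  refine ⟨h0, ⟨(y, ‖h‖⁻¹ • h), hy, ?_, ?_⟩, rfl,
    uu_eq hj _ (inv_pos.2 (norm_pos_iff.2 h0)) h1 ?_⟩
  · change ‖‖h‖⁻¹ • h‖ = 1
    rw [norm_smul, norm_inv, norm_norm, inv_mul_cancel₀ (norm_ne_zero_iff.2 h0)]
  · change (inner ℝ y (‖h‖⁻¹ • h) : ℝ) = 0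
    rw [real_inner_smul_right, hh, mul_zero]
  · change (CV.dF j y (‖h‖⁻¹ • h) : E) = _
    rw [CV.dF_smul, h2]

theorem uu_of (hj : Jm e p S c j) {y h : W} (hy : ‖y‖ = 1) (hh : (inner ℝ y h : ℝ) = 0)
    {v : UT E M} (h1 : j y = foot v) (h2 : (CV.dF j y h : E) = vec' v) (x0 : St W) :
    h ≠ 0 ∧ (mkSt x0 (y, ‖h‖⁻¹ • h)).1 = (y, ‖h‖⁻¹ • h) ∧ uu hj (mkSt x0 (y, ‖h‖⁻¹ • h)) = v := by
  obtain ⟨h0, x, k1, k2⟩ := uu_ex hj hy hh h1 h2
  have h3 : (mkSt x0 (y, ‖h‖⁻¹ • h)).1 = (y, ‖h‖⁻¹ • h) := mkSt_val x0 (k1 ▸ x.2)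
  have h4 : mkSt x0 (y, ‖h‖⁻¹ • h) = x := Subtype.ext (h3.trans k1.symm)
  exact ⟨h0, h3, h4 ▸ k2⟩

theorem uu_surj (F : Facts e) (hj : Jm e p S c j) : Function.Surjective (uu hj) := by
  intro v
  obtain ⟨ξ, hξ, -⟩ := F.hopfRinow p (foot v)
  obtain ⟨ζ, hζ⟩ := (fr (E := E) p).surjective ξ
  have h1 : j (S.rot (c⁻¹ • ζ) S.e) = foot v := by
    rw [hj.exp, ← hξ]
    exact congrArg (e p) hζ
  have h2 : ‖S.rot (c⁻¹ • ζ) S.e‖ = 1 := by rw [S.norm_rot, S.he]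
  obtain ⟨h, h3, h4⟩ := exists_pre hj h2 (vec' v)
  obtain ⟨-, x, -, k⟩ := uu_ex hj h2 h3 h1 h4
  exact ⟨x, k⟩

/-- the great circles through `e` are the geodesics through `p` -/
theorem j_gam (hj : Jm e p S c j) {v : Eu E} (hv : ‖v‖ = 1) (t : ℝ) :
    j (Real.cos (t / c) • S.e + Real.sin (t / c) • S.i v) = gam e p (fr p v) t := by
  rw [← S.rot_e hv, div_eq_inv_mul, ← smul_smul, hj.exp]
  unfold ef gam
  rw [map_smul]

theorem dF_gam (F : Facts e) (hc : 0 < c) (hj : Jm e p S c j) {v : Eu E} (hv : ‖v‖ = 1) (t : ℝ) :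
    (CV.dF j (Real.cos (t / c) • S.e + Real.sin (t / c) • S.i v)
      (-Real.sin (t / c) • S.e + Real.cos (t / c) • S.i v) : E) = c • vel e p (fr p v) t := by
  have h0 : Real.cos (t / c) • S.e + Real.sin (t / c) • S.i v ≠ 0 := by
    rw [← S.rot_e hv]
    exact ne_of_norm (by rw [S.norm_rot, S.he])
  have h1 : HasDerivAt (fun t : ℝ => t / c) c⁻¹ t := by
    simpa using (hasDerivAt_id t).div_const c
  have h2 : HasDerivAt (fun t : ℝ => Real.cos (t / c) • S.e + Real.sin (t / c) • S.i v)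
      (c⁻¹ • (-Real.sin (t / c) • S.e + Real.cos (t / c) • S.i v)) t := by
    have h3 := (h1.cos.smul_const S.e).add (h1.sin.smul_const (S.i v))
    rw [smul_add, smul_smul, smul_smul, mul_comm c⁻¹, mul_comm c⁻¹]
    exact h3
  have h3 := CV.dF_comp (E := E) (G := j)
    (j := fun t : ℝ => Real.cos (t / c) • S.e + Real.sin (t / c) • S.i v)
    (jsm hj h0).self_of_nhds h2.hasFDerivAt 1
  have h4 : (fun t : ℝ => j (Real.cos (t / c) • S.e + Real.sin (t / c) • S.i v)) =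
      gam e p (fr p v) := funext (j_gam hj hv)
  rw [h4] at h3
  have h5 : (CV.dF (gam e p (fr p v)) t 1 : E) = vel e p (fr p v) t := mfderiv_gam F.isExp _ _ _
  rw [h5, ContinuousLinearMap.toSpanSingleton_apply, one_smul] at h3
  have h6 := CV.dF_smul (E := E) j (Real.cos (t / c) • S.e + Real.sin (t / c) • S.i v) c⁻¹
    (-Real.sin (t / c) • S.e + Real.cos (t / c) • S.i v)
  have h7 : vel e p (fr p v) t = c⁻¹ • CV.dF j
      (Real.cos (t / c) • S.e + Real.sin (t / c) • S.i v)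
      (-Real.sin (t / c) • S.e + Real.cos (t / c) • S.i v) := h3.trans h6
  rw [h7, smul_smul, mul_inv_cancel₀ hc.ne', one_smul]

theorem dF_e (F : Facts e) (hc : 0 < c) (hj : Jm e p S c j) (η : Eu E) :
    (CV.dF j S.e (S.i η) : E) = c • fr p η := by
  have key : ∀ v : Eu E, ‖v‖ = 1 → (CV.dF j S.e (S.i v) : E) = c • fr p v := by
    intro v hv
    have h := dF_gam F hc hj hv 0
    rw [zero_div, Real.cos_zero, Real.sin_zero, neg_zero, one_smul, one_smul, zero_smul, zero_smul,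
      add_zero, zero_add, vel_zero F.isExp] at h
    exact h
  by_cases h0 : η = 0
  · rw [h0, map_zero, map_zero, smul_zero]
    exact map_zero (mfderiv 𝓘(ℝ, W) 𝓘(ℝ, E) j S.e)
  · have hn : ‖η‖ ≠ 0 := norm_ne_zero_iff.2 h0
    have h1 : η = ‖η‖ • (‖η‖⁻¹ • η) := by rw [smul_smul, mul_inv_cancel₀ hn, one_smul]
    have h2 := key (‖η‖⁻¹ • η) (by rw [norm_smul, norm_inv, norm_norm, inv_mul_cancel₀ hn])
    rw [h1, map_smul, CV.dF_smul, h2, map_smul (fr p) ‖η‖, smul_comm]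

variable [CompactSpace M] [ConnectedSpace M] [IsRiemannianManifold 𝓘(ℝ, E) M]

theorem uu_path (F : Facts e) (hc : 0 < c) (hj : Jm e p S c j) (x : St W) (hx : x.1.1 = S.e)
    (t : ℝ) : uu hj (mf (x, t / c)) = phi F (uu hj x, t) := by
  have h1 : x.1.2 = S.i (S.pr x.1.2) := by
    have h := S.dec x.1.2
    rw [← hx, x.2.2.2, zero_smul, zero_add] at h
    exact h
  set v := S.pr x.1.2 with hv
  have h2 : ‖v‖ = 1 := by rw [← S.i.norm_map, ← h1, x.2.2.1]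
  have h3 : nm p (fr p v : E) = 1 := (nm_fr p v).trans h2
  have h4 : uu hj x = mk p (fr p v) h3 := by
    refine uu_eq hj x hc ?_ ?_
    · have h := j_gam hj h2 0
      rw [zero_div, Real.cos_zero, Real.sin_zero, one_smul, zero_smul, add_zero,
        gam_zero F.isExp] at h
      rw [hx]; exact h
    · rw [hx, h1]; exact dF_e F hc hj v
  rw [h4]
  refine uu_eq hj _ hc ?_ ?_
  · rw [mf_val]
    change j (Real.cos (t / c) • x.1.1 + Real.sin (t / c) • x.1.2) = gam e p (fr p v) t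
    rw [hx, h1]
    exact j_gam hj h2 t
  · rw [mf_val]
    change (CV.dF j (Real.cos (t / c) • x.1.1 + Real.sin (t / c) • x.1.2)
      (-Real.sin (t / c) • x.1.1 + Real.cos (t / c) • x.1.2) : E) = c • vel e p (fr p v) t
    rw [hx, h1]
    exact dF_gam F hc hj h2 t

/-- the frame -/
def BB (S : Spl (Eu E) W) (c : ℝ) (j : W → M) (ξ : Eu E) : Eu E →L[ℝ] E :=
  c⁻¹ • ((mfderiv 𝓘(ℝ, W) 𝓘(ℝ, E) j (S.rot (c⁻¹ • ξ) S.e) : W →L[ℝ] E).comp
    ((S.rot (c⁻¹ • ξ)).comp S.i.toContinuousLinearMap))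

theorem BB_apply (ξ η : Eu E) : BB S c j ξ η =
    c⁻¹ • CV.dF j (S.rot (c⁻¹ • ξ) S.e) (S.rot (c⁻¹ • ξ) (S.i η)) := rfl

theorem exists_frame (F : Facts e) (hc : 0 < c) (hj : Jm e p S c j) (R : ℝ) (x0 : St W)
    (v0 : UT E M) : ∃ X : Fr e p R, ∀ z : Eu E × Eu E, ‖z.1‖ < R → z.2 ≠ 0 →
      cc X v0 z = uu hj (ccM S x0 c z) := by
  have hn : ∀ ξ : Eu E, ‖S.rot (c⁻¹ • ξ) S.e‖ = 1 := fun ξ => by rw [S.norm_rot, S.he]
  refine ⟨⟨BB S c j, fun ξ _ η => ?_, fun ξ _ => ?_, fun η => ?_⟩, fun z h1 h2 => ?_⟩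
  · have h1 : ContDiff ℝ ∞ fun z : Eu E × Eu E => S.rot (c⁻¹ • z.1) :=
      S.contDiff_rot.comp (contDiff_fst.const_smul c⁻¹)
    have h2 : ContDiff ℝ ∞ fun z : Eu E × Eu E =>
        (S.rot (c⁻¹ • z.1) S.e, S.rot (c⁻¹ • z.1) (S.i z.2)) :=
      (h1.clm_apply contDiff_const).prodMk
        (h1.clm_apply (S.i.toContinuousLinearMap.contDiff.comp contDiff_snd))
    have h3 := (smV_dF hj (z := (S.rot (c⁻¹ • ξ) S.e, S.rot (c⁻¹ • ξ) (S.i η)))
      (ne_of_norm (hn ξ))).comp (h := fun z : Eu E × Eu E =>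
        (S.rot (c⁻¹ • z.1) S.e, S.rot (c⁻¹ • z.1) (S.i z.2))) (s := (ξ, η)) h2.contDiffAt
    have h4 := SmV.smul (c := fun _ => c⁻¹) contDiffAt_const h3
    refine ContMDiffAt.congr_of_eventuallyEq h4 (Eventually.of_forall fun z => ?_)
    exact tb_congr (hj.exp z.1).symm rfl
  · rw [injective_iff_map_eq_zero]
    intro η hη
    rw [BB_apply, smul_eq_zero_iff_right (inv_ne_zero hc.ne')] at hη
    have h1 := hj.imm _ _ (hn ξ) (by rw [S.inner_rot, S.ort]) hη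
    have h2 := congrArg norm h1
    rwa [S.norm_rot, S.i.norm_map, norm_zero, norm_eq_zero] at h2
  · rw [BB_apply, smul_zero, S.rot_zero]
    change c⁻¹ • (CV.dF j S.e (S.i η) : E) = fr p η
    rw [dF_e F hc hj, smul_smul, inv_mul_cancel₀ hc.ne', one_smul]
  · set X : Fr e p R := _ with hX
    have h3 := X.nr_pos h1 h2
    have h4 : 0 < ‖z.2‖ := norm_pos_iff.2 h2
    symm
    refine uu_eq hj _ (r := ‖z.2‖⁻¹ * c * X.nr z) (by positivity) ?_ ?_
    · rw [ccM_val S x0 c h2, foot_cc X v0 h1 h2]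
      exact hj.exp z.1
    · rw [ccM_val S x0 c h2, cc_eq X v0 h1 h2]
      change (CV.dF j (S.rot (c⁻¹ • z.1) S.e) (S.rot (c⁻¹ • z.1) (S.i (‖z.2‖⁻¹ • z.2))) : E) =
        (‖z.2‖⁻¹ * c * X.nr z) • ((X.nr z)⁻¹ • BB S c j z.1 z.2)
      rw [BB_apply, map_smul, map_smul, CV.dF_smul, smul_smul, smul_smul]
      congr 1
      field_simp

end

end Vale.Agent.P231Z.C.CvA
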