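import Vale.Agent.P231Z.I7.Tower
import Vale.Agent.P231Z.I7.Split
import Vale.Agent.P231.S2I.LH1
import Vale.Agent.P231.Fm.DegSphere

/-!
# P231, spheres and real projective spaces, the volume: definitions

Cycles, boundaries, chain homotopies and local degrees of functionals which are sums of cells;
the manifold of orthonormal pairs, its charts and its fundamental cycle.
-/

set_option linter.unusedSectionVars false
set_option linter.unusedVariables false

open Set Filter Module MeasureTheory Metric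
open scoped ContDiff Topology

namespace Vale.Agent.P231Z.C

noncomputable section

open Vale.Agent.P231 Vale.Agent.P231.Fm Vale.Agent.P231.W Vale.Agent.P231.H584
  Vale.Agent.P231Z.I7

section Chains

variable {X : Type*}

/-- cycles -/
structure Cy (D : Dif X) (n : ℕ) (z : Form D → ℝ) : Prop where
  rep : Rep D n z
  cl : ∀ ρ : Form D, z ρ.d = 0

/-- boundaries -/
def Bd (D : Dif X) (n : ℕ) (z : Form D → ℝ) : Prop :=
  ∃ C, Rep D (1 + n) C ∧ ∀ ρ : Form D, C ρ.d = z ρ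

/-- sums of cells which lie in `S` -/
def RepIn (D : Dif X) (n : ℕ) (S : Set X) (z : Form D → ℝ) : Prop :=
  ∃ z' : Form (D.on S) → ℝ, Rep (D.on S) n z' ∧ ∀ w, z w = z' (Form.res S w)

/-- `f` is chain homotopic to the identity -/
def Htp (D : Dif X) (f : X → X) (hf : D.Map D f) : Prop :=
  ∃ P : Form D → Form D, P 0 = 0 ∧ (∀ ρ, Form.pull f hf ρ - ρ = P ρ.d + (P ρ).d) ∧
    ∀ (n : ℕ) (z : Form D → ℝ), Rep D n z → Rep D (1 + n) fun ρ => z (P ρ)

/-- on `S` the map `f` factors locally through plots of dimension less than `m` -/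
def ThinOn (D : Dif X) (S : Set X) (m : ℕ) (f : X → X) : Prop :=
  ∀ {V : Type} [NormedAddCommGroup V] [NormedSpace ℝ V] [FiniteDimensional ℝ V]
    {u : V → X} {x : V}, (D.on S).At u x → Thin D m (f ∘ u) x

variable {G : Type} [NormedAddCommGroup G] [NormedSpace ℝ G] [FiniteDimensional ℝ G]

/-- in degree `m` the form `w` is the extension by zero of `κ^* v` -/
def Loc (D : Dif X) (O : Set X) (κ : X → G) (m : ℕ) (w : Form D) (v : G → Lam G) : Prop :=
  ∀ {V : Type} [NormedAddCommGroup V] [NormedSpace ℝ V] [FiniteDimensional ℝ V]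
    {u : V → X} {x : V}, D.At u x → ∀ a : Fin m → V,
      (u x ∈ O → evalForm (w.val u x) a = evalForm (pb (κ ∘ u) v x) a) ∧
      (u x ∉ O → evalForm (w.val u x) a = 0)

/-- `κ` tends to infinity at the boundary of `O` -/
def Prp (D : Dif X) (O : Set X) (κ : X → G) : Prop :=
  ∀ {V : Type} [NormedAddCommGroup V] [NormedSpace ℝ V] [FiniteDimensional ℝ V]
    {u : V → X} {x : V}, D.At u x → u x ∉ O → ∀ R : ℝ, ∀ᶠ y in 𝓝 x, u y ∈ O → R < ‖κ (u y)‖

/-- the local degree of `z` near `y` is `d` -/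
def Deg [MeasurableSpace G] [BorelSpace G] (D : Dif X) (O : Set X) (κ : X → G) {m : ℕ}
    (b : Basis (Fin m) ℝ G) (z : Form D → ℝ) (y : G) (ε d : ℝ) : Prop :=
  ∀ (w : Form D) (v : G → Lam G), ContDiff ℝ ∞ v → tsupport v ⊆ ball y ε → Loc D O κ m w v →
    z w = d * TW.JJ b v

end Chains

section Model

/-- orthonormal pairs -/
abbrev St (W : Type) [NormedAddCommGroup W] [InnerProductSpace ℝ W] : Type :=
  {p : W × W // ‖p.1‖ = 1 ∧ ‖p.2‖ = 1 ∧ (inner ℝ p.1 p.2 : ℝ) = 0}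

/-- the diffeology of the orthonormal pairs -/
def dSt (W : Type) [NormedAddCommGroup W] [InnerProductSpace ℝ W] : Dif (St W) :=
  (Dif.lin (W × W)).ind Subtype.val

/-- an orthogonal splitting `W = ℝ e ⊕ V` -/
structure Spl (V W : Type) [NormedAddCommGroup V] [InnerProductSpace ℝ V]
    [NormedAddCommGroup W] [InnerProductSpace ℝ W] where
  /-- the unit vector -/
  e : W
  /-- the inclusion of the complement -/
  i : V →ₗᵢ[ℝ] W
  /-- the projection to the complement -/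
  pr : W →L[ℝ] V
  he : ‖e‖ = 1
  ort : ∀ v, (inner ℝ e (i v) : ℝ) = 0
  pri : ∀ v, pr (i v) = v
  pre : pr e = 0
  dec : ∀ w, w = (inner ℝ e w : ℝ) • e + i (pr w)

variable {V V' W : Type} [NormedAddCommGroup V] [InnerProductSpace ℝ V]
  [NormedAddCommGroup V'] [InnerProductSpace ℝ V'] [NormedAddCommGroup W] [InnerProductSpace ℝ W]

open Classical in
/-- a pair as an orthonormal pair -/
def mkSt (x0 : St W) (p : W × W) : St W :=
  if h : ‖p.1‖ = 1 ∧ ‖p.2‖ = 1 ∧ (inner ℝ p.1 p.2 : ℝ) = 0 then ⟨p, h⟩ else x0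

theorem mkSt_val (x0 : St W) {p : W × W}
    (h : ‖p.1‖ = 1 ∧ ‖p.2‖ = 1 ∧ (inner ℝ p.1 p.2 : ℝ) = 0) : (mkSt x0 p).1 = p := by
  rw [mkSt, dif_pos h]

/-- the deck transformation -/
def St.neg (x : St W) : St W :=
  ⟨-x.1, by
    refine ⟨?_, ?_, ?_⟩
    · rw [Prod.fst_neg, norm_neg, x.2.1]
    · rw [Prod.snd_neg, norm_neg, x.2.2.1]
    · rw [Prod.fst_neg, Prod.snd_neg, inner_neg_neg, x.2.2.2]⟩

/-- the geodesic flow of the round sphere -/
def mf (p : St W × ℝ) : St W :=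
  mkSt p.1 (Real.cos p.2 • p.1.1.1 + Real.sin p.2 • p.1.1.2,
    -Real.sin p.2 • p.1.1.1 + Real.cos p.2 • p.1.1.2)

theorem mf_val (p : St W × ℝ) : (mf p).1 = (Real.cos p.2 • p.1.1.1 + Real.sin p.2 • p.1.1.2,
    -Real.sin p.2 • p.1.1.1 + Real.cos p.2 • p.1.1.2) := by
  obtain ⟨h1, h2, h3⟩ := p.1.2
  have k1 : (inner ℝ p.1.1.1 p.1.1.1 : ℝ) = 1 := by rw [real_inner_self_eq_norm_sq, h1, one_pow]
  have k2 : (inner ℝ p.1.1.2 p.1.1.2 : ℝ) = 1 := by rw [real_inner_self_eq_norm_sq, h2, one_pow]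
  have k3 : (inner ℝ p.1.1.2 p.1.1.1 : ℝ) = 0 := by rw [real_inner_comm, h3]
  have k4 := Real.sin_sq_add_cos_sq p.2
  have k5 : ∀ a : W, (inner ℝ a a : ℝ) = 1 → ‖a‖ = 1 := fun a h => by
    rw [real_inner_self_eq_norm_sq] at h
    exact (pow_eq_one_iff_of_nonneg (norm_nonneg a) two_ne_zero).1 h
  refine mkSt_val _ ⟨k5 _ ?_, k5 _ ?_, ?_⟩ <;>
  · simp only [inner_add_left, inner_add_right, real_inner_smul_left, real_inner_smul_right,
      k1, k2, k3, h3]
    nlinarith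

theorem map_mf : ((dSt W).prod (Dif.lin ℝ)).Map (dSt W) mf := by
  intro E _ _ _ u x h
  have h1 : Sm (fun y => (u y).1.1) x := h.1
  have h2 : Sm (fun y => (u y).2) x := h.2
  have h3 : (Subtype.val ∘ mf ∘ u) = fun y =>
      (Real.cos (u y).2 • (u y).1.1.1 + Real.sin (u y).2 • (u y).1.1.2,
        -Real.sin (u y).2 • (u y).1.1.1 + Real.cos (u y).2 • (u y).1.1.2) :=
    funext fun y => mf_val (u y)
  change Sm (Subtype.val ∘ mf ∘ u) x
  rw [h3]
  filter_upwards [h1, h2] with y k1 k2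
  exact ((k2.cos.smul k1.fst).add (k2.sin.smul k1.snd)).prodMk
    ((k2.sin.neg.smul k1.fst).add (k2.cos.smul k1.snd))

theorem mf_zero (x : St W) : mf (x, 0) = x := Subtype.ext (by simp [mf_val])

theorem mf_pi (x : St W) : mf (x, Real.pi) = St.neg x :=
  Subtype.ext (by rw [mf_val]; simp [St.neg]; rfl)

/-- the generator of the rotation in the plane of `e` and `ξ` -/
def Spl.sk (S : Spl V W) (ξ : V) : W →L[ℝ] W :=
  (innerSL ℝ S.e).smulRight (S.i ξ) - (innerSL ℝ (S.i ξ)).smulRight S.e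

/-- the rotation by the angle `‖ξ‖` in the plane of `e` and `ξ` -/
def Spl.rot (S : Spl V W) (ξ : V) : W →L[ℝ] W := NormedSpace.exp (S.sk ξ)

/-- the coordinates of the fundamental cycle -/
def ccM (S : Spl V W) (x0 : St W) (c : ℝ) (z : V × V) : St W :=
  mkSt x0 (S.rot (c⁻¹ • z.1) S.e, S.rot (c⁻¹ • z.1) (S.i (‖z.2‖⁻¹ • z.2)))

/-- the fundamental cycle -/
def IM [FiniteDimensional ℝ V] [MeasurableSpace V] [BorelSpace V] (S : Spl V W) (x0 : St W)
    {k : ℕ} (b : Basis (Fin k) ℝ V) (c : ℝ) (r : V → ℝ) (w : Form (dSt W)) : ℝ :=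
  ∫ ξ in ball (0 : V) (Real.pi * c),
    evalForm (Q.phi b.addHaar b r (w.val (ccM S x0 c)) ξ) b ∂b.addHaar

/-- the domain of the chart of the first vector -/
def OF (S : Spl V W) : Set (St W) := {x | 0 < (inner ℝ S.e x.1.1 : ℝ)}

/-- the chart of the first vector -/
def kF (S : Spl V W) (x : St W) : V := (inner ℝ S.e x.1.1 : ℝ)⁻¹ • S.pr x.1.1

/-- the vector of the plane of the pair which is orthogonal to `e` -/
def wT (S : Spl V W) (x : St W) : V := S.pr x.1.2 - (inner ℝ S.e x.1.2 : ℝ) • kF S x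

/-- the domain of the chart of the pairs -/
def OT (S : Spl V W) (S' : Spl V' V) : Set (St W) :=
  {x | 0 < (inner ℝ S.e x.1.1 : ℝ) ∧ 0 < (inner ℝ S'.e (wT S x) : ℝ)}

/-- the chart of the pairs -/
def kT (S : Spl V W) (S' : Spl V' V) (x : St W) : V × V' :=
  (kF S x, (inner ℝ S'.e (wT S x) : ℝ)⁻¹ • S'.pr (wT S x))

/-- the collapse centred at the pair `x₀` -/
structure Col (x₀ : St W) (δ ε₁ ε₂ : ℝ) (f : St W → St W) (τ : W → St W) : Prop where
  pos : 0 < ε₁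
  lt : ε₁ < ε₂
  far : ∀ x : St W, ε₁ ≤ ‖x.1.1 - x₀.1.1‖ → (f x).1.1 = -x₀.1.1
  near : ∀ x : St W, δ ≤ ‖x.1 - x₀.1‖ → ‖x.1.1 - x₀.1.1‖ < ε₂ → f x = τ x.1.1
  map : ((Dif.lin W).on {y | ‖y‖ = 1 ∧ ‖y - x₀.1.1‖ < ε₂}).Map (dSt W) τ
  out : ∀ y : W, ‖y‖ = 1 → ‖y - x₀.1.1‖ < ε₂ → ε₁ ≤ ‖y - x₀.1.1‖ → (τ y).1.1 = -x₀.1.1

/-- a two-to-one or one-to-one local diffeomorphism onto `Y` -/
structure Cov {Y : Type*} (dY : Dif Y) (u : St W → Y) : Prop where
  map : (dSt W).Map dY u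
  surj : Function.Surjective u
  lift : ∀ {E : Type} [NormedAddCommGroup E] [NormedSpace ℝ E] [FiniteDimensional ℝ E]
    {g : E → Y} {x : E} (s : St W), dY.At g x → u s = g x →
      ∃ v : E → St W, (dSt W).At v x ∧ v x = s ∧ u ∘ v =ᶠ[𝓝 x] g
  fib : ∀ s s', u s = u s' → s' = s ∨ s' = s.neg

end Model

end

end Vale.Agent.P231Z.C
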