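import Vale.Agent.P231Z.C.Defs

/-!
# P231, spheres and real projective spaces, the volume: local degrees
-/

set_option linter.unusedSectionVars false
set_option linter.unusedVariables false

open Set Filter Module MeasureTheory Metric
open scoped ContDiff Topology

namespace Vale.Agent.P231Z.C

noncomputable section

open Vale.Agent.P231 Vale.Agent.P231.Fm Vale.Agent.P231.W Vale.Agent.P231.H584
  Vale.Agent.P231Z.I7

section Degree

variable {X : Type*} {D : Dif X} {G : Type} [NormedAddCommGroup G] [NormedSpace ℝ G]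
  [FiniteDimensional ℝ G] [MeasurableSpace G] [BorelSpace G] {m : ℕ} (b : Basis (Fin m) ℝ G)

/-- a cell in the coordinates of `G` -/
theorem cell_norm (C : Cell D m) : ∃ L : G ≃L[ℝ] C.V, C.b.addHaar = Measure.map L b.addHaar ∧
    ∀ w : Form D, C.I w = ∫ z in L ⁻¹' C.K, evalForm (w.val (C.c ∘ L) z) b ∂b.addHaar := by
  let L : G ≃L[ℝ] C.V := (b.equiv C.b (Equiv.refl _)).toContinuousLinearEquiv
  have hL : b.map L.toLinearEquiv = C.b := by
    refine Basis.eq_of_apply_eq fun i => ?_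
    rw [Basis.map_apply]
    change (b.equiv C.b (Equiv.refl _)) (b i) = C.b i
    rw [Basis.equiv_apply]
    rfl
  have hm : MeasurableEmbedding (L : G → C.V) := L.toHomeomorph.measurableEmbedding
  have hμ : C.b.addHaar = Measure.map L b.addHaar := by
    rw [← hL, Basis.map_addHaar b L]
  refine ⟨L, hμ, fun w => ?_⟩
  rw [Cell.I, hμ, hm.setIntegral_map]
  refine setIntegral_congr_fun (L.toHomeomorph.isCompact_preimage.2 C.cpt).measurableSet
    fun z hz => ?_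
  rw [w.nat (C.plot _ hz) (Sm.of_contDiff L.contDiff _), L.fderiv, evalForm_pull, ← hL]
  rfl

theorem sm_chart {O : Set X} (hO : POpen D O) {κ : X → G} (hκ : (D.on O).Map (Dif.lin G) κ)
    {c : G → X} {z : G} (h : D.At c z) (hz : c z ∈ O) : Sm (κ ∘ c) z :=
  hκ (u := c) (x := z) ⟨h, hO h hz⟩

theorem closed_chart {O : Set X} (hO : POpen D O) {κ : X → G} (hκ : (D.on O).Map (Dif.lin G) κ)
    (hp : Prp D O κ) {K : Set G} (hK : IsClosed K) {c : G → X} (hc : ∀ z ∈ K, D.At c z)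
    {C : Set G} (hC : IsCompact C) : IsClosed {z | z ∈ K ∧ c z ∈ O ∧ κ (c z) ∈ C} := by
  refine isClosed_of_closure_subset fun z hz => ?_
  have hzK : z ∈ K := closure_minimal (fun y hy => hy.1) hK hz
  have hfr := mem_closure_iff_frequently.1 hz
  have hzO : c z ∈ O := by
    by_contra h
    obtain ⟨R, hR⟩ := hC.isBounded.exists_norm_le
    obtain ⟨y, h1, h2⟩ := (hfr.and_eventually (hp (hc z hzK) h R)).exists
    exact absurd (hR _ h1.2.2) (not_le.2 (h2 h1.2.1))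
  refine ⟨hzK, hzO, ?_⟩
  exact hC.isClosed.mem_of_frequently_of_tendsto (f := κ ∘ c) (hfr.mono fun y hy => hy.2.2)
    (sm_chart hO hκ (hc z hzK) hzO).continuousAt

theorem locdeg_cell (C : Cell D m) {O : Set X} (hO : POpen D O) {κ : X → G}
    (hκ : (D.on O).Map (Dif.lin G) κ) (hp : Prp D O κ) :
    ∀ᵐ y ∂b.addHaar, ∃ ε > 0, ∃ d : ℤ, Deg D O κ b C.I y ε d := by
  obtain ⟨L, hμ, hI⟩ := cell_norm b C
  have hm : MeasurableEmbedding (L : G → C.V) := L.toHomeomorph.measurableEmbedding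
  obtain ⟨K, hKe⟩ : ∃ K, K = L ⁻¹' C.K := ⟨_, rfl⟩
  obtain ⟨c, hce⟩ : ∃ c, c = C.c ∘ L := ⟨_, rfl⟩
  have hK : IsCompact K := hKe ▸ L.toHomeomorph.isCompact_preimage.2 C.cpt
  have hc : ∀ z ∈ K, D.At c z := fun z hz => by
    rw [hKe] at hz
    rw [hce]
    exact D.comp (C.plot _ hz) (Sm.of_contDiff L.contDiff _)
  have hfr : b.addHaar (frontier K) = 0 := by
    have h1 : frontier (L ⁻¹' C.K) = L ⁻¹' frontier C.K :=
      (L.toHomeomorph.preimage_frontier C.K).symm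
    rw [hKe, h1, ← hm.map_apply, ← hμ, C.fr]
  rw [← hKe, ← hce] at hI
  have hfK : frontier K ⊆ K := hK.isClosed.frontier_subset
  have hN : b.addHaar ((κ ∘ c) '' (frontier K ∩ c ⁻¹' O)) = 0 :=
    addHaar_image_eq_zero_of_differentiableOn_of_addHaar_eq_zero _
      (fun z hz => (sm_chart hO hκ (hc z (hfK hz.1)) hz.2).differentiableAt.differentiableWithinAt)
      (measure_mono_null inter_subset_left hfr)
  filter_upwards [measure_eq_zero_iff_ae_notMem.1 hN] with y hy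
  have hZ : IsCompact {z | z ∈ frontier K ∧ c z ∈ O ∧ κ (c z) ∈ closedBall y 1} :=
    hK.of_isClosed_subset (closed_chart hO hκ hp isClosed_frontier (fun z hz => hc z (hfK hz))
      (isCompact_closedBall y 1)) fun z hz => hfK hz.1
  have hZ' := (hZ.image_of_continuousOn (f := κ ∘ c) fun z hz =>
    (sm_chart hO hκ (hc z (hfK hz.1)) hz.2.1).continuousAt.continuousWithinAt).isClosed
  have hy' : ((κ ∘ c) '' {z | z ∈ frontier K ∧ c z ∈ O ∧ κ (c z) ∈ closedBall y 1})ᶜ ∈ 𝓝 y :=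
    hZ'.isOpen_compl.mem_nhds fun ⟨z, hz, h⟩ => hy ⟨z, ⟨hz.1, hz.2.1⟩, h⟩
  obtain ⟨ε, hε, hεs⟩ := nhds_basis_ball.mem_iff.1
    (Filter.inter_mem hy' (closedBall_mem_nhds y one_pos))
  have hin : ∀ z ∈ K, c z ∈ O → κ (c z) ∈ ball y ε → z ∈ interior K := fun z hz h1 h2 => by
    by_contra h3
    exact (hεs h2).1 ⟨z, ⟨⟨subset_closure hz, h3⟩, h1, (hεs h2).2⟩, rfl⟩
  have hU : IsOpen (interior K ∩ c ⁻¹' O) := isOpen_iff_mem_nhds.2 fun z hz =>
    Filter.inter_mem (isOpen_interior.mem_nhds hz.1) (hO (hc z (interior_subset hz.1)) hz.2)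
  have hf : ContDiffOn ℝ ∞ (κ ∘ c) (interior K ∩ c ⁻¹' O) := fun z hz =>
    (sm_chart hO hκ (hc z (interior_subset hz.1)) hz.2).contDiffAt.contDiffWithinAt
  obtain ⟨d, hd⟩ := exists_int_degree_form b.addHaar b hU isOpen_ball (convex_ball y ε) hf
    (fun T hT hTc => by
      have e1 : {x | x ∈ interior K ∩ c ⁻¹' O ∧ (κ ∘ c) x ∈ T} =
          {z | z ∈ K ∧ c z ∈ O ∧ κ (c z) ∈ T} :=
        Subset.antisymm (fun z hz => ⟨interior_subset hz.1.1, hz.1.2, hz.2⟩)
          fun z hz => ⟨⟨hin z hz.1 hz.2.1 (hT hz.2.2), hz.2.1⟩, hz.2.2⟩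
      rw [e1]
      exact hK.of_isClosed_subset (closed_chart hO hκ hp hK.isClosed hc hTc) fun z hz => hz.1)
  refine ⟨ε, hε, d, fun w v hv ht hl => ?_⟩
  have hcs : HasCompactSupport v := (isCompact_closedBall y ε).of_isClosed_subset
    (isClosed_tsupport _) (ht.trans ball_subset_closedBall)
  rw [hI, TW.JJ, ← hd v hv hcs ht, setIntegral_eq_of_subset_of_forall_sdiff_eq_zero
    hK.measurableSet (inter_subset_left.trans interior_subset)]
  · exact setIntegral_congr_fun hU.measurableSet fun z hz =>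
      (hl (hc z (interior_subset hz.1)) b).1 hz.2
  · intro z hz
    by_cases h1 : c z ∈ O
    · have h2 : v (κ (c z)) = 0 := image_eq_zero_of_notMem_tsupport fun h =>
        hz.2 ⟨hin z hz.1 h1 (ht h), h1⟩
      rw [(hl (hc z hz.1) b).1 h1, pb]
      change evalL b (Fm.pull _ (v (κ (c z)))) = 0
      rw [h2, map_zero, map_zero]
    · exact (hl (hc z hz.1) b).2 h1

theorem locdeg {z : Form D → ℝ} (hz : Rep D m z) {O : Set X} (hO : POpen D O) {κ : X → G}
    (hκ : (D.on O).Map (Dif.lin G) κ) (hp : Prp D O κ) :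
    ∀ᵐ y ∂b.addHaar, ∃ ε > 0, ∃ d : ℤ, Deg D O κ b z y ε d := by
  induction hz with
  | cell C => exact locdeg_cell b C hO hκ hp
  | zero => exact Eventually.of_forall fun y => ⟨1, one_pos, 0, fun w v _ _ _ => by simp⟩
  | add _ _ h1 h2 =>
    filter_upwards [h1, h2] with y ⟨ε₁, k₁, d₁, l₁⟩ ⟨ε₂, k₂, d₂, l₂⟩
    refine ⟨min ε₁ ε₂, lt_min k₁ k₂, d₁ + d₂, fun w v hv ht hl => ?_⟩
    simp only [l₁ w v hv (ht.trans (ball_subset_ball (min_le_left _ _))) hl,
      l₂ w v hv (ht.trans (ball_subset_ball (min_le_right _ _))) hl, Int.cast_add, add_mul]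
  | neg _ h1 =>
    filter_upwards [h1] with y ⟨ε₁, k₁, d₁, l₁⟩
    refine ⟨ε₁, k₁, -d₁, fun w v hv ht hl => ?_⟩
    simp only [l₁ w v hv ht hl, Int.cast_neg, neg_mul]

theorem one_deg {U : Set G} (hU : IsOpen U) {f : G → G} (hf : ContDiffOn ℝ ∞ f U)
    (hi : InjOn f U) {B : Set G} (hB : IsOpen B) (hne : B.Nonempty) (hs : B ⊆ f '' U) :
    ∃ y ∈ B, ∃ ε > 0, ∃ s : ℤ, |s| = 1 ∧ ∀ v : G → Lam G, ContDiff ℝ ∞ v →
      tsupport v ⊆ ball y ε →
        ∫ x in U, evalForm (pb f v x) b ∂b.addHaar = s * TW.JJ b v := by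
  have hder : ∀ z ∈ U, HasFDerivAt f (fderiv ℝ f z) z := fun z hz =>
    ((hf.differentiableOn (by simp)).differentiableAt (hU.mem_nhds hz)).hasFDerivAt
  have hC : b.addHaar (f '' {x | x ∈ U ∧ (fderiv ℝ f x).det = 0}) = 0 :=
    addHaar_image_eq_zero_of_det_fderivWithin_eq_zero _
      (fun x hx => (hder x hx.1).hasFDerivWithinAt) (fun x hx => hx.2)
  obtain ⟨y, hyB, hyC⟩ : ∃ y ∈ B, y ∉ f '' {x | x ∈ U ∧ (fderiv ℝ f x).det = 0} := by
    by_contra h
    push Not at h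
    exact (hB.measure_pos b.addHaar hne).ne' (measure_mono_null h hC)
  obtain ⟨x, hx, rfl⟩ := hs hyB
  have hd : (fderiv ℝ f x).det ≠ 0 := fun h => hyC ⟨x, ⟨hx, h⟩, rfl⟩
  obtain ⟨N, hN, hxN, hNU, hNi, hNn, s, hsg⟩ := exists_good_nhds hU hf hx hd
  obtain ⟨ε, hε, hεs⟩ := nhds_basis_ball.mem_iff.1 (hNn N Subset.rfl hN hxN)
  refine ⟨f x, hyB, ε, hε, s, ?_, fun v hv ht => ?_⟩
  · have h1 := congrArg abs (hsg x hxN)
    rw [abs_mul, abs_abs] at h1
    have h2 : |(s : ℝ)| = 1 :=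
      mul_right_cancel₀ (abs_ne_zero.2 hd) (by rw [one_mul]; exact h1.symm)
    exact_mod_cast h2
  · have h0 : ∀ y ∉ ball (f x) ε, evalL b (v y) = 0 := fun y hy => by
      rw [image_eq_zero_of_notMem_tsupport fun h => hy (ht h), map_zero]
    have h2 : ∀ z, evalForm (pb f v z) b = (fderiv ℝ f z).det * evalL b (v (f z)) := fun z => by
      rw [pb, evalForm_pull_det]
      rfl
    have e1 : ∀ z ∈ N, (fderiv ℝ f z).det * evalL b (v (f z)) =
        (s : ℝ) * (|(fderiv ℝ f z).det| • evalL b (v (f z))) := fun z hz => by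
      conv_lhs => rw [hsg z hz]
      rw [smul_eq_mul, mul_assoc]
    have e3 := integral_image_eq_integral_abs_det_fderiv_smul b.addHaar hN.measurableSet
      (fun z hz => (hder z (hNU hz)).hasFDerivWithinAt) hNi fun y => evalL b (v y)
    simp only [h2]
    rw [setIntegral_eq_of_subset_of_forall_sdiff_eq_zero hU.measurableSet hNU,
      setIntegral_congr_fun hN.measurableSet e1, integral_const_mul, ← e3,
      setIntegral_eq_integral_of_forall_compl_eq_zero fun y hy => h0 y fun h => hy (hεs h)]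
    · rfl
    · intro z hz
      rw [h0 (f z), mul_zero]
      intro h
      obtain ⟨z', h1, h3⟩ := hεs h
      exact hz.2 (hi (hNU h1) hz.1 h3 ▸ h1)

/-- a cell which is injective on an open subset of full measure has local degree `± 1` -/
theorem cell_one (C : Cell D m) {O : Set X} (hO : POpen D O) {κ : X → G}
    (hκ : (D.on O).Map (Dif.lin G) κ) {U : Set C.V} (hU : IsOpen U) (hUK : U ⊆ C.K)
    (hn : C.b.addHaar (C.K \ U) = 0) (hi : InjOn (κ ∘ C.c) (U ∩ C.c ⁻¹' O)) {B : Set G}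
    (hB : IsOpen B) (hne : B.Nonempty) (hs : B ⊆ (κ ∘ C.c) '' (U ∩ C.c ⁻¹' O)) :
    ∃ y ∈ B, ∃ ε > 0, ∃ s : ℤ, |s| = 1 ∧ Deg D O κ b C.I y ε s := by
  obtain ⟨L, hμ, hI⟩ := cell_norm b C
  have hm : MeasurableEmbedding (L : G → C.V) := L.toHomeomorph.measurableEmbedding
  have hc : ∀ z ∈ L ⁻¹' U, D.At (C.c ∘ L) z := fun z hz =>
    D.comp (C.plot _ (hUK hz)) (Sm.of_contDiff L.contDiff _)
  have hU1 : IsOpen (L ⁻¹' U) := hU.preimage L.continuous
  have hU2 : IsOpen (L ⁻¹' U ∩ (C.c ∘ L) ⁻¹' O) := isOpen_iff_mem_nhds.2 fun z hz =>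
    Filter.inter_mem (hU1.mem_nhds hz.1) (hO (hc z hz.1) hz.2)
  obtain ⟨y, hy, ε, hε, s, hs1, hd⟩ := one_deg b hU2 (f := κ ∘ (C.c ∘ L))
    (fun z hz => (sm_chart hO hκ (hc z hz.1) hz.2).contDiffAt.contDiffWithinAt)
    (fun z hz z' hz' h => L.injective (hi (x₁ := L z) hz (x₂ := L z') hz' h)) hB hne
    (fun y hy => by
      obtain ⟨t, ht, rfl⟩ := hs hy
      obtain ⟨z, rfl⟩ := L.surjective t
      exact ⟨z, ht, rfl⟩)
  refine ⟨y, hy, ε, hε, s, hs1, fun w v hv ht hl => ?_⟩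
  have h1 : (L ⁻¹' C.K : Set G) =ᵐ[b.addHaar] (L ⁻¹' U : Set G) := by
    refine ae_eq_set.2 ⟨?_, ?_⟩
    · rw [← preimage_sdiff, ← hm.map_apply, ← hμ, hn]
    · rw [sdiff_eq_empty.2 (preimage_mono hUK), measure_empty]
  rw [hI, setIntegral_congr_set h1, ← hd v hv ht,
    setIntegral_eq_of_subset_of_forall_sdiff_eq_zero hU1.measurableSet
      (inter_subset_left (t := (C.c ∘ L) ⁻¹' O))]
  · exact setIntegral_congr_fun hU2.measurableSet fun z hz => (hl (hc z hz.1) b).1 hz.2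
  · exact fun z hz => (hl (hc z hz.1) b).2 fun h => hz.2 ⟨hz.1, h⟩

end Degree

end

end Vale.Agent.P231Z.C
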