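import Vale.Agent.P231.H649.Sard

/-!
# P231, spheres and real projective spaces, the volume: generic points
-/

set_option linter.unusedSectionVars false

open Set Filter Module MeasureTheory Metric
open scoped Topology

namespace Vale.Agent.P231Z.C.Genx

variable {ι : Type} [Finite ι] {V : ι → Type} [∀ i, NormedAddCommGroup (V i)]
  [∀ i, NormedSpace ℝ (V i)] [∀ i, FiniteDimensional ℝ (V i)]

theorem ae_ne {Y A : Type} [NormedAddCommGroup Y] [NormedSpace ℝ Y] [FiniteDimensional ℝ Y]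
    [NormedAddCommGroup A] [NormedSpace ℝ A] [FiniteDimensional ℝ A] [MeasurableSpace A]
    [BorelSpace A] {g : Y → A} {T : Set Y} (hg : ∀ s ∈ T, DifferentiableAt ℝ g s)
    (hd : finrank ℝ Y < finrank ℝ A) : ∀ᵐ a ∂(Measure.addHaar : Measure A), ∀ s ∈ T, g s ≠ a := by
  have h := P231.H649.sard_ker (Measure.addHaar : Measure A) hd.le hg fun _ _ => Or.inl hd
  filter_upwards [measure_eq_zero_iff_ae_notMem.1 h] with a ha s hs e using ha ⟨s, hs, e⟩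

variable {W : Type} [NormedAddCommGroup W] [InnerProductSpace ℝ W] [FiniteDimensional ℝ W]

theorem norm_unit {a : W} (ha : a ≠ 0) : ‖‖a‖⁻¹ • a‖ = 1 := by
  rw [norm_smul, norm_inv, norm_norm, inv_mul_cancel₀ (norm_ne_zero_iff.2 ha)]

theorem smul_unit {a : W} (ha : a ≠ 0) : ‖a‖ • ‖a‖⁻¹ • a = a := by
  rw [smul_smul, mul_inv_cancel₀ (norm_ne_zero_iff.2 ha), one_smul]

theorem inner_proj {q : W} (hq : ‖q‖ = 1) (a : W) (c : ℝ) :
    (inner ℝ q (c • (a - (inner ℝ q a : ℝ) • q)) : ℝ) = 0 := by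
  rw [real_inner_smul_right, inner_sub_right, real_inner_smul_right, real_inner_self_eq_norm_sq,
    hq, one_pow, mul_one, sub_self, mul_zero]

theorem miss_foot {y : ∀ i, V i → W} {K : ∀ i, Set (V i)}
    (hy : ∀ i, ∀ t ∈ K i, DifferentiableAt ℝ (y i) t) (h0 : 0 < finrank ℝ W)
    (hd : ∀ i, finrank ℝ (V i) + 1 < finrank ℝ W) :
    ∃ q : W, ‖q‖ = 1 ∧ ∀ i, ∀ t ∈ K i, y i t ≠ q := by
  borelize W
  have h1 : ∀ᵐ a ∂(Measure.addHaar : Measure W), ∀ i, ∀ s ∈ K i ×ˢ (univ : Set ℝ),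
      s.2 • y i s.1 ≠ a := ae_all_iff.2 fun i => ae_ne
    (fun s hs => differentiableAt_snd.smul ((hy i _ hs.1).comp s differentiableAt_fst))
    (by rw [finrank_prod, finrank_self]; exact hd i)
  have h2 : ∀ᵐ a ∂(Measure.addHaar : Measure W), ∀ s ∈ (univ : Set (Fin 0 → ℝ)), (0 : W) ≠ a :=
    ae_ne (g := fun _ => 0) (fun s _ => differentiableAt_const _) (by simpa using h0)
  obtain ⟨a, k1, k2⟩ := (h1.and h2).exists
  have ha : a ≠ 0 := (k2 0 trivial).symm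
  refine ⟨_, norm_unit ha, fun i t ht e => k1 i (t, ‖a‖) ⟨ht, trivial⟩ ?_⟩
  change ‖a‖ • y i t = a
  rw [e, smul_unit ha]

theorem miss_fib {y : ∀ i, V i → W} {K : ∀ i, Set (V i)}
    (hy : ∀ i, ∀ t ∈ K i, DifferentiableAt ℝ (y i) t) (h0 : 1 < finrank ℝ W)
    (hd : ∀ i, finrank ℝ (V i) + 2 < finrank ℝ W) {q : W} (hq : ‖q‖ = 1) :
    ∃ w : W, ‖w‖ = 1 ∧ (inner ℝ q w : ℝ) = 0 ∧ ∀ i, ∀ t ∈ K i, y i t ≠ w := by
  borelize W
  have h1 : ∀ᵐ a ∂(Measure.addHaar : Measure W), ∀ i, ∀ s ∈ K i ×ˢ (univ : Set (ℝ × ℝ)),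
      s.2.1 • y i s.1 + s.2.2 • q ≠ a := ae_all_iff.2 fun i => ae_ne
    (fun s hs => (differentiableAt_snd.fst.smul ((hy i _ hs.1).comp s differentiableAt_fst)).add
      (differentiableAt_snd.snd.smul_const q))
    (by rw [finrank_prod, finrank_prod, finrank_self]; exact hd i)
  have h2 : ∀ᵐ a ∂(Measure.addHaar : Measure W), ∀ s ∈ (univ : Set ℝ), s • q ≠ a :=
    ae_ne (g := fun s : ℝ => s • q) (fun s _ => differentiableAt_id.smul_const q)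
      (by rwa [finrank_self])
  obtain ⟨a, k1, k2⟩ := (h1.and h2).exists
  have ha : a - (inner ℝ q a : ℝ) • q ≠ 0 := sub_ne_zero.2 (k2 _ trivial).symm
  refine ⟨_, norm_unit ha, inner_proj hq a _, fun i t ht e =>
    k1 i (t, ‖a - (inner ℝ q a : ℝ) • q‖, inner ℝ q a) ⟨ht, trivial⟩ ?_⟩
  change ‖a - (inner ℝ q a : ℝ) • q‖ • y i t + (inner ℝ q a : ℝ) • q = a
  rw [e, smul_unit ha, sub_add_cancel]

theorem miss_pt {y : ∀ i, V i → W × W} {K : ∀ i, Set (V i)}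
    (hy : ∀ i, ∀ t ∈ K i, DifferentiableAt ℝ (y i) t)
    (hd : ∀ i, finrank ℝ (V i) + 3 < finrank ℝ W + finrank ℝ W) {x₁ : W × W} (e1 : ‖x₁.1‖ = 1)
    (e2 : ‖x₁.2‖ = 1) (e3 : (inner ℝ x₁.1 x₁.2 : ℝ) = 0) {η : ℝ} (hη : 0 < η) :
    ∃ x₀ : W × W, (‖x₀.1‖ = 1 ∧ ‖x₀.2‖ = 1 ∧ (inner ℝ x₀.1 x₀.2 : ℝ) = 0) ∧ ‖x₀ - x₁‖ < η ∧
      ∀ i, ∀ t ∈ K i, y i t ≠ x₀ := by
  borelize (W × W)
  have h1 : ∀ᵐ a ∂(Measure.addHaar : Measure (W × W)), ∀ i,
      ∀ s ∈ K i ×ˢ (univ : Set (ℝ × ℝ × ℝ)),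
      (s.2.1 • (y i s.1).1, s.2.2.1 • (y i s.1).2 + s.2.2.2 • (y i s.1).1) ≠ a :=
    ae_all_iff.2 fun i => ae_ne
      (fun s hs => by
        have h := (hy i _ hs.1).comp s differentiableAt_fst
        exact (differentiableAt_snd.fst.smul h.fst).prodMk
          ((differentiableAt_snd.snd.fst.smul h.snd).add (differentiableAt_snd.snd.snd.smul h.fst)))
      (by rw [finrank_prod, finrank_prod, finrank_prod, finrank_prod, finrank_self]; exact hd i)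
  let u : W × W → W := fun a => ‖a.1‖⁻¹ • a.1
  let p : W × W → W := fun a => a.2 - (inner ℝ (u a) a.2 : ℝ) • u a
  let G : W × W → W × W := fun a => (u a, ‖p a‖⁻¹ • p a)
  have hu : u x₁ = x₁.1 := by simp only [u, e1, inv_one, one_smul]
  have hp : p x₁ = x₁.2 := by simp only [p, hu, e3, zero_smul, sub_zero]
  have hG : G x₁ = x₁ := by simp only [G, hu, hp, e2, inv_one, one_smul]
  have cu : ContinuousAt u x₁ :=
    (continuousAt_fst.norm.inv₀ (by rw [e1]; exact one_ne_zero)).smul continuousAt_fst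
  have cp : ContinuousAt p x₁ := continuousAt_snd.sub ((cu.inner continuousAt_snd).smul cu)
  have cG : ContinuousAt G x₁ :=
    cu.prodMk ((cp.norm.inv₀ (by rw [hp, e2]; exact one_ne_zero)).smul cp)
  have n1 : ∀ᶠ a in 𝓝 x₁, a.1 ≠ 0 :=
    continuousAt_fst.eventually_ne (norm_ne_zero_iff.1 (by rw [e1]; exact one_ne_zero))
  have n2 : ∀ᶠ a in 𝓝 x₁, p a ≠ 0 :=
    cp.eventually_ne (norm_ne_zero_iff.1 (by rw [hp, e2]; exact one_ne_zero))
  have n3 : ∀ᶠ a in 𝓝 x₁, ‖G a - x₁‖ < η :=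
    (cG.sub continuousAt_const).norm.eventually_lt continuousAt_const
      (by rwa [Pi.sub_apply, hG, sub_self, norm_zero])
  obtain ⟨a, k1, k2, k3, k4⟩ := (Measure.dense_of_ae h1).inter_nhds_nonempty (n1.and (n2.and n3))
  refine ⟨G a, ⟨norm_unit k2, norm_unit k3, inner_proj (norm_unit k2) _ _⟩, k4, fun i t ht e =>
    k1 i (t, ‖a.1‖, ‖p a‖, inner ℝ (u a) a.2) ⟨ht, trivial⟩ ?_⟩
  change (‖a.1‖ • (y i t).1, ‖p a‖ • (y i t).2 + (inner ℝ (u a) a.2 : ℝ) • (y i t).1) = a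
  rw [e]
  refine Prod.ext (smul_unit k2) ?_
  change ‖p a‖ • ‖p a‖⁻¹ • p a + (inner ℝ (u a) a.2 : ℝ) • u a = a.2
  rw [smul_unit k3]
  exact sub_add_cancel _ _

end Vale.Agent.P231Z.C.Genx
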