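import Vale.Agent.P231Z.C.Defs
import Vale.Agent.P231Z.C.Gen0

/-!
# P231, spheres and real projective spaces, the volume: small cycles miss a point
-/

set_option linter.unusedSectionVars false
set_option linter.unusedVariables false

open Set Filter Module MeasureTheory Metric
open scoped ContDiff Topology

namespace Vale.Agent.P231Z.C

noncomputable section

open Vale.Agent.P231 Vale.Agent.P231.Fm Vale.Agent.P231.W Vale.Agent.P231.H584
  Vale.Agent.P231Z.I7

namespace Genx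

variable {X : Type*} {D : Dif X} {n : ℕ} {z : Form D → ℝ}

theorem rep_int (h : Rep D n z) (m : ℤ) : Rep D n fun w => m * z w := by
  induction m using Int.induction_on with
  | zero => exact Rep.zero.congr fun w => by simp
  | succ m ih => exact (ih.add h).congr fun w => by push_cast; ring
  | pred m ih => exact (ih.sub h).congr fun w => by push_cast; ring

theorem repIn_univ (h : Rep D n z) : RepIn D n univ z := by
  have hm : D.Map (D.on univ) id := fun h => ⟨h, Eventually.of_forall fun _ => trivial⟩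
  refine ⟨_, h.pull id hm, fun w => ?_⟩
  congr 1
  refine Form.ext_val fun E _ _ _ u x hu => ?_
  rw [Form.pull_val hm _ hu, Form.res_val _ (hm hu)]
  rfl

theorem finrank_cell (C : Cell D n) : finrank ℝ C.V = n := by
  rw [finrank_eq_card_basis C.b, Fintype.card_fin]

/-- the cells miss a neighbourhood of a point which they miss -/
theorem avoid {S : Set X} {ι : Type} [Fintype ι] (C : ι → Cell (D.on S) n) (ε : ι → ℤ)
    (h : ∀ w, z w = ∑ i, ε i * (C i).I (Form.res S w)) {A : Type} [NormedAddCommGroup A]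
    [NormedSpace ℝ A] {F : X → A} (hF : D.Map (Dif.lin A) F) {a : A}
    (ha : ∀ i, ∀ t ∈ (C i).K, F ((C i).c t) ≠ a) :
    ∃ δ > 0, RepIn D n {x | x ∈ S ∧ δ < ‖F x - a‖} z := by
  have hc : ∀ i, ∀ t ∈ (C i).K, ContinuousAt (fun t => ‖F ((C i).c t) - a‖) t := fun i t ht =>
    ((Sm.continuousAt (hF ((C i).plot t ht).1)).sub continuousAt_const).norm
  have h1 : ∀ i, ∀ᶠ δ in 𝓝[>] (0 : ℝ), ∀ t ∈ (C i).K, δ < ‖F ((C i).c t) - a‖ := fun i => by
    obtain ⟨δ, h0, h2⟩ := (C i).cpt.exists_forall_le'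
      (fun t ht => (hc i t ht).continuousWithinAt)
      fun t ht => norm_pos_iff.2 (sub_ne_zero.2 (ha i t ht))
    filter_upwards [mem_nhdsWithin_of_mem_nhds (Iio_mem_nhds h0)] with δ' h3 t ht using
      lt_of_lt_of_le h3 (h2 t ht)
  obtain ⟨δ, h2, h3⟩ := ((eventually_all.2 h1).and self_mem_nhdsWithin).exists
  have hp : ∀ i, ∀ t ∈ (C i).K, (D.on {x | x ∈ S ∧ δ < ‖F x - a‖}).At (C i).c t := fun i t ht =>
    ⟨((C i).plot t ht).1, ((C i).plot t ht).2.and
      (continuousAt_const.eventually_lt (hc i t ht) (h2 i t ht))⟩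
  refine ⟨δ, h3, _, Rep.sum Finset.univ fun i _ =>
    rep_int (Rep.cell ((C i).re (C i).c (hp i))) (ε i), fun w => ?_⟩
  rw [h]
  refine Finset.sum_congr rfl fun i _ => congrArg _ ?_
  refine setIntegral_congr_fun (C i).meas fun t ht => ?_
  change evalForm ((Form.res S w).val (C i).c t) (C i).b =
    evalForm ((Form.res _ w).val (C i).c t) (C i).b
  rw [Form.res_val _ ((C i).plot t ht), Form.res_val _ (hp i t ht)]

theorem family {S : Set X} (h : RepIn D n S z) : ∃ (ι : Type) (_ : Fintype ι)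
    (C : ι → Cell (D.on S) n) (ε : ι → ℤ), ∀ w, z w = ∑ i, ε i * (C i).I (Form.res S w) := by
  obtain ⟨z', h1, h2⟩ := h
  obtain ⟨ι, _, C, ε, h3⟩ := h1.exists_family
  exact ⟨ι, inferInstance, C, ε, fun w => (h2 w).trans (h3 _)⟩

variable {W : Type} [NormedAddCommGroup W] [InnerProductSpace ℝ W] [FiniteDimensional ℝ W]

theorem map_val : (dSt W).Map (Dif.lin (W × W)) Subtype.val := fun h => h

theorem map_fst : (dSt W).Map (Dif.lin W) fun x => x.1.1 := fun h => Sm.fst h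

theorem map_snd : (dSt W).Map (Dif.lin W) fun x => x.1.2 := fun h => Sm.snd h

end Genx

open Genx

variable {W : Type} [NormedAddCommGroup W] [InnerProductSpace ℝ W] [FiniteDimensional ℝ W] {N : ℕ}

theorem gen_foot (hW : finrank ℝ W = N + 2) {j : ℕ} (hj : j ≤ N) {z : Form (dSt W) → ℝ}
    (hz : Rep (dSt W) j z) : ∃ q : W, ‖q‖ = 1 ∧ ∃ δ > 0,
      RepIn (dSt W) j {x | δ < ‖x.1.1 - q‖} z := by
  obtain ⟨ι, _, C, ε, h⟩ := family (repIn_univ hz)
  obtain ⟨q, h1, h2⟩ := miss_foot (V := fun i => (C i).V) (y := fun i t => ((C i).c t).1.1)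
    (K := fun i => (C i).K)
    (fun i t ht => Sm.differentiableAt (Genx.map_fst ((C i).plot t ht).1)) (by omega)
    fun i => by rw [finrank_cell]; omega
  obtain ⟨δ, h3, h4⟩ := avoid C ε h Genx.map_fst h2
  refine ⟨q, h1, δ, h3, ?_⟩
  simpa only [mem_univ, true_and] using h4

theorem gen_fib (hW : finrank ℝ W = N + 2) {j : ℕ} (hj : j < N) {z : Form (dSt W) → ℝ} {q : W}
    (hq : ‖q‖ = 1) (hz : RepIn (dSt W) j {x | x.1.1 = q} z) : ∃ w : W, ‖w‖ = 1 ∧
      (inner ℝ q w : ℝ) = 0 ∧ ∃ δ > 0,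
        RepIn (dSt W) j {x | x.1.1 = q ∧ δ < ‖x.1.2 - w‖} z := by
  obtain ⟨ι, _, C, ε, h⟩ := family hz
  obtain ⟨w, h1, h0, h2⟩ := miss_fib (V := fun i => (C i).V) (y := fun i t => ((C i).c t).1.2)
    (K := fun i => (C i).K)
    (fun i t ht => Sm.differentiableAt (Genx.map_snd ((C i).plot t ht).1)) (by omega)
    (fun i => by rw [finrank_cell]; omega) hq
  exact ⟨w, h1, h0, avoid C ε h Genx.map_snd h2⟩

theorem gen_pt (hW : finrank ℝ W = N + 2) {j : ℕ} (hj : j ≤ 2 * N) {z : Form (dSt W) → ℝ}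
    (hz : Rep (dSt W) j z) (x₁ : St W) {η : ℝ} (hη : 0 < η) : ∃ x₀ : St W,
      ‖x₀.1 - x₁.1‖ < η ∧ ∃ δ > 0, RepIn (dSt W) j {x | δ < ‖x.1 - x₀.1‖} z := by
  obtain ⟨ι, _, C, ε, h⟩ := family (repIn_univ hz)
  obtain ⟨x₀, h1, h0, h2⟩ := miss_pt (V := fun i => (C i).V) (y := fun i t => ((C i).c t).1)
    (K := fun i => (C i).K)
    (fun i t ht => Sm.differentiableAt (map_val ((C i).plot t ht).1))
    (fun i => by rw [finrank_cell]; omega) x₁.2.1 x₁.2.2.1 x₁.2.2.2 hη
  obtain ⟨δ, h3, h4⟩ := avoid C ε h map_val h2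
  refine ⟨⟨x₀, h1⟩, h0, δ, h3, ?_⟩
  simpa only [mem_univ, true_and] using h4

end

end Vale.Agent.P231Z.C
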