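import Vale.Agent.P231.Fm.Dif2

/-!
# P231, the gnomonic chart of a sphere through a subspace
-/

open Set Filter Module
open scoped ContDiff Topology

namespace Vale.Agent.P231Z.C.Gno

noncomputable section

open Vale.Agent.P231.Fm

variable {W : Type} [NormedAddCommGroup W] [InnerProductSpace ℝ W]

/-- the normalisation of `w₀ + a` -/
def nr (w₀ : W) (K : Submodule ℝ W) (a : K) : W := ‖w₀ + a‖⁻¹ • (w₀ + a)

variable {w₀ : W} {K : Submodule ℝ W}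

theorem add_ne (h₀ : ‖w₀‖ = 1) (hK : ∀ a : K, (inner ℝ w₀ (a : W) : ℝ) = 0) (a : K) :
    w₀ + a ≠ 0 := by
  intro h
  have h1 : (inner ℝ w₀ (w₀ + a) : ℝ) = 1 := by
    rw [inner_add_right, hK, real_inner_self_eq_norm_sq, h₀]
    norm_num
  rw [h, inner_zero_right] at h1
  exact zero_ne_one h1

theorem norm_nr (h₀ : ‖w₀‖ = 1) (hK : ∀ a : K, (inner ℝ w₀ (a : W) : ℝ) = 0) (a : K) :
    ‖nr w₀ K a‖ = 1 := by
  rw [nr, norm_smul, norm_inv, norm_norm, inv_mul_cancel₀ (norm_ne_zero_iff.2 (add_ne h₀ hK a))]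

theorem nr_zero (h₀ : ‖w₀‖ = 1) : nr w₀ K 0 = w₀ := by
  simp [nr, h₀]

theorem contDiff_nr (h₀ : ‖w₀‖ = 1) (hK : ∀ a : K, (inner ℝ w₀ (a : W) : ℝ) = 0) :
    ContDiff ℝ ∞ (nr w₀ K) := by
  have h1 : ContDiff ℝ ∞ fun a : K => w₀ + (a : W) := contDiff_const.add K.subtypeL.contDiff
  exact ((h1.norm ℝ (add_ne h₀ hK)).inv fun a => norm_ne_zero_iff.2 (add_ne h₀ hK a)).smul h1

theorem inner_nr {q : W} (hq : (inner ℝ q w₀ : ℝ) = 0)
    (hK : ∀ a : K, (inner ℝ q (a : W) : ℝ) = 0) (a : K) : (inner ℝ q (nr w₀ K a) : ℝ) = 0 := by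
  rw [nr, real_inner_smul_right, inner_add_right, hq, hK, add_zero, mul_zero]

/-- the gnomonic coordinates of a smooth family of unit vectors -/
theorem exists_g {A : Type} [NormedAddCommGroup A] [NormedSpace ℝ A] {w : A → W} {x : A}
    (P : W →L[ℝ] K) (hw : Sm w x) (h0 : w x = w₀) (hn : ∀ y, ‖w y‖ = 1)
    (hP : ∀ᶠ y in 𝓝 x, (P (w y) : W) = w y - (inner ℝ w₀ (w y) : ℝ) • w₀) :
    ∃ g : A → K, Sm g x ∧ g x = 0 ∧ ∀ᶠ y in 𝓝 x, w y = nr w₀ K (g y) := by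
  have h₀ : ‖w₀‖ = 1 := h0 ▸ hn x
  have h1 : (inner ℝ w₀ (w x) : ℝ) = 1 := by
    rw [h0, real_inner_self_eq_norm_sq, h₀, one_pow]
  have h2 : ContinuousAt (fun y => (inner ℝ w₀ (w y) : ℝ)) x :=
    continuousAt_const.inner hw.continuousAt
  have h3 : ∀ᶠ y in 𝓝 x, 0 < (inner ℝ w₀ (w y) : ℝ) :=
    h2.eventually (lt_mem_nhds (by simp only [h1]; exact one_pos))
  refine ⟨fun y => (inner ℝ w₀ (w y) : ℝ)⁻¹ • P (w y), ?_, ?_, ?_⟩
  · filter_upwards [hw, h3] with y k1 k2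
    exact ((contDiffAt_const.inner ℝ k1).inv k2.ne').smul (P.contDiff.contDiffAt.comp y k1)
  · refine Subtype.ext ?_
    have k := hP.self_of_nhds
    rw [h1, one_smul] at k
    simp only [h1, inv_one, one_smul, ZeroMemClass.coe_zero]
    rw [k, h0, sub_self]
  · filter_upwards [hP, h3] with y k1 k2
    have k3 : w₀ + (((inner ℝ w₀ (w y) : ℝ)⁻¹ • P (w y) : K) : W) =
        (inner ℝ w₀ (w y) : ℝ)⁻¹ • w y := by
      rw [Submodule.coe_smul, k1, smul_sub, smul_smul, inv_mul_cancel₀ k2.ne', one_smul]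
      abel
    rw [nr, k3, norm_smul, hn, mul_one, smul_smul, Real.norm_eq_abs, abs_of_pos (inv_pos.2 k2),
      _root_.inv_inv, mul_inv_cancel₀ k2.ne', one_smul]

variable [FiniteDimensional ℝ W]

/-- the complement of a unit vector -/
theorem exists_one (h₀ : ‖w₀‖ = 1) : ∃ (K : Submodule ℝ W) (P : W →L[ℝ] K),
    finrank ℝ K + 1 = finrank ℝ W ∧ (∀ a : K, (inner ℝ w₀ (a : W) : ℝ) = 0) ∧
      ∀ w, (P w : W) = w - (inner ℝ w₀ w : ℝ) • w₀ := by
  have k0 : (inner ℝ w₀ w₀ : ℝ) = 1 := by rw [real_inner_self_eq_norm_sq, h₀, one_pow]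
  let L : W →ₗ[ℝ] ℝ := (innerSL ℝ w₀ : W →L[ℝ] ℝ)
  have hL : ∀ w, L w = (inner ℝ w₀ w : ℝ) := fun _ => rfl
  have hs : LinearMap.range L = ⊤ := by
    refine LinearMap.range_eq_top.2 fun c => ⟨c • w₀, ?_⟩
    rw [hL, real_inner_smul_right, k0, mul_one]
  let Q : W →L[ℝ] W := ContinuousLinearMap.id ℝ W - (innerSL ℝ w₀).smulRight w₀
  have hQ : ∀ w, Q w = w - (inner ℝ w₀ w : ℝ) • w₀ := fun _ => rfl
  have hm : ∀ w, Q w ∈ LinearMap.ker L := fun w => by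
    rw [LinearMap.mem_ker, hL, hQ, inner_sub_right, real_inner_smul_right, k0, mul_one, sub_self]
  refine ⟨LinearMap.ker L, Q.codRestrict _ hm, ?_, fun a => a.2, hQ⟩
  have h := L.finrank_range_add_finrank_ker
  rw [hs, finrank_top, Module.finrank_self] at h
  omega

/-- the complement of an orthonormal pair -/
theorem exists_two {q : W} (hq : ‖q‖ = 1) (h₀ : ‖w₀‖ = 1) (h : (inner ℝ q w₀ : ℝ) = 0) :
    ∃ (K : Submodule ℝ W) (P : W →L[ℝ] K),
      finrank ℝ K + 2 = finrank ℝ W ∧ (∀ a : K, (inner ℝ w₀ (a : W) : ℝ) = 0) ∧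
        (∀ a : K, (inner ℝ q (a : W) : ℝ) = 0) ∧
          ∀ w, (inner ℝ q w : ℝ) = 0 → (P w : W) = w - (inner ℝ w₀ w : ℝ) • w₀ := by
  have k0 : (inner ℝ w₀ w₀ : ℝ) = 1 := by rw [real_inner_self_eq_norm_sq, h₀, one_pow]
  have k1 : (inner ℝ q q : ℝ) = 1 := by rw [real_inner_self_eq_norm_sq, hq, one_pow]
  have k2 : (inner ℝ w₀ q : ℝ) = 0 := by rw [real_inner_comm, h]
  let L : W →ₗ[ℝ] ℝ × ℝ := ((innerSL ℝ w₀).prod (innerSL ℝ q) : W →L[ℝ] ℝ × ℝ)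
  have hL : ∀ w, L w = ((inner ℝ w₀ w : ℝ), (inner ℝ q w : ℝ)) := fun _ => rfl
  have hs : LinearMap.range L = ⊤ := by
    refine LinearMap.range_eq_top.2 fun c => ⟨c.1 • w₀ + c.2 • q, ?_⟩
    rw [hL]
    simp only [inner_add_right, real_inner_smul_right, k0, k1, k2, h, mul_one, mul_zero, add_zero,
      zero_add]
  let Q : W →L[ℝ] W := ContinuousLinearMap.id ℝ W - (innerSL ℝ w₀).smulRight w₀ -
    (innerSL ℝ q).smulRight q
  have hQ : ∀ w, Q w = w - (inner ℝ w₀ w : ℝ) • w₀ - (inner ℝ q w : ℝ) • q := fun _ => rfl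
  have hm : ∀ w, Q w ∈ LinearMap.ker L := fun w => by
    rw [LinearMap.mem_ker, hL, hQ]
    simp only [inner_sub_right, real_inner_smul_right, k0, k1, k2, h, mul_one, mul_zero, sub_self,
      sub_zero, Prod.mk_zero_zero]
  refine ⟨LinearMap.ker L, Q.codRestrict _ hm, ?_, fun a => congrArg Prod.fst a.2,
    fun a => congrArg Prod.snd a.2, fun w hw => ?_⟩
  · have h := L.finrank_range_add_finrank_ker
    rw [hs, finrank_top, Module.finrank_prod, Module.finrank_self] at h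
    omega
  · change Q w = _
    rw [hQ, hw, zero_smul, sub_zero]

end

end Vale.Agent.P231Z.C.Gno
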