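import Vale.Agent.P231Z.C.Basic
import Vale.Agent.P231Z.C.Gen
import Vale.Agent.P231Z.C.Col
import Vale.Agent.P231Z.C.Gno

/-!
# P231, spheres and real projective spaces: filling cycles away from the middle dimensions
-/

set_option linter.unusedSectionVars false
set_option linter.unusedVariables false
set_option maxSynthPendingDepth 3

open Set Filter Module MeasureTheory Metric
open scoped ContDiff Topology

namespace Vale.Agent.P231Z.C

noncomputable section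

open Vale.Agent.P231 Vale.Agent.P231.Fm Vale.Agent.P231.W Vale.Agent.P231.H584
  Vale.Agent.P231Z.I7

variable {W : Type} [NormedAddCommGroup W] [InnerProductSpace ℝ W] [FiniteDimensional ℝ W] {N : ℕ}

theorem thin_fib (hW : finrank ℝ W = N + 2) {A : Type} [NormedAddCommGroup A] [NormedSpace ℝ A]
    [FiniteDimensional ℝ A] {u : A → St W} {x : A} (hu : (dSt W).At u x) {q : W}
    (h : ∀ᶠ y in 𝓝 x, (u y).1.1 = q) : Thin (dSt W) (N + 1) u x := by
  have hu' : Sm (fun y => (u y).1) x := hu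
  have hx : (u x).1.1 = q := h.self_of_nhds
  have hq : ‖q‖ = 1 := hx ▸ (u x).2.1
  have hqw : (inner ℝ q (u x).1.2 : ℝ) = 0 := hx ▸ (u x).2.2.2
  obtain ⟨K, P, hK, k1, k2, k3⟩ := Gno.exists_two hq (u x).2.2.1 hqw
  obtain ⟨g, hg, hg0, hg1⟩ := Gno.exists_g (w := fun y => (u y).1.2) P hu'.snd rfl
    (fun y => (u y).2.2.1) (h.mono fun y hy => k3 _ (hy ▸ (u y).2.2.2))
  have hv : ∀ a : K, (mkSt (u x) (q, Gno.nr (u x).1.2 K a)).1 = (q, Gno.nr (u x).1.2 K a) :=
    fun a => mkSt_val _ ⟨hq, Gno.norm_nr (u x).2.2.1 k1 a, Gno.inner_nr hqw k2 a⟩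
  refine ⟨K, inferInstance, inferInstance, inferInstance,
    fun a => mkSt (u x) (q, Gno.nr (u x).1.2 K a), g, by omega, hg, ?_, ?_⟩
  · change Sm (fun a : K => (mkSt (u x) (q, Gno.nr (u x).1.2 K a)).1) (g x)
    rw [funext hv]
    exact Sm.of_contDiff (contDiff_const.prodMk (Gno.contDiff_nr (u x).2.2.1 k1)) _
  · filter_upwards [h, hg1] with y h1 h2
    refine Subtype.ext ?_
    rw [Function.comp_apply, hv]
    exact Prod.ext h1 h2

theorem Col.thin (hW : finrank ℝ W = N + 2) {x₀ : St W} {δ ε₁ ε₂ : ℝ} {f : St W → St W}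
    {τ : W → St W} (h : Col x₀ δ ε₁ ε₂ f τ) (hf : (dSt W).Map (dSt W) f) :
    ThinOn (dSt W) {x | δ < ‖x.1 - x₀.1‖} (N + 2) f := by
  intro V _ _ _ u x hu
  have hu' : Sm (fun y => (u y).1) x := hu.1
  have hc : ContinuousAt (fun y => ‖(u y).1.1 - x₀.1.1‖) x :=
    (hu'.fst.continuousAt.sub continuousAt_const).norm
  by_cases hx : ε₁ < ‖(u x).1.1 - x₀.1.1‖
  · refine thin_mono (thin_fib hW (hf hu.1) (q := -x₀.1.1) ?_) (by omega)
    filter_upwards [hc.eventually (lt_mem_nhds hx)] with y hy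
    exact h.far _ hy.le
  · have hx' : ‖(u x).1.1 - x₀.1.1‖ < ε₂ := lt_of_le_of_lt (not_lt.1 hx) h.lt
    obtain ⟨K, P, hK, k1, k3⟩ := Gno.exists_one (u x).2.1
    obtain ⟨g, hg, hg0, hg1⟩ := Gno.exists_g (w := fun y => (u y).1.1) P hu'.fst rfl
      (fun y => (u y).2.1) (Eventually.of_forall fun y => k3 _)
    have hd := Gno.contDiff_nr (u x).2.1 k1
    refine ⟨K, inferInstance, inferInstance, inferInstance, τ ∘ Gno.nr (u x).1.1 K, g,
      by omega, hg, h.map ⟨Sm.of_contDiff hd _, ?_⟩, ?_⟩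
    · have h1 : ContinuousAt (fun a => ‖Gno.nr (u x).1.1 K a - x₀.1.1‖) (g x) :=
        (hd.continuous.continuousAt.sub continuousAt_const).norm
      have h2 : ‖Gno.nr (u x).1.1 K (g x) - x₀.1.1‖ < ε₂ := by
        rw [hg0, Gno.nr_zero (u x).2.1]
        exact hx'
      filter_upwards [h1.eventually (gt_mem_nhds h2)] with a ha
      exact ⟨Gno.norm_nr (u x).2.1 k1 a, ha⟩
    · filter_upwards [hu.2, hc.eventually (gt_mem_nhds hx'), hg1] with y h1 h2 h3
      have h4 : δ < ‖(u y).1 - x₀.1‖ := h1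
      change f (u y) = τ (Gno.nr (u x).1.1 K (g y))
      rw [h.near _ h4.le h2, ← h3]

/-- maps which are constant on a set -/
theorem thinOn_const {X : Type*} {D : Dif X} {S : Set X} {f : X → X} (hf : D.Map D f)
    (h : ∀ x ∈ S, ∀ y ∈ S, f x = f y) {m : ℕ} (hm : 1 ≤ m) : ThinOn D S m f := by
  intro V _ _ _ u x hu
  refine ⟨Fin 0 → ℝ, inferInstance, inferInstance, inferInstance, fun _ => f (u x), fun _ => 0,
    by rw [Module.finrank_fin_fun]; omega, Sm.of_contDiff contDiff_const _,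
    Dif.At_const (hf hu.1) _, ?_⟩
  filter_upwards [hu.2] with y hy
  exact h _ hy _ hu.2.self_of_nhds

theorem fill_low (hW : finrank ℝ W = N + 2) {j : ℕ} (h1 : 1 ≤ j) (hj : j < N)
    {z : Form (dSt W) → ℝ} (hz : Cy (dSt W) j z) : Bd (dSt W) j z := by
  obtain ⟨q, hq, δ, hδ, hin⟩ := gen_foot hW hj.le hz.rep
  obtain ⟨f, hf, hH, hfar, -⟩ := col_foot hq hδ
  have hz1 := hz.pull f hf
  have hin1 := hin.pull f hf (S' := {x : St W | x.1.1 = -q}) fun x hx => hfar x (le_of_lt hx)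
  have hq' : ‖-q‖ = 1 := by rw [norm_neg, hq]
  obtain ⟨w, hw, hqw, δ', hδ', hin2⟩ := gen_fib hW hj hq' hin1
  obtain ⟨f', hf', hH', hfar', hfix⟩ := col_vec hw hδ'
  have hc : ∀ x ∈ {x : St W | x.1.1 = -q ∧ δ' < ‖x.1.2 - w‖}, (f' x).1 = (-q, -w) := by
    intro x hx
    refine Prod.ext ?_ (hfar' x hx.2.le)
    rw [hfix x (by rw [hx.1, real_inner_comm, hqw]), hx.1]
  have hb := hH'.bd_of hz1 (hin2.thin hf' (thinOn_const hf'
    (fun x hx y hy => Subtype.ext ((hc x hx).trans (hc y hy).symm)) h1))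
  exact (hb.add (hH.bd hz).neg).of_eq fun w => by ring

theorem nonempty_St (hW : finrank ℝ W = N + 2) : Nonempty (St W) := by
  have b := (stdOrthonormalBasis ℝ W).orthonormal
  refine ⟨⟨(stdOrthonormalBasis ℝ W ⟨0, by omega⟩, stdOrthonormalBasis ℝ W ⟨1, by omega⟩),
    b.1 _, b.1 _, b.2 ?_⟩⟩
  intro h
  exact zero_ne_one (congrArg Fin.val h)

theorem fill_high (hW : finrank ℝ W = N + 2) {j : ℕ} (h1 : N + 1 < j) (hj : j ≤ 2 * N)
    {z : Form (dSt W) → ℝ} (hz : Cy (dSt W) j z) : Bd (dSt W) j z := by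
  obtain ⟨x₁⟩ := nonempty_St hW
  obtain ⟨x₀, -, δ, hδ, hin⟩ := gen_pt hW hj hz.rep x₁ one_pos
  obtain ⟨f, hf, ε₁, ε₂, τ, hH, -, hC⟩ := col_pt x₀ hδ one_pos
  exact hH.bd_of hz (hin.thin hf fun hu => thin_mono (hC.thin hW hf hu) h1)

end

end Vale.Agent.P231Z.C
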