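import Vale.Agent.P231Z.C.Basic
import Vale.Agent.P231Z.C.Rot
import Vale.Agent.P231Z.C.Col
import Vale.Agent.P231Z.C.Thin
import Vale.Agent.P231Z.C.Chart

/-!
# P231, spheres and real projective spaces: a cycle whose foot has degree zero bounds
-/

set_option linter.unusedSectionVars false
set_option linter.unusedVariables false
set_option maxSynthPendingDepth 3

open Set Filter Module MeasureTheory Metric
open scoped ContDiff Topology

namespace Vale.Agent.P231Z.C

noncomputable section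

open Vale.Agent.P231 Vale.Agent.P231.Fm Vale.Agent.P231.W Vale.Agent.P231.H584
  Vale.Agent.P231Z.I7

variable {V W : Type} [NormedAddCommGroup V] [InnerProductSpace ℝ V] [FiniteDimensional ℝ V]
  [NormedAddCommGroup W] [InnerProductSpace ℝ W] [FiniteDimensional ℝ W] {N : ℕ}

namespace FillDeg

/-- the inverse of the chart of the first vector -/
def ps (S : Spl V W) (a : V) : W := ‖S.e + S.i a‖⁻¹ • (S.e + S.i a)

theorem add_ne (S : Spl V W) (a : V) : S.e + S.i a ≠ 0 := by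
  intro h
  have h1 : (inner ℝ S.e (S.e + S.i a) : ℝ) = 1 := by
    rw [inner_add_right, S.ort, real_inner_self_eq_norm_sq, S.he]
    norm_num
  rw [h, inner_zero_right] at h1
  exact zero_ne_one h1

theorem norm_ps (S : Spl V W) (a : V) : ‖ps S a‖ = 1 := by
  rw [ps, norm_smul, norm_inv, norm_norm, inv_mul_cancel₀ (norm_ne_zero_iff.2 (add_ne S a))]

theorem contDiff_ps (S : Spl V W) : ContDiff ℝ ∞ (ps S) := by
  have h1 : ContDiff ℝ ∞ fun a : V => S.e + S.i a :=
    contDiff_const.add S.i.toContinuousLinearMap.contDiff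
  exact ((h1.norm ℝ (add_ne S)).inv fun a => norm_ne_zero_iff.2 (add_ne S a)).smul h1

theorem ps_kF (S : Spl V W) {x : St W} (hx : x ∈ OF S) : ps S (kF S x) = x.1.1 := by
  have h0 : 0 < (inner ℝ S.e x.1.1 : ℝ) := hx
  have h1 : S.e + S.i (kF S x) = (inner ℝ S.e x.1.1 : ℝ)⁻¹ • x.1.1 := by
    conv_rhs => rw [S.dec x.1.1]
    rw [kF, map_smul, ← S.dec x.1.1]
    conv_rhs => rw [S.dec x.1.1, smul_add, smul_smul, ← S.dec x.1.1, inv_mul_cancel₀ h0.ne',
      one_smul]
  rw [ps, h1, norm_smul, x.2.1, mul_one, norm_inv, _root_.inv_inv, Real.norm_of_nonneg h0.le, smul_smul,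
    mul_inv_cancel₀ h0.ne', one_smul]

theorem sm_foot {A : Type} [NormedAddCommGroup A] [NormedSpace ℝ A] [FiniteDimensional ℝ A]
    {u : A → St W} {x : A} (hu : (dSt W).At u x) : Sm (fun y => (u y).1.1) x :=
  Sm.fst (f := Subtype.val ∘ u) hu

theorem cont_dist {A : Type} [NormedAddCommGroup A] [NormedSpace ℝ A] [FiniteDimensional ℝ A]
    {u : A → St W} {x : A} (hu : (dSt W).At u x) (q : W) :
    ContinuousAt (fun y => ‖(u y).1.1 - q‖) x :=
  ((sm_foot hu).continuousAt.sub continuousAt_const).norm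

theorem ev_smul {A : Type} [NormedAddCommGroup A] [NormedSpace ℝ A] [FiniteDimensional ℝ A]
    {k : ℕ} (a : Fin k → A) (c : ℝ) (w : Lam A) : evalForm (c • w) a = c * evalForm w a :=
  map_smul (evalL a) c w

theorem ev_zero {A : Type} [NormedAddCommGroup A] [NormedSpace ℝ A] [FiniteDimensional ℝ A]
    {k : ℕ} (a : Fin k → A) : evalForm (0 : Lam A) a = 0 :=
  map_zero (evalL a)

end FillDeg

variable [MeasurableSpace V] [BorelSpace V]

open FillDeg in
theorem fill_deg (S : Spl V W) (b : Basis (Fin (N + 1)) ℝ V) {z : Form (dSt W) → ℝ}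
    (hz : Cy (dSt W) (N + 1) z) {x₀ : St W} (hx : x₀ ∈ OF S) {δ ε : ℝ} (hδ : 0 < δ) (hε : 0 < ε)
    (hin : RepIn (dSt W) (N + 1) {x | δ < ‖x.1 - x₀.1‖} z)
    (hd : Deg (dSt W) (OF S) (kF S) b z (kF S x₀) ε 0) : Bd (dSt W) (N + 1) z := by
  have hV : finrank ℝ V = N + 1 := by rw [finrank_eq_card_basis b, Fintype.card_fin]
  have hW : finrank ℝ W = N + 2 := by rw [S.finrank_eq, hV]
  obtain ⟨δ', hδ', hnear⟩ := near_kF S hx (half_pos hε)
  obtain ⟨f, hf, ε₁, ε₂, τ, hH, hle, hC⟩ := col_pt x₀ hδ hδ'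
  have h1 := hC.pos
  have h2 := hC.lt
  let β : ContDiffBump x₀.1.1 :=
    ⟨(2 * ε₁ + ε₂) / 3, (ε₁ + 2 * ε₂) / 3, by linarith, by linarith⟩
  have hβ0 : ∀ y : W, (ε₁ + 2 * ε₂) / 3 ≤ ‖y - x₀.1.1‖ → β y = 0 := fun y hy =>
    β.zero_of_le_dist (by rwa [dist_eq_norm])
  have hβ1 : ∀ y : W, ‖y - x₀.1.1‖ ≤ (2 * ε₁ + ε₂) / 3 → β y = 1 := fun y hy =>
    β.one_of_mem_closedBall (by rwa [mem_closedBall, dist_eq_norm])
  set O : Set (St W) := {x | ‖x.1.1 - x₀.1.1‖ < ε₂} with hO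
  have hθ : (dSt W).Map (Dif.lin ℝ) fun x => β x.1.1 := fun {A} _ _ _ {u x} hu =>
    Sm.comp (f := β) (g := fun y => (u y).1.1) (Sm.of_contDiff β.contDiff _) (sm_foot hu)
  have hOo : POpen (dSt W) O := fun {A} _ _ _ {u x} hu h =>
    (cont_dist hu x₀.1.1).eventually (gt_mem_nhds (show ‖(u x).1.1 - x₀.1.1‖ < ε₂ from h))
  have hs : (Form.fn _ hθ).Supp O := by
    refine ⟨fun {A} _ _ _ {u x} hu => ?_⟩
    by_cases h : u x ∈ O
    · exact Or.inl (hOo hu h)
    · have h3 : (ε₁ + 2 * ε₂) / 3 < ‖(u x).1.1 - x₀.1.1‖ := by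
        have : ε₂ ≤ ‖(u x).1.1 - x₀.1.1‖ := not_lt.1 h
        linarith
      refine Or.inr ?_
      filter_upwards [(cont_dist hu x₀.1.1).eventually (lt_mem_nhds h3), (dSt W).open' hu]
        with y hy hy'
      rw [Form.fn_val _ hθ hy', hβ0 _ hy.le, map_zero]
  have hτ : ((dSt W).on O).Map (dSt W) fun x => τ x.1.1 := fun {A} _ _ _ {u x} hu =>
    hC.map (u := fun y => (u y).1.1) ⟨sm_foot hu.1, hu.2.mono fun y hy => ⟨(u y).2.1, hy⟩⟩
  have hψ : ∀ a : V, ‖ps S a - x₀.1.1‖ < ε₂ → (dSt W).At (τ ∘ ps S) a := fun a ha =>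
    hC.map ⟨Sm.of_contDiff (contDiff_ps S) a, by
      filter_upwards [((contDiff_ps S).continuous.sub continuous_const).norm.continuousAt.eventually
        (gt_mem_nhds ha)] with y hy using ⟨norm_ps S y, hy⟩⟩
  refine hH.bd_of hz fun ρ => ?_
  set w' := Form.mx _ hs (Form.pull _ hτ ρ) with hw'
  -- the values of `w'`
  have hin' : ∀ {A : Type} [NormedAddCommGroup A] [NormedSpace ℝ A] [FiniteDimensional ℝ A]
      {u : A → St W} {x : A}, (dSt W).At u x → u x ∈ O →
      w'.val u x = β (u x).1.1 • ρ.val ((fun x : St W => τ x.1.1) ∘ u) x := by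
    intro A _ _ _ u x hu h
    rw [hw', Form.mx_val, Form.fn_val _ hθ hu, Form.pull_val hτ _ ⟨hu, hOo hu h⟩,
      Algebra.smul_def]
  have hb : ∀ x : St W, x ∉ O → β x.1.1 = 0 := fun x h => hβ0 _ (by
    have : ε₂ ≤ ‖x.1.1 - x₀.1.1‖ := not_lt.1 h
    linarith)
  have hout : ∀ {A : Type} [NormedAddCommGroup A] [NormedSpace ℝ A] [FiniteDimensional ℝ A]
      {u : A → St W} {x : A}, (dSt W).At u x → u x ∉ O → w'.val u x = 0 := by
    intro A _ _ _ u x hu h
    rw [hw', Form.mx_val, Form.fn_val _ hθ hu, hb _ h, map_zero, zero_mul]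
  set v : V → Lam V := fun a => β (ps S a) • ρ.val (τ ∘ ps S) a with hv
  have hvs : ContDiff ℝ ∞ v := by
    refine contDiff_iff_contDiffAt.2 fun a => ?_
    by_cases h : ‖ps S a - x₀.1.1‖ < ε₂
    · exact (β.contDiff.comp (contDiff_ps S)).contDiffAt.smul (ρ.smooth (hψ a h))
    · have h3 : (ε₁ + 2 * ε₂) / 3 < ‖ps S a - x₀.1.1‖ := by
        have := not_lt.1 h
        linarith
      refine (contDiffAt_const (c := 0)).congr_of_eventuallyEq ?_
      filter_upwards [((contDiff_ps S).continuous.sub continuous_const).norm.continuousAt.eventually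
        (lt_mem_nhds h3)] with y hy
      show β (ps S y) • _ = 0
      rw [hβ0 _ hy.le, zero_smul]
  have hvt : tsupport v ⊆ ball (kF S x₀) ε := by
    refine (closure_minimal (t := closedBall (kF S x₀) (ε / 2)) (fun a ha => ?_)
      isClosed_closedBall).trans (closedBall_subset_ball (half_lt_self hε))
    obtain ⟨x, hx1, rfl⟩ := exists_kF S (by omega) a
    refine ball_subset_closedBall (hnear x ?_).2
    by_contra h
    apply ha
    show β (ps S (kF S x)) • _ = 0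
    rw [ps_kF S hx1, hβ0 _ (by linarith [not_le.1 h]), zero_smul]
  have hL : Loc (dSt W) (OF S) (kF S) (N + 1) w' v := by
    intro A _ _ _ u x hu a
    refine ⟨fun h => ?_, fun h => ?_⟩
    · have h3 : pb (kF S ∘ u) v x = β (u x).1.1 •
          Fm.pull (fderiv ℝ (kF S ∘ u) x) (ρ.val (τ ∘ ps S) (kF S (u x))) := by
        rw [← ps_kF S h, ← map_smul]
        rfl
      rw [h3]
      by_cases h4 : u x ∈ O
      · have h5 : Sm (kF S ∘ u) x := map_kF S ⟨hu, pOpen_OF S hu h⟩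
        have h6 : (dSt W).At (τ ∘ ps S) ((kF S ∘ u) x) := hψ _ (by
          rw [Function.comp_apply, ps_kF S h]
          exact h4)
        have h7 : (τ ∘ ps S) ∘ (kF S ∘ u) =ᶠ[𝓝 x] (fun x : St W => τ x.1.1) ∘ u := by
          filter_upwards [pOpen_OF S hu h] with y hy
          show τ (ps S (kF S (u y))) = τ (u y).1.1
          rw [ps_kF S hy]
        rw [hin' hu h4, ← ρ.congr ((dSt W).comp h6 h5) h7, ρ.nat h6 h5]
        rfl
      · rw [hout hu h4, hb _ h4, zero_smul]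
    · rw [hout hu fun h4 => h (hnear _ (le_trans (le_of_lt h4) hle)).1, ev_zero]
  have h0 : z w' = 0 := by rw [hd w' v hvs hvt hL, zero_mul]
  rw [← h0]
  refine hin.congr fun {A} _ _ _ {u x} hu a => ?_
  rw [Form.pull_val hf _ hu.1]
  have hthin : (2 * ε₁ + ε₂) / 3 < ‖(u x).1.1 - x₀.1.1‖ → evalForm (ρ.val (f ∘ u) x) a = 0 := by
    intro h
    refine Thin.eval (thin_fib hW (hf hu.1) (q := -x₀.1.1) ?_) ρ a
    filter_upwards [(cont_dist hu.1 x₀.1.1).eventually (lt_mem_nhds h)] with y hy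
    exact hC.far _ (by linarith)
  by_cases h4 : u x ∈ O
  · have h5 : f ∘ u =ᶠ[𝓝 x] (fun x : St W => τ x.1.1) ∘ u := by
      filter_upwards [hOo hu.1 h4, hu.2] with y hy hy'
      exact hC.near _ (le_of_lt hy') hy
    rw [hin' hu.1 h4, ← ρ.congr (hf hu.1) h5, ev_smul]
    rcases le_or_gt ‖(u x).1.1 - x₀.1.1‖ ((2 * ε₁ + ε₂) / 3) with h6 | h6
    · rw [hβ1 _ h6, one_mul]
    · rw [hthin h6, mul_zero]
  · rw [hout hu.1 h4, ev_zero]
    refine hthin ?_
    have : ε₂ ≤ ‖(u x).1.1 - x₀.1.1‖ := not_lt.1 h4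
    linarith

end

end Vale.Agent.P231Z.C
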