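import Vale.Agent.P231Z.C.Defs

/-!
# P231, spheres and real projective spaces: lifting a periodic flow

A periodic flow on the base of a one-to-one or two-to-one local diffeomorphism from the manifold
of orthonormal pairs lifts to a periodic flow upstairs.
-/

set_option linter.unusedSectionVars false
set_option linter.unusedVariables false
set_option maxSynthPendingDepth 3

open Set Filter Module MeasureTheory Metric
open scoped ContDiff Topology

namespace Vale.Agent.P231Z.C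

noncomputable section

open Vale.Agent.P231 Vale.Agent.P231.Fm Vale.Agent.P231.W Vale.Agent.P231.H584
  Vale.Agent.P231Z.I7

section Model

variable {W : Type} [NormedAddCommGroup W] [InnerProductSpace ℝ W] [FiniteDimensional ℝ W]

namespace LF13

theorem neg_neg (x : St W) : x.neg.neg = x := Subtype.ext (by simp [St.neg])

theorem continuous_neg : Continuous (St.neg : St W → St W) :=
  Continuous.subtype_mk continuous_subtype_val.neg _

theorem two_le_dist (x : St W) : 2 ≤ dist x x.neg := by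
  have h1 : dist x.1.1 (x.neg).1.1 ≤ dist x x.neg := by
    rw [Subtype.dist_eq, Prod.dist_eq]
    exact le_max_left _ _
  have h2 : dist x.1.1 (x.neg).1.1 = 2 := by
    have : (x.neg).1.1 = -x.1.1 := rfl
    rw [this, dist_eq_norm, sub_neg_eq_add, ← two_smul ℝ x.1.1, norm_smul, x.2.1]
    norm_num
  linarith

theorem neg_ne (x : St W) : x.neg ≠ x := fun h => by
  have := two_le_dist x
  rw [h, dist_self] at this
  linarith

/-- two maps which agree up to sign and are continuous at a point where they agree, agree near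
this point -/
theorem eventually_eq {A : Type*} {l : Filter A} {a b : A → St W} {s : St W}
    (ha : Tendsto a l (𝓝 s)) (hb : Tendsto b l (𝓝 s))
    (h : ∀ᶠ y in l, b y = a y ∨ b y = (a y).neg) : a =ᶠ[l] b := by
  have h1 : Tendsto (fun y => dist (a y) (b y)) l (𝓝 (dist s s)) := ha.dist hb
  rw [dist_self] at h1
  filter_upwards [h, h1.eventually (gt_mem_nhds (show (0:ℝ) < 2 by norm_num))] with y h2 h3
  rcases h2 with h2 | h2
  · exact h2.symm
  · rw [h2] at h3
    exact absurd (two_le_dist (a y)) (not_le.2 h3)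

/-- uniqueness of lifts on a preconnected set -/
theorem eqOn_of_preconn {A : Type*} [TopologicalSpace A] {I : Set A} (hI : IsPreconnected I)
    {a b : A → St W} (ha : ContinuousOn a I) (hb : ContinuousOn b I)
    (h : ∀ y ∈ I, b y = a y ∨ b y = (a y).neg) {t : A} (ht : t ∈ I) (h0 : a t = b t) :
    EqOn a b I := by
  have hd : ContinuousOn (fun y => dist (a y) (b y)) I :=
    continuous_dist.comp_continuousOn (ha.prodMk hb)
  intro y hy
  by_contra hne
  have h2 : 2 ≤ dist (a y) (b y) := by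
    rcases h y hy with h3 | h3
    · exact absurd h3.symm hne
    · rw [h3]; exact two_le_dist _
  have h3 : dist (a t) (b t) = 0 := by rw [h0, dist_self]
  have h4 := hI.intermediate_value ht hy hd
  obtain ⟨z, hz, hz1⟩ := h4 (show (1:ℝ) ∈ Icc (dist (a t) (b t)) (dist (a y) (b y)) from
    ⟨by rw [h3]; norm_num, by linarith⟩)
  simp only at hz1
  rcases h z hz with h5 | h5
  · rw [h5, dist_self] at hz1
    norm_num at hz1
  · have := two_le_dist (a z)
    rw [← h5, hz1] at this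
    norm_num at this

theorem clopen_trick {S : Set ℝ} (h0 : (0:ℝ) ∈ S)
    (h : ∀ t₀ : ℝ, ∃ I ∈ 𝓝 t₀, ∀ t₁ ∈ I, t₁ ∈ S → ∀ t₂ ∈ I, t₂ ∈ S) (t : ℝ) : t ∈ S := by
  have hc : IsClopen S := by
    constructor
    · rw [← isOpen_compl_iff, isOpen_iff_mem_nhds]
      intro t₀ ht₀
      obtain ⟨I, hI, hh⟩ := h t₀
      filter_upwards [hI] with t₁ ht₁ hS
      exact ht₀ (hh t₁ ht₁ hS t₀ (mem_of_mem_nhds hI))
    · rw [isOpen_iff_mem_nhds]
      intro t₀ ht₀
      obtain ⟨I, hI, hh⟩ := h t₀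
      filter_upwards [hI] with t₁ ht₁
      exact hh t₀ (mem_of_mem_nhds hI) ht₀ t₁ ht₁
  rw [hc.eq_univ ⟨0, h0⟩]
  exact mem_univ t

variable {E : Type} [NormedAddCommGroup E] [NormedSpace ℝ E] [FiniteDimensional ℝ E]

theorem continuousAt_of_at {v : E → St W} {x : E} (h : (dSt W).At v x) : ContinuousAt v x := by
  have h1 : Sm (Subtype.val ∘ v) x := h
  exact Topology.IsInducing.subtypeVal.continuousAt_iff.2 h1.continuousAt

theorem at_const (s : St W) (x : E) : (dSt W).At (fun _ : E => s) x :=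
  Sm.of_contDiff (g := fun _ : E => s.1) contDiff_const x

variable {Y : Type*} {dY : Dif Y} {u : St W → Y}

/-- existence of the lift of a smooth path -/
theorem exists_path (hu : Cov dY u) (hn : ∀ x, u x.neg = u x) {g : ℝ → Y}
    (hg : ∀ t, dY.At g t) {x : St W} (hx : u x = g 0) :
    ∃ γ : ℝ → St W, Continuous γ ∧ γ 0 = x ∧ ∀ t, u (γ t) = g t := by
  have hA : ∀ t : ℝ, ∃ γ : ℝ → St W, ContinuousOn γ (uIcc 0 t) ∧ γ 0 = x ∧
      ∀ τ ∈ uIcc 0 t, u (γ τ) = g τ := by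
    intro t
    refine clopen_trick (S := {t : ℝ | ∃ γ : ℝ → St W, ContinuousOn γ (uIcc 0 t) ∧ γ 0 = x ∧
      ∀ τ ∈ uIcc 0 t, u (γ τ) = g τ}) ?_ ?_ t
    · refine ⟨fun _ => x, continuousOn_const, rfl, fun τ hτ => ?_⟩
      rw [uIcc_self, mem_singleton_iff] at hτ
      rw [hτ, hx]
    · intro t₀
      obtain ⟨s, hs⟩ := hu.surj (g t₀)
      obtain ⟨v, hv1, -, hv3⟩ := hu.lift s (hg t₀) hs
      obtain ⟨r, hr, hb⟩ := Metric.eventually_nhds_iff_ball.1 (((dSt W).open' hv1).and hv3)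
      refine ⟨ball t₀ r, ball_mem_nhds _ hr, ?_⟩
      rintro t₁ ht₁ ⟨γ, hγ1, hγ2, hγ3⟩ t₂ ht₂
      have hsub : uIcc t₁ t₂ ⊆ ball t₀ r := (convex_ball t₀ r).ordConnected.uIcc_subset ht₁ ht₂
      obtain ⟨w, hw1, hw2, hw3⟩ : ∃ w : ℝ → St W, ContinuousOn w (uIcc t₁ t₂) ∧ w t₁ = γ t₁ ∧
          ∀ τ ∈ uIcc t₁ t₂, u (w τ) = g τ := by
        have hc : ContinuousOn v (uIcc t₁ t₂) := fun τ hτ =>
          (continuousAt_of_at (hb τ (hsub hτ)).1).continuousWithinAt
        have he : u (v t₁) = u (γ t₁) := by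
          rw [hγ3 t₁ right_mem_uIcc]
          exact (hb t₁ ht₁).2
        rcases hu.fib _ _ he with h1 | h1
        · exact ⟨v, hc, h1.symm, fun τ hτ => (hb τ (hsub hτ)).2⟩
        · refine ⟨fun τ => (v τ).neg, continuous_neg.comp_continuousOn hc, h1.symm, fun τ hτ => ?_⟩
          rw [hn]
          exact (hb τ (hsub hτ)).2
      have hag : EqOn γ w (uIcc 0 t₁ ∩ uIcc t₁ t₂) := by
        refine eqOn_of_preconn (t := t₁) ?_ (hγ1.mono inter_subset_left)
          (hw1.mono inter_subset_right) (fun y hy => hu.fib _ _ ?_)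
          ⟨right_mem_uIcc, left_mem_uIcc⟩ hw2.symm
        · exact (ordConnected_uIcc.inter ordConnected_uIcc).isPreconnected
        · rw [hγ3 y hy.1, hw3 y hy.2]
      classical
      have e1 : ∀ τ ∈ uIcc 0 t₁, (uIcc 0 t₁).piecewise γ w τ = γ τ := fun τ hτ =>
        piecewise_eq_of_mem _ _ _ hτ
      have e2 : ∀ τ ∈ uIcc t₁ t₂, (uIcc 0 t₁).piecewise γ w τ = w τ := fun τ hτ => by
        by_cases h1 : τ ∈ uIcc 0 t₁
        · rw [e1 τ h1]; exact hag ⟨h1, hτ⟩
        · exact piecewise_eq_of_notMem _ _ _ h1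
      refine ⟨(uIcc 0 t₁).piecewise γ w, ?_, ?_, ?_⟩
      · refine ContinuousOn.mono ?_ (uIcc_subset_uIcc_union_uIcc (b := t₁))
        exact ContinuousOn.union_of_isClosed (hγ1.congr e1) (hw1.congr e2) isClosed_Icc
          isClosed_Icc
      · rw [e1 0 left_mem_uIcc, hγ2]
      · intro τ hτ
        rcases uIcc_subset_uIcc_union_uIcc (b := t₁) hτ with h1 | h1
        · rw [e1 τ h1, hγ3 τ h1]
        · rw [e2 τ h1, hw3 τ h1]
  choose γ hγ1 hγ2 hγ3 using hA
  have hag : ∀ T : ℝ, ∀ t ∈ uIcc 0 T, γ t t = γ T t := by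
    intro T t ht
    have hs : uIcc 0 t ⊆ uIcc 0 T := uIcc_subset_uIcc left_mem_uIcc ht
    refine eqOn_of_preconn (t := 0) (I := uIcc 0 t) isPreconnected_uIcc (hγ1 t)
      ((hγ1 T).mono hs) (fun y hy => hu.fib _ _ ?_) left_mem_uIcc ?_ right_mem_uIcc
    · rw [hγ3 t y hy, hγ3 T y (hs hy)]
    · rw [hγ2, hγ2]
  refine ⟨fun t => γ t t, ?_, hγ2 0, fun t => hγ3 t t right_mem_uIcc⟩
  rw [continuous_iff_continuousAt]
  intro t
  have hc : ContinuousOn (fun t => γ t t) (uIcc 0 (|t| + 1) ∪ uIcc 0 (-(|t| + 1))) :=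
    ContinuousOn.union_of_isClosed ((hγ1 _).congr (hag _)) ((hγ1 _).congr (hag _))
      isClosed_Icc isClosed_Icc
  refine hc.continuousAt ?_
  have h1 : Ioo (-(|t| + 1)) (|t| + 1) ∈ 𝓝 t :=
    Ioo_mem_nhds (by linarith [neg_abs_le t]) (by linarith [le_abs_self t])
  filter_upwards [h1] with τ hτ
  rcases le_total 0 τ with h2 | h2
  · exact Or.inl (mem_uIcc_of_le h2 hτ.2.le)
  · exact Or.inr (mem_uIcc_of_ge hτ.1.le h2)

/-- a family of continuous lifts of a smooth family of paths is smooth -/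
theorem at_family (hu : Cov dY u) {φ : Y × ℝ → Y} (hφ : (dY.prod (Dif.lin ℝ)).Map dY φ)
    {Φ : St W × ℝ → St W} (hc : ∀ x, Continuous fun t => Φ (x, t)) (h0 : ∀ x, Φ (x, 0) = x)
    (hl : ∀ x t, u (Φ (x, t)) = φ (u x, t)) {a : E → St W} {x : E} (ha : (dSt W).At a x)
    (t : ℝ) : (dSt W).At (fun z : E × ℝ => Φ (a z.1, z.2)) (x, t) := by
  have key : ∀ t₀ : ℝ, ∃ I ∈ 𝓝 t₀, ∀ t₁ ∈ I, ContinuousAt (fun y => Φ (a y, t₁)) x →
      ∀ t₂ ∈ I, (dSt W).At (fun z : E × ℝ => Φ (a z.1, z.2)) (x, t₂) := by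
    intro t₀
    have hfst : Sm (fun z : E × ℝ => z.1) (x, t₀) := Sm.of_contDiff contDiff_fst _
    have hsnd : Sm (fun z : E × ℝ => z.2) (x, t₀) := Sm.of_contDiff contDiff_snd _
    have h1 : (dSt W).At (a ∘ fun z : E × ℝ => z.1) (x, t₀) := (dSt W).comp ha hfst
    have h2 : (dY.prod (Dif.lin ℝ)).At (fun z : E × ℝ => (u (a z.1), z.2)) (x, t₀) :=
      ⟨hu.map h1, hsnd⟩
    obtain ⟨v, hv1, hv2, hv3⟩ := hu.lift (Φ (a x, t₀)) (hφ h2) (hl _ _)
    obtain ⟨r, hr, hb⟩ := Metric.eventually_nhds_iff_ball.1 (((dSt W).open' hv1).and hv3)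
    have hmem : ∀ y ∈ ball x r, ∀ τ ∈ ball t₀ r, (y, τ) ∈ ball (x, t₀) r := fun y hy τ hτ => by
      rw [← ball_prod_same]
      exact ⟨hy, hτ⟩
    have hfib : ∀ y ∈ ball x r, ∀ τ ∈ ball t₀ r,
        Φ (a y, τ) = v (y, τ) ∨ Φ (a y, τ) = (v (y, τ)).neg := fun y hy τ hτ =>
      hu.fib _ _ (by rw [hl]; exact (hb _ (hmem y hy τ hτ)).2)
    have hall : ∀ y ∈ ball x r, ∀ τ ∈ ball t₀ r, v (y, τ) = Φ (a y, τ) →
        ∀ σ ∈ ball t₀ r, v (y, σ) = Φ (a y, σ) := by
      intro y hy τ hτ he σ hσ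
      refine eqOn_of_preconn (a := fun τ => v (y, τ)) (b := fun τ => Φ (a y, τ)) (t := τ)
        (convex_ball t₀ r).isPreconnected ?_ (hc _).continuousOn (hfib y hy) hτ he hσ
      intro ρ hρ
      exact ((continuousAt_of_at (hb _ (hmem y hy ρ hρ)).1).comp
        (f := fun τ : ℝ => (y, τ)) (by fun_prop)).continuousWithinAt
    refine ⟨ball t₀ r, ball_mem_nhds _ hr, fun t₁ ht₁ hct t₂ ht₂ => ?_⟩
    have hx1 : v (x, t₁) = Φ (a x, t₁) :=
      hall x (mem_ball_self hr) t₀ (mem_ball_self hr) hv2 t₁ ht₁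
    have hcv : ContinuousAt (fun y => v (y, t₁)) x :=
      (continuousAt_of_at (hb _ (hmem x (mem_ball_self hr) t₁ ht₁)).1).comp
        (f := fun y : E => (y, t₁)) (by fun_prop)
    have hev : (fun y => v (y, t₁)) =ᶠ[𝓝 x] fun y => Φ (a y, t₁) := by
      refine eventually_eq (s := Φ (a x, t₁)) ?_ hct ?_
      · rw [← hx1]; exact hcv
      · filter_upwards [ball_mem_nhds x hr] with y hy using hfib y hy t₁ ht₁
    refine (dSt W).congr (hb _ (hmem x (mem_ball_self hr) t₂ ht₂)).1 ?_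
    have h3 : ∀ᶠ z : E × ℝ in 𝓝 (x, t₂), (z.1 ∈ ball x r ∧ v (z.1, t₁) = Φ (a z.1, t₁)) :=
      (continuous_fst.tendsto (x, t₂)).eventually
        (Filter.Eventually.and (p := fun y => y ∈ ball x r) (ball_mem_nhds x hr) hev)
    have h4 : ∀ᶠ z : E × ℝ in 𝓝 (x, t₂), z.2 ∈ ball t₀ r :=
      (continuous_snd.tendsto (x, t₂)).eventually (isOpen_ball.mem_nhds ht₂)
    filter_upwards [h3, h4] with z hz1 hz2
    exact hall z.1 hz1.1 t₁ ht₁ hz1.2 z.2 hz2
  have hsl : ∀ t₂ : ℝ, (dSt W).At (fun z : E × ℝ => Φ (a z.1, z.2)) (x, t₂) →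
      ContinuousAt (fun y => Φ (a y, t₂)) x := fun t₂ h =>
    (continuousAt_of_at h).comp (f := fun y : E => (y, t₂)) (by fun_prop)
  have hS : ∀ t : ℝ, t ∈ {t : ℝ | ContinuousAt (fun y => Φ (a y, t)) x} := by
    refine clopen_trick ?_ ?_
    · change ContinuousAt (fun y => Φ (a y, 0)) x
      simp only [h0]
      exact continuousAt_of_at ha
    · intro t₀
      obtain ⟨I, hI, hh⟩ := key t₀
      exact ⟨I, hI, fun t₁ ht₁ h t₂ ht₂ => hsl t₂ (hh t₁ ht₁ h t₂ ht₂)⟩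
  obtain ⟨I, hI, hh⟩ := key t
  exact hh t (mem_of_mem_nhds hI) (hS t) t (mem_of_mem_nhds hI)

end LF13

/-- smooth families of maps are continuous in the time -/
theorem continuous_time {Φ : St W × ℝ → St W}
    (h : ((dSt W).prod (Dif.lin ℝ)).Map (dSt W) Φ) (x : St W) : Continuous fun t => Φ (x, t) := by
  rw [continuous_iff_continuousAt]
  intro t
  have h1 : ((dSt W).prod (Dif.lin ℝ)).At (fun τ : ℝ => (x, τ)) t :=
    ⟨LF13.at_const x t, Sm.of_contDiff contDiff_id t⟩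
  exact LF13.continuousAt_of_at (h h1)

theorem lift_flow_one {Y : Type*} {dY : Dif Y} {u : St W → Y} (hu : Cov dY u)
    (hi : Function.Injective u) {T : ℝ} {φ : Y × ℝ → Y} (hφ : IsFlow dY T φ) :
    ∃ Φ, IsFlow (dSt W) T Φ ∧ ∀ x t, u (Φ (x, t)) = φ (u x, t) := by
  choose w hw using hu.surj
  refine ⟨fun p => w (φ (u p.1, p.2)), ⟨?_, ?_, ?_, ?_⟩, fun x t => hw _⟩
  · intro E _ _ _ p x hp
    have h2 : (dY.prod (Dif.lin ℝ)).At (fun z : E => (u (p z).1, (p z).2)) x :=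
      ⟨hu.map hp.1, hp.2⟩
    obtain ⟨v, hv1, -, hv3⟩ := hu.lift (w (φ (u (p x).1, (p x).2))) (hφ.map h2) (hw _)
    refine (dSt W).congr hv1 ?_
    filter_upwards [hv3] with y hy
    exact hi (hy.trans (hw _).symm)
  · intro x
    exact hi (by rw [hw, hφ.zero])
  · intro x s t
    exact hi (by rw [hw, hw, hw, hφ.add])
  · intro x
    exact hi (by rw [hw, hφ.per])

theorem lift_unique {Y : Type*} {dY : Dif Y} {u : St W → Y} (hu : Cov dY u) {γ γ' : ℝ → St W}
    (hγ : Continuous γ) (hγ' : Continuous γ') (h0 : γ 0 = γ' 0) (h : ∀ t, u (γ t) = u (γ' t)) :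
    γ = γ' :=
  funext fun t => LF13.eqOn_of_preconn isPreconnected_univ hγ.continuousOn hγ'.continuousOn
    (fun y _ => hu.fib _ _ (h y)) (mem_univ 0) h0 (mem_univ t)

theorem lift_flow_two {Y : Type*} {dY : Dif Y} {u : St W → Y} (hu : Cov dY u)
    (hn : ∀ x, u x.neg = u x) {T : ℝ} {φ : Y × ℝ → Y} (hφ : IsFlow dY T φ) :
    ∃ Φ, IsFlow (dSt W) (2 * T) Φ ∧ ∀ x t, u (Φ (x, t)) = φ (u x, t) := by
  have hex : ∀ x : St W, ∃ γ : ℝ → St W, Continuous γ ∧ γ 0 = x ∧
      ∀ t, u (γ t) = φ (u x, t) := by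
    intro x
    refine LF13.exists_path hu hn (g := fun t => φ (u x, t)) (fun t => ?_) (hφ.zero _).symm
    have h1 : (dY.prod (Dif.lin ℝ)).At (fun τ : ℝ => (u x, τ)) t :=
      ⟨hu.map (LF13.at_const x t), Sm.of_contDiff contDiff_id t⟩
    exact hφ.map h1
  choose γ hγ1 hγ2 hγ3 using hex
  have hadd : ∀ x s t, γ (γ x s) t = γ x (s + t) := by
    intro x s t
    have := lift_unique hu (γ := γ (γ x s)) (γ' := fun t => γ x (s + t)) (hγ1 _)
      ((hγ1 x).comp (continuous_const.add continuous_id)) (by rw [hγ2, add_zero])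
      (fun t => by rw [hγ3, hγ3, hγ3, hφ.add])
    exact congrFun this t
  have hneg : ∀ x t, γ x.neg t = (γ x t).neg := by
    intro x t
    have := lift_unique hu (γ := γ x.neg) (γ' := fun t => (γ x t).neg) (hγ1 _)
      (LF13.continuous_neg.comp (hγ1 x)) (by rw [hγ2, hγ2])
      (fun t => by rw [hγ3, hn, hn, hγ3])
    exact congrFun this t
  refine ⟨fun p => γ p.1 p.2, ⟨?_, hγ2, hadd, ?_⟩, hγ3⟩
  · intro E _ _ _ p x hp
    have h1 := LF13.at_family hu hφ.map (Φ := fun p => γ p.1 p.2) hγ1 hγ2 hγ3 hp.1 (p x).2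
    have h2 : Sm (fun y : E => (y, (p y).2)) x := (Sm.of_contDiff contDiff_id x).prodMk hp.2
    exact (dSt W).comp (g := fun y : E => (y, (p y).2)) h1 h2
  · intro x
    change γ x (2 * T) = x
    rw [two_mul, ← hadd]
    rcases hu.fib x (γ x T) (by rw [hγ3, hφ.per]) with h1 | h1
    · rw [h1, h1]
    · rw [h1, hneg, h1, LF13.neg_neg]

end Model

end

end Vale.Agent.P231Z.C
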