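import Vale.Agent.P231Z.C.Rot
import Vale.Agent.P231Z.C.Chart
import Vale.Agent.P231.WG.Stokes

/-!
# P231, spheres: Stokes' theorem for the fundamental cycle of the orthonormal pairs
-/

set_option linter.unusedSectionVars false
set_option linter.unusedVariables false

open Set Filter Module MeasureTheory Metric
open scoped ContDiff Topology

namespace Vale.Agent.P231Z.C

noncomputable section

open Vale.Agent.P231 Vale.Agent.P231.Fm Vale.Agent.P231.W Vale.Agent.P231.WG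

variable {V W : Type} [NormedAddCommGroup V] [InnerProductSpace ℝ V] [FiniteDimensional ℝ V]
  [NormedAddCommGroup W] [InnerProductSpace ℝ W] [FiniteDimensional ℝ W] {N : ℕ}

namespace Fu

theorem op_val (x : St W) : Ch.op x.1 = x.1.2 := by
  have h1 : Ch.nz x.1.1 = x.1.1 := by rw [Ch.nz, x.2.1, inv_one, one_smul]
  rw [Ch.op, h1, x.2.2.2, zero_smul, sub_zero]

theorem gs_val (x : St W) : Ch.gs x.1 = x.1 := by
  have h1 : Ch.nz x.1.1 = x.1.1 := by rw [Ch.nz, x.2.1, inv_one, one_smul]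
  have h2 : Ch.nz x.1.2 = x.1.2 := by rw [Ch.nz, x.2.2.1, inv_one, one_smul]
  rw [Ch.gs, op_val, h1, h2]

theorem at_gs (x : St W) : (dSt W).At (fun q : W × W => mkSt x (Ch.gs q)) x.1 := by
  have h1 : x.1.1 ≠ 0 := norm_ne_zero_iff.1 (by rw [x.2.1]; exact one_ne_zero)
  have h2 : Ch.op x.1 ≠ 0 := norm_ne_zero_iff.1 (by rw [op_val, x.2.2.1]; exact one_ne_zero)
  have h3 : ∀ᶠ q in 𝓝 x.1, q.1 ≠ 0 ∧ Ch.op q ≠ 0 :=
    (continuous_fst.continuousAt.eventually_ne h1).and
      ((Ch.cd_op h1).continuousAt.eventually_ne h2)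
  have h4 : Sm (Ch.gs : W × W → W × W) x.1 := h3.mono fun q hq => Ch.cd_gs hq.1 hq.2
  refine h4.congr ?_
  filter_upwards [h3] with q hq
  exact (mkSt_val x (Ch.gs_ok hq.1 hq.2)).symm

/-- a form vanishes on the velocity of a curve on which the plot is constant -/
theorem kernel {A : Type} [NormedAddCommGroup A] [NormedSpace ℝ A] [FiniteDimensional ℝ A]
    (w : Form (dSt W)) {u : A → St W} {x : A} (hu : (dSt W).At u x) {γ : ℝ → A} {γ' : A}
    (hγ : HasDerivAt γ γ' 0) (hx : γ 0 = x) (hc : ∀ᶠ t in 𝓝 (0 : ℝ), u (γ t) = u x) :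
    iprod γ' (w.val u x) = 0 := by
  have h0 : Sm (fun y => (u y).1) x := hu
  have h1 := w.nat (u := fun q : W × W => mkSt (u x) (Ch.gs q)) (g := fun y => (u y).1) (x := x)
    (at_gs (u x)) h0
  have h2 : ((fun q : W × W => mkSt (u x) (Ch.gs q)) ∘ fun y => (u y).1) = u :=
    funext fun y => Subtype.ext (by
      change (mkSt (u x) (Ch.gs (u y).1)).1 = _
      rw [gs_val, mkSt_val _ (u y).2])
  rw [h2] at h1
  rw [h1, pull_iprod]
  have h3 : fderiv ℝ (fun y => (u y).1) x γ' = 0 := by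
    have h4 : HasFDerivAt (fun y => (u y).1) (fderiv ℝ (fun y => (u y).1) x) (γ 0) := by
      rw [hx]
      exact h0.differentiableAt.hasFDerivAt
    have h5 := h4.comp_hasDerivAt 0 hγ
    have h6 : (fun y => (u y).1) ∘ γ =ᶠ[𝓝 (0 : ℝ)] fun _ => (u x).1 := by
      filter_upwards [hc] with t ht
      exact congrArg Subtype.val ht
    exact h5.unique ((hasDerivAt_const _ _).congr_of_eventuallyEq h6)
  rw [h3, Q.iprod_zero_left, map_zero]

theorem contDiffOn_val (S : Spl V W) (x0 : St W) (c : ℝ) (w : Form (dSt W)) :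
    ContDiffOn ℝ ∞ (w.val (ccM S x0 c)) (univ ×ˢ {0}ᶜ) := by
  rintro z ⟨-, h2⟩
  exact (w.smooth (at_ccM S x0 c h2)).contDiffWithinAt

theorem iprod_radial (S : Spl V W) (x0 : St W) (c : ℝ) (w : Form (dSt W)) (x : V) {y : V}
    (hy : y ≠ 0) : iprod ((0, y) : V × V) (w.val (ccM S x0 c) (x, y)) = 0 := by
  have hγ : HasDerivAt (fun t : ℝ => ((x, (1 + t) • y) : V × V)) (0, y) 0 := by
    have h1 : HasDerivAt (fun t : ℝ => (1 + t) • y) ((1 : ℝ) • y) 0 :=
      ((hasDerivAt_id (0 : ℝ)).const_add 1).smul_const y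
    rw [one_smul] at h1
    exact (hasDerivAt_const 0 x).prodMk h1
  refine kernel w (u := ccM S x0 c) (x := (x, y)) (at_ccM S x0 c hy) hγ (by simp) ?_
  filter_upwards [Ioi_mem_nhds (show (-1 : ℝ) < 0 by norm_num)] with t ht
  have h1 : 0 < 1 + t := by linarith [mem_Ioi.1 ht]
  have h2 : ‖(1 + t) • y‖⁻¹ • (1 + t) • y = ‖y‖⁻¹ • y := by
    rw [norm_smul, Real.norm_of_nonneg h1.le, smul_smul, mul_inv, mul_comm (1 + t)⁻¹, mul_assoc,
      inv_mul_cancel₀ h1.ne', mul_one]
  change mkSt x0 (_, S.rot _ (S.i (‖(1 + t) • y‖⁻¹ • (1 + t) • y))) = _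
  rw [h2]
  rfl

/-- the reflection in the hyperplane orthogonal to `v` -/
def rf (v a : V) : V := a - (2 * inner ℝ v a : ℝ) • v

theorem rf_rf {v : V} (hv : ‖v‖ = 1) (a : V) : rf v (rf v a) = a := by
  rw [rf, rf, inner_sub_right, real_inner_smul_right, real_inner_self_eq_norm_sq, hv]
  module

theorem norm_rf {v : V} (hv : ‖v‖ = 1) (a : V) : ‖rf v a‖ = ‖a‖ := by
  have h1 : ‖rf v a‖ ^ 2 = ‖a‖ ^ 2 := by
    rw [rf, norm_sub_sq_real, norm_smul, hv, real_inner_smul_right, real_inner_comm v a,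
      mul_one, Real.norm_eq_abs, sq_abs]
    ring
  exact (sq_eq_sq₀ (norm_nonneg _) (norm_nonneg _)).1 h1

theorem rot_pi_i (S : Spl V W) {v : V} (hv : ‖v‖ = 1) (a : V) :
    S.rot (Real.pi • v) (S.i a) = S.i (rf v a) := by
  have h1 : a = (inner ℝ v a : ℝ) • v + (a - (inner ℝ v a : ℝ) • v) := by abel
  have h2 : (inner ℝ (Real.pi • v) (a - (inner ℝ v a : ℝ) • v) : ℝ) = 0 := by
    rw [real_inner_smul_left, inner_sub_right, real_inner_smul_right, real_inner_self_eq_norm_sq,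
      hv]
    ring
  have h3 : S.i a = (inner ℝ v a : ℝ) • S.i v + S.i (a - (inner ℝ v a : ℝ) • v) := by
    rw [← map_smul, ← map_add, ← h1]
  rw [h3, map_add, map_smul, S.rot_v hv, S.rot_orth _ h2, Real.sin_pi, Real.cos_pi, rf, map_sub,
    map_sub, map_smul, map_smul]
  module

theorem ccM_pi (S : Spl V W) (x0 : St W) {c : ℝ} (hc : 0 < c) {v y : V} (hv : ‖v‖ = 1)
    (hy : y ≠ 0) : (ccM S x0 c ((Real.pi * c) • v, y)).1 = (-S.e, ‖y‖⁻¹ • S.i (rf v y)) := by
  have h1 : c⁻¹ • (Real.pi * c) • v = Real.pi • v := by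
    rw [smul_smul, mul_comm Real.pi, ← mul_assoc, inv_mul_cancel₀ hc.ne', one_mul]
  rw [ccM_val S x0 c (z := ((Real.pi * c) • v, y)) hy]
  change (S.rot (c⁻¹ • (Real.pi * c) • v) S.e,
    S.rot (c⁻¹ • (Real.pi * c) • v) (S.i (‖y‖⁻¹ • y))) = _
  rw [h1, map_smul, map_smul, rot_pi_i S hv, S.rot_pi (by
    rw [norm_smul, hv, mul_one, Real.norm_of_nonneg Real.pi_pos.le])]

theorem exists_kernel (S : Spl V W) (x0 : St W) (hV : 2 ≤ finrank ℝ V) {c : ℝ} (hc : 0 < c)
    {x : V} (hx : ‖x‖ = Real.pi * c) : ∃ κ : V, κ ≠ 0 ∧ inner ℝ x κ = (0 : ℝ) ∧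
      ∀ y, y ≠ 0 → ∃ z, ∀ w : Form (dSt W),
        iprod ((κ, z) : V × V) (w.val (ccM S x0 c) (x, y)) = 0 := by
  have hD : 0 < Real.pi * c := mul_pos Real.pi_pos hc
  set v : V := (Real.pi * c)⁻¹ • x with hv
  have hv1 : ‖v‖ = 1 := by
    rw [hv, norm_smul, hx, Real.norm_of_nonneg (inv_pos.2 hD).le, inv_mul_cancel₀ hD.ne']
  have hxv : x = (Real.pi * c) • v := by rw [hv, smul_smul, mul_inv_cancel₀ hD.ne', one_smul]
  have hv0 : v ≠ 0 := norm_ne_zero_iff.1 (by rw [hv1]; exact one_ne_zero)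
  obtain ⟨ζ, hζ1, hζ⟩ : ∃ ζ : V, ‖ζ‖ = 1 ∧ (inner ℝ v ζ : ℝ) = 0 := by
    have h1 := Submodule.finrank_add_finrank_orthogonal (ℝ ∙ v)
    rw [finrank_span_singleton hv0] at h1
    have : Nontrivial (ℝ ∙ v)ᗮ := nontrivial_of_finrank_pos (R := ℝ) (by omega)
    obtain ⟨a, ha⟩ := exists_norm_eq (ℝ ∙ v)ᗮ zero_le_one
    exact ⟨a, ha, (Submodule.mem_orthogonal_singleton_iff_inner_right).1 a.2⟩
  set g : ℝ → V := fun t => Real.cos t • v + Real.sin t • ζ with hg
  have hgs : ContDiff ℝ ∞ g :=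
    (Real.contDiff_cos.smul contDiff_const).add (Real.contDiff_sin.smul contDiff_const)
  have hgn : ∀ t, ‖g t‖ = 1 := by
    intro t
    have h1 : ‖g t‖ ^ 2 = 1 ^ 2 := by
      rw [hg, norm_add_sq_real, norm_smul _ v, norm_smul _ ζ, hv1, hζ1, real_inner_smul_left,
        real_inner_smul_right, hζ]
      simp only [mul_one, Real.norm_eq_abs, sq_abs, mul_zero, add_zero]
      linarith [Real.sin_sq_add_cos_sq t]
    exact (sq_eq_sq₀ (norm_nonneg _) zero_le_one).1 h1
  have hg0 : g 0 = v := by simp [hg]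
  have hgd : HasDerivAt g ζ 0 := by
    have h1 := ((Real.hasDerivAt_cos 0).smul_const v).add ((Real.hasDerivAt_sin 0).smul_const ζ)
    rw [Real.sin_zero, Real.cos_zero, neg_zero, zero_smul, zero_add, one_smul] at h1
    exact h1
  refine ⟨(Real.pi * c) • ζ, smul_ne_zero hD.ne' (norm_ne_zero_iff.1 (by
    rw [hζ1]; exact one_ne_zero)), ?_, fun y hy => ?_⟩
  · rw [hxv, real_inner_smul_left, real_inner_smul_right, hζ, mul_zero, mul_zero]
  · set η : ℝ → V := fun t => rf (g t) (rf v y) with hη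
    have hηs : ContDiff ℝ ∞ η :=
      contDiff_const.sub ((contDiff_const.mul (hgs.inner ℝ contDiff_const)).smul hgs)
    have hηn : ∀ t, ‖η t‖ = ‖y‖ := fun t => by rw [hη, norm_rf (hgn t), norm_rf hv1]
    have hη0 : ∀ t, η t ≠ 0 := fun t =>
      norm_ne_zero_iff.1 (by rw [hηn]; exact norm_ne_zero_iff.2 hy)
    refine ⟨deriv η 0, fun w => ?_⟩
    have hγ : HasDerivAt (fun t : ℝ => (((Real.pi * c) • g t, η t) : V × V))
        ((Real.pi * c) • ζ, deriv η 0) 0 :=
      (hgd.const_smul (Real.pi * c)).prodMk (hηs.differentiable (by simp) 0).hasDerivAt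
    refine kernel w (u := ccM S x0 c) (x := (x, y)) (at_ccM S x0 c hy) hγ ?_
      (Eventually.of_forall fun t => Subtype.ext ?_)
    · rw [hg0, ← hxv, hη]
      simp only [hg0]
      rw [rf_rf hv1]
    · rw [ccM_pi S x0 hc (hgn t) (hη0 t), hxv, ccM_pi S x0 hc hv1 hy, hηn, hη]
      simp only
      rw [rf_rf (hgn t)]

end Fu

variable [MeasurableSpace V] [BorelSpace V]

/-- **additivity and Stokes' theorem for the fundamental cycle** -/
theorem IM_exact (S : Spl V W) (x0 : St W) (b : Basis (Fin (N + 1)) ℝ V) (hN : 1 ≤ N) {c : ℝ}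
    (hc : 0 < c) {r : V → ℝ} {K : Set V} (hr : Q.Cut r K) (w η : Form (dSt W)) :
    IM S x0 b c r (w + η.d) = IM S x0 b c r w := by
  have hD : 0 < Real.pi * c := mul_pos Real.pi_pos hc
  have hV : 2 ≤ finrank ℝ V := by
    rw [finrank_eq_card_basis b, Fintype.card_fin]
    omega
  have hsm : ∀ v : Form (dSt W), ContDiffOn ℝ ∞ (Q.phi b.addHaar b r (v.val (ccM S x0 c))) univ :=
    fun v => Q.contDiffOn_phi b.addHaar b hr isOpen_univ (Fu.contDiffOn_val S x0 c v)
  have hint : ∀ v : Form (dSt W), IntegrableOn (fun x =>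
      evalForm (Q.phi b.addHaar b r (v.val (ccM S x0 c)) x) b) (ball 0 (Real.pi * c))
        b.addHaar := fun v => by
    have h1 : ContinuousOn (fun x => evalL (b : Fin (N + 1) → V)
        (Q.phi b.addHaar b r (v.val (ccM S x0 c)) x)) (closedBall 0 (Real.pi * c)) :=
      (evalL (b : Fin (N + 1) → V)).continuous.comp_continuousOn
        ((hsm v).continuousOn.mono (subset_univ _))
    exact (h1.integrableOn_compact (isCompact_closedBall 0 _)).mono_set ball_subset_closedBall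
  have hadd : IM S x0 b c r (w + η.d) = IM S x0 b c r w + IM S x0 b c r η.d := by
    rw [IM, IM, IM, ← integral_add (hint w) (hint η.d)]
    refine setIntegral_congr_fun measurableSet_ball fun x hx => ?_
    have h1 := Q.integrable_slice b.addHaar b hr isOpen_univ (Fu.contDiffOn_val S x0 c w)
      (mem_univ x)
    have h2 := Q.integrable_slice b.addHaar b hr isOpen_univ (Fu.contDiffOn_val S x0 c η.d)
      (mem_univ x)
    have h3 : Q.phi b.addHaar b r ((w + η.d).val (ccM S x0 c)) x =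
        Q.phi b.addHaar b r (w.val (ccM S x0 c)) x +
          Q.phi b.addHaar b r (η.d.val (ccM S x0 c)) x := by
      refine Eq.trans ?_ (integral_add h1 h2)
      refine integral_congr_ae (Eventually.of_forall fun y => ?_)
      change slice b (Q.ps (Q.dR r y) * (w.val _ _ + η.d.val _ _)) =
        slice b (Q.ps (Q.dR r y) * w.val _ _) + slice b (Q.ps (Q.dR r y) * η.d.val _ _)
      rw [mul_add, map_add]
    change evalForm (Q.phi b.addHaar b r ((w + η.d).val (ccM S x0 c)) x) b = _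
    rw [h3, Q.evalForm_add]
  have hst := ball_stokes_of_iprod (V := V) b.addHaar b hD (U := univ) isOpen_univ
    (subset_univ _) (Φ := Q.phi b.addHaar b r (η.val (ccM S x0 c)))
    ((hsm η).of_le (WithTop.coe_le_coe.2 le_top)) (fun x hx => by
      obtain ⟨κ, h1, h2, h3⟩ := Fu.exists_kernel S x0 hV hc hx
      refine ⟨κ, h1, h2, ?_⟩
      refine iprod_phi_eq_zero b.addHaar b hr (fun y hy => Fu.iprod_radial S x0 c η x hy)
        fun y hy => ?_
      obtain ⟨z, hz⟩ := h3 y hy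
      exact ⟨z, hz η⟩)
  have h4 : IM S x0 b c r η.d = ∫ x in ball (0 : V) (Real.pi * c), (-((-1 : ℝ) ^ (N + 1))) *
      evalForm (extd (Q.phi b.addHaar b r (η.val (ccM S x0 c))) x) b ∂b.addHaar := by
    refine setIntegral_congr_fun measurableSet_ball fun x hx => ?_
    have h1 : Q.phi b.addHaar b r (η.d.val (ccM S x0 c)) x =
        Q.phi b.addHaar b r (extd (η.val (ccM S x0 c))) x :=
      Q.phi_congr b.addHaar b hr fun y hy => Form.d_val η (at_ccM S x0 c (z := (x, y)) hy)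
    change evalForm (Q.phi b.addHaar b r (η.d.val (ccM S x0 c)) x) b = _
    rw [h1, Q.phi_extd b.addHaar b hr isOpen_univ (Fu.contDiffOn_val S x0 c η) (mem_univ x)]
    change evalL (b : Fin (N + 1) → V) (-((-1 : ℝ) ^ (N + 1) • extd _ x)) = _
    rw [_root_.map_neg, map_smul, smul_eq_mul, neg_mul]
    rfl
  rw [hadd, h4, integral_const_mul, hst, mul_zero, add_zero]

end

end Vale.Agent.P231Z.C
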