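import Vale.Agent.P231Z.C.Deg
import Vale.Agent.P231Z.C.Rot
import Vale.Agent.P231Z.C.Chart

/-!
# P231, spheres and real projective spaces: the local degree of the fundamental cycle
-/

set_option linter.unusedSectionVars false
set_option linter.unusedVariables false

open Set Filter Module MeasureTheory Metric
open scoped ContDiff Topology

namespace Vale.Agent.P231Z.C

noncomputable section

open Vale.Agent.P231 Vale.Agent.P231.Fm Vale.Agent.P231.W Vale.Agent.P231.H584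
  Vale.Agent.P231Z.I7

namespace FD

section Alg

variable {E : Type} [NormedAddCommGroup E] [NormedSpace ℝ E] [FiniteDimensional ℝ E]

theorem eval_dx_mul_zero {m : ℕ} {a : Lam E} (h : ∀ u : Fin m → E, evalForm a u = 0)
    (l : E →L[ℝ] ℝ) (v : Fin (m + 1) → E) : evalForm (dx l * a) v = 0 := by
  induction m generalizing a with
  | zero =>
    rw [evalForm_apply, cont_succ, cont_zero, iprod_dx_mul, map_sub, map_smul, map_mul, aug_dx,
      zero_mul, sub_zero]
    have := h fun i => i.elim0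
    rw [evalForm_apply, cont_zero] at this
    rw [this, smul_zero]
  | succ m ih =>
    rw [evalForm_apply, cont_succ, iprod_dx_mul, map_sub, map_smul, map_sub, map_smul]
    have h1 := h fun i => v i.succ
    rw [evalForm_apply] at h1
    have h2 := ih (a := iprod (v 0) a) (fun u => by
      have := h (Fin.cons (v 0) u)
      rw [evalForm_apply, cont_succ] at this
      simpa [evalForm_apply] using this) fun i => v i.succ
    rw [evalForm_apply] at h2
    rw [h1, h2, smul_zero, sub_zero]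

theorem eval_dx_mul_zero' {m k : ℕ} (hk : k = m + 1) {a : Lam E}
    (h : ∀ u : Fin m → E, evalForm a u = 0) (l : E →L[ℝ] ℝ) (v : Fin k → E) :
    evalForm (dx l * a) v = 0 := by
  subst hk
  exact eval_dx_mul_zero h l v

theorem eval_dx_mul_congr {m k : ℕ} (hk : k = m + 1) {a a' : Lam E}
    (h : ∀ u : Fin m → E, evalForm a u = evalForm a' u) (l : E →L[ℝ] ℝ) (v : Fin k → E) :
    evalForm (dx l * a) v = evalForm (dx l * a') v := by
  have h1 := eval_dx_mul_zero' hk (a := a - a') (fun u => by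
    rw [← evalL_apply, map_sub, evalL_apply, evalL_apply, h u, sub_self]) l v
  rw [mul_sub, ← evalL_apply, map_sub, evalL_apply, evalL_apply] at h1
  exact sub_eq_zero.1 h1

end Alg

section One

variable {G G' : Type} [NormedAddCommGroup G] [NormedSpace ℝ G] [FiniteDimensional ℝ G]
  [MeasurableSpace G] [BorelSpace G] [NormedAddCommGroup G'] [NormedSpace ℝ G']
  [FiniteDimensional ℝ G'] [MeasurableSpace G'] [BorelSpace G']

/-- `one_deg` for maps between two spaces of the same dimension -/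
theorem one_deg' {m m' : ℕ} (hm : m = m') (b : Basis (Fin m) ℝ G) (b' : Basis (Fin m') ℝ G')
    {U : Set G} (hU : IsOpen U) {f : G → G'} (hf : ContDiffOn ℝ ∞ f U) (hi : InjOn f U)
    {B : Set G'} (hB : IsOpen B) (hne : B.Nonempty) (hs : B ⊆ f '' U) :
    ∃ y ∈ B, ∃ ε > 0, ∃ s : ℤ, |s| = 1 ∧ ∀ v : G' → Lam G', ContDiff ℝ ∞ v →
      tsupport v ⊆ ball y ε →
        ∫ x in U, evalForm (pb f v x) b ∂b.addHaar = s * TW.JJ b' v := by
  subst hm
  set L : G ≃L[ℝ] G' := (b.equiv b' (Equiv.refl _)).toContinuousLinearEquiv with hL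
  have hb : b.map L.toLinearEquiv = b' := by
    ext i
    simp [hL]
  obtain ⟨y, hy, ε, hε, s, hs1, H⟩ := one_deg b hU (f := fun x => L.symm (f x))
    (L.symm.contDiff.comp_contDiffOn hf) (fun x hx x' hx' h => hi hx hx' (L.symm.injective h))
    (B := L ⁻¹' B) (hB.preimage L.continuous)
    (by obtain ⟨y, hy⟩ := hne; exact ⟨L.symm y, by simpa using hy⟩)
    (fun y hy => by
      obtain ⟨x, hx, hxy⟩ := hs hy
      exact ⟨x, hx, by simp [hxy]⟩)
  obtain ⟨δ, hδ, hδ'⟩ := Metric.continuousAt_iff.1 (L.symm.continuous.continuousAt (x := L y)) ε hε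
  refine ⟨L y, hy, δ, hδ, s, hs1, fun v hv ht => ?_⟩
  have hv' : ContDiff ℝ ∞ (pb L v) := contDiff_iff_contDiffAt.2 fun x =>
    contDiffAt_pb (n := ∞) L.contDiff.contDiffAt hv.contDiffAt (by simp)
  have ht' : tsupport (pb L v) ⊆ ball y ε := by
    have h1 : tsupport (pb L v) ⊆ L ⁻¹' tsupport v := by
      refine closure_minimal (fun x hx => subset_tsupport _ fun h => hx ?_)
        ((isClosed_tsupport v).preimage L.continuous)
      rw [pb, h, map_zero]
    intro x hx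
    have h2 := hδ' (ht (h1 hx))
    simpa using h2
  have h3 := H _ hv' ht'
  rw [TW.JJ_pb_equiv, hb] at h3
  rw [← h3]
  refine setIntegral_congr_fun hU.measurableSet fun x hx => ?_
  have h4 : DifferentiableAt ℝ (fun x => L.symm (f x)) x :=
    L.symm.differentiableAt.comp x ((hf.contDiffAt (hU.mem_nhds hx)).differentiableAt (by simp))
  have h5 := pb_comp (g := L) v L.differentiableAt h4
  simp only [ContinuousLinearEquiv.apply_symm_apply] at h5
  simp only [h5]

end One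

/-- a smooth step function -/
theorem exists_step {t ε : ℝ} (hε : 0 < ε) : ∃ H : ℝ → ℝ, ContDiff ℝ ∞ H ∧
    (∀ s, s ≤ t - ε → H s = 0) ∧ (∀ s, t + ε ≤ s → H s = 1) ∧
      (∀ s ∉ Icc (t - ε) (t + ε), fderiv ℝ H s = 0) ∧ ∫ s, deriv H s = 1 := by
  set H : ℝ → ℝ := fun s => Real.smoothTransition ((s - (t - ε)) / (2 * ε)) with hH
  have h1 : ContDiff ℝ ∞ H :=
    Real.smoothTransition.contDiff.comp ((contDiff_id.sub contDiff_const).div_const _)
  have h2 : ∀ s, s ≤ t - ε → H s = 0 := fun s hs =>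
    Real.smoothTransition.zero_of_nonpos (div_nonpos_of_nonpos_of_nonneg (by linarith) (by linarith))
  have h3 : ∀ s, t + ε ≤ s → H s = 1 := fun s hs =>
    Real.smoothTransition.one_of_one_le ((one_le_div (by linarith)).2 (by linarith))
  have h4 : ∀ s ∉ Icc (t - ε) (t + ε), fderiv ℝ H s = 0 := by
    intro s hs
    rw [mem_Icc, not_and_or, not_le, not_le] at hs
    rcases hs with hs | hs
    · have : H =ᶠ[𝓝 s] fun _ => 0 := by
        filter_upwards [Iio_mem_nhds hs] with u hu using h2 u (le_of_lt hu)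
      rw [this.fderiv_eq]
      simp
    · have : H =ᶠ[𝓝 s] fun _ => 1 := by
        filter_upwards [Ioi_mem_nhds hs] with u hu using h3 u (le_of_lt hu)
      rw [this.fderiv_eq]
      simp
  refine ⟨H, h1, h2, h3, h4, ?_⟩
  have hc : Continuous (deriv H) := h1.continuous_deriv (by simp)
  have hi : Integrable (deriv H) := hc.integrable_of_hasCompactSupport
    (HasCompactSupport.intro isCompact_Icc fun s hs => by
      rw [← fderiv_apply_one_eq_deriv, h4 s hs]; rfl)
  have k1 : Tendsto H atBot (𝓝 0) := by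
    refine tendsto_const_nhds.congr' ?_
    filter_upwards [Iic_mem_atBot (t - ε)] with s hs using (h2 s hs).symm
  have k2 : Tendsto H atTop (𝓝 1) := by
    refine tendsto_const_nhds.congr' ?_
    filter_upwards [Ici_mem_atTop (t + ε)] with s hs using (h3 s hs).symm
  have k3 := integral_of_hasDerivAt_of_tendsto (fun s =>
    (h1.differentiable (by simp) s).hasDerivAt) hi k1 k2
  rw [k3, sub_zero]

theorem eval_dR (H : ℝ → ℝ) (t : ℝ) : evalForm (Q.dR H t) TW.bR = deriv H t := by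
  rw [evalForm_apply, cont_succ, cont_zero, Q.dR, iprod_dx, AlgHom.commutes, TW.bR_apply,
    fderiv_apply_one_eq_deriv]
  rfl

section Prod

variable {G : Type} [NormedAddCommGroup G] [NormedSpace ℝ G] [FiniteDimensional ℝ G]
  [MeasurableSpace G] [BorelSpace G]

/-- the form `dH ∧ v` on the product with a line -/
def om (H : ℝ → ℝ) (v : G → Lam G) (y : G × ℝ) : Lam (G × ℝ) :=
  Q.ps (Q.dR H y.2) * Q.pf (v y.1)

theorem contDiff_om {H : ℝ → ℝ} (hH : ContDiff ℝ ∞ H) {v : G → Lam G} (hv : ContDiff ℝ ∞ v) :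
    ContDiff ℝ ∞ (om H v) :=
  (Q.contDiff_ps hH).mul
    ((pullL (ContinuousLinearMap.fst ℝ G ℝ)).contDiff.comp (hv.comp contDiff_fst))

theorem tsupport_om {H : ℝ → ℝ} {A : Set ℝ} (hA : IsClosed A) (h : ∀ s ∉ A, fderiv ℝ H s = 0)
    (v : G → Lam G) : tsupport (om H v) ⊆ tsupport v ×ˢ A := by
  refine closure_minimal (fun y hy => ?_) ((isClosed_tsupport _).prod hA)
  refine ⟨subset_tsupport _ fun h0 => hy ?_, ?_⟩
  · unfold om Q.pf
    rw [h0, map_zero, mul_zero]
  · by_contra hc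
    refine hy ?_
    unfold om Q.ps Q.dR
    rw [h _ hc, map_zero, map_zero, zero_mul]

theorem JJ_om {k : ℕ} (b : Basis (Fin k) ℝ G) {H : ℝ → ℝ} (hH : ∫ s, deriv H s = 1)
    (v : G → Lam G) : TW.JJ (TW.pB b TW.bR) (om H v) = TW.JJ b v := by
  have h1 : ∀ y : G × ℝ, evalForm (om H v y) (TW.pB b TW.bR) =
      evalForm (v y.1) b * deriv H y.2 := by
    intro y
    rw [om, TW.evalForm_pB, Q.slice_mul_pf, Cell.slice_ps, smul_mul_assoc, one_mul, eval_dR,
      mul_comm]
    exact map_smul (evalL b) _ _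
  unfold TW.JJ
  simp only [h1]
  rw [TW.addHaar_pB, integral_prod_mul (fun y => evalForm (v y) b) (deriv H), TW.addHaar_bR, hH,
    mul_one]

theorem pb_om {Z : Type} [NormedAddCommGroup Z] [NormedSpace ℝ Z] [FiniteDimensional ℝ Z]
    {f : Z → G} {g : Z → ℝ} {z : Z} (hf : DifferentiableAt ℝ f z) (hg : DifferentiableAt ℝ g z)
    {H : ℝ → ℝ} (hH : DifferentiableAt ℝ H (g z)) (v : G → Lam G) :
    pb (fun z => (f z, g z)) (om H v) z = dx (fderiv ℝ (fun z => H (g z)) z) * pb f v z := by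
  have h := (hf.hasFDerivAt.prodMk hg.hasFDerivAt).fderiv
  have h2 : fderiv ℝ (fun z => H (g z)) z = (fderiv ℝ H (g z)).comp (fderiv ℝ g z) :=
    fderiv_fun_comp z hH hg
  rw [pb, h, om, map_mul, Q.ps, Q.pf, ← pull_comp_apply, ← pull_comp_apply, Q.dR, pull_dx, h2]
  rfl

end Prod

section Model

variable {V V' W : Type} [NormedAddCommGroup V] [InnerProductSpace ℝ V] [FiniteDimensional ℝ V]
  [NormedAddCommGroup V'] [InnerProductSpace ℝ V'] [FiniteDimensional ℝ V']
  [NormedAddCommGroup W] [InnerProductSpace ℝ W] [FiniteDimensional ℝ W]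

/-- the domain of the comparison map -/
def UU (S : Spl V W) (S' : Spl V' V) (x0 : St W) (c : ℝ) : Set (V × V) :=
  {z | z.1 ∈ ball (0 : V) (Real.pi * c) ∧ z.2 ≠ 0 ∧ ccM S x0 c z ∈ OT S S'}

/-- the comparison map -/
def ff (S : Spl V W) (S' : Spl V' V) (x0 : St W) (c : ℝ) (z : V × V) : (V × V') × ℝ :=
  (kT S S' (ccM S x0 c z), ‖z.2‖)

theorem isOpen_UU (S : Spl V W) (S' : Spl V' V) (x0 : St W) (c : ℝ) : IsOpen (UU S S' x0 c) := by
  refine isOpen_iff_mem_nhds.2 fun z hz => ?_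
  have h1 : ∀ᶠ y : V × V in 𝓝 z, y.1 ∈ ball (0 : V) (Real.pi * c) :=
    continuous_fst.continuousAt.eventually (isOpen_ball.mem_nhds hz.1)
  have h2 : ∀ᶠ y : V × V in 𝓝 z, y.2 ≠ 0 := continuous_snd.continuousAt.eventually_ne hz.2.1
  have h3 := pOpen_OT S S' (at_ccM S x0 c hz.2.1) hz.2.2
  filter_upwards [h1, h2, h3] with y k1 k2 k3 using ⟨k1, k2, k3⟩

theorem sm_kT (S : Spl V W) (S' : Spl V' V) (x0 : St W) (c : ℝ) {z : V × V} (h1 : z.2 ≠ 0)
    (h2 : ccM S x0 c z ∈ OT S S') : Sm (kT S S' ∘ ccM S x0 c) z :=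
  map_kT S S' (u := ccM S x0 c) (x := z)
    ⟨at_ccM S x0 c h1, pOpen_OT S S' (at_ccM S x0 c h1) h2⟩

theorem contDiffAt_norm_snd {z : V × V} (h : z.2 ≠ 0) :
    ContDiffAt ℝ ∞ (fun z : V × V => ‖z.2‖) z :=
  contDiffAt_snd.norm ℝ h

theorem contDiffOn_ff (S : Spl V W) (S' : Spl V' V) (x0 : St W) (c : ℝ) :
    ContDiffOn ℝ ∞ (ff S S' x0 c) (UU S S' x0 c) := fun z hz =>
  ((sm_kT S S' x0 c hz.2.1 hz.2.2).contDiffAt.prodMk (contDiffAt_norm_snd hz.2.1)).contDiffWithinAt

theorem rot_inj (S : Spl V W) (ξ : V) : Function.Injective (S.rot ξ) := fun a a' h => by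
  have h1 := S.norm_rot ξ (a - a')
  rw [map_sub, h, sub_self, norm_zero] at h1
  exact sub_eq_zero.1 (norm_eq_zero.1 h1.symm)

theorem rot_surj (S : Spl V W) (ξ : V) : Function.Surjective (S.rot ξ) :=
  LinearMap.injective_iff_surjective (f := (S.rot ξ : W →ₗ[ℝ] W)).1 (rot_inj S ξ)

theorem smul_mem_ball {c : ℝ} (hc : 0 < c) {ξ : V} (h : ξ ∈ ball (0 : V) (Real.pi * c)) :
    c⁻¹ • ξ ∈ ball (0 : V) Real.pi := by
  rw [mem_ball_zero_iff] at h ⊢
  rw [norm_smul, norm_inv, Real.norm_eq_abs, abs_of_pos hc, inv_mul_lt_iff₀ hc]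
  linarith

theorem injOn_ff (S : Spl V W) (S' : Spl V' V) (x0 : St W) {c : ℝ} (hc : 0 < c) :
    InjOn (ff S S' x0 c) (UU S S' x0 c) := by
  obtain ⟨ψ, -, -, -, hψ⟩ := exists_psi S S'
  intro z hz z' hz' h
  have h1 : kT S S' (ccM S x0 c z) = kT S S' (ccM S x0 c z') := congrArg Prod.fst h
  have h2 : ‖z.2‖ = ‖z'.2‖ := congrArg Prod.snd h
  have h3 : ccM S x0 c z = ccM S x0 c z' := by rw [← hψ _ hz.2.2, h1, hψ _ hz'.2.2]
  have h4 := congrArg Subtype.val h3
  rw [ccM_val S x0 c hz.2.1, ccM_val S x0 c hz'.2.1, Prod.mk.injEq] at h4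
  have h5 : c⁻¹ • z.1 = c⁻¹ • z'.1 :=
    S.injOn_rot (smul_mem_ball hc hz.1) (smul_mem_ball hc hz'.1) h4.1
  have h6 := h4.2
  rw [h5, h2] at h6
  have h7 := S.i.injective (rot_inj S _ h6)
  refine Prod.ext (smul_right_injective V (inv_ne_zero hc.ne') h5) ?_
  exact smul_right_injective V (inv_ne_zero (norm_ne_zero_iff.2 hz'.2.1)) h7

theorem surj_ff (S : Spl V W) (S' : Spl V' V) (x0 : St W) {c : ℝ} (hc : 0 < c) :
    (univ ×ˢ Ioi (0 : ℝ) : Set ((V × V') × ℝ)) ⊆ ff S S' x0 c '' UU S S' x0 c := by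
  obtain ⟨ψ, -, hO, hk, -⟩ := exists_psi S S'
  rintro ⟨g, t⟩ ⟨-, ht⟩
  have ht0 : 0 < t := ht
  obtain ⟨h1, h2, h3⟩ := (ψ g).2
  have hne : (ψ g).1.1 ≠ -S.e := by
    intro h
    have h4 := (hO g).1
    rw [h, inner_neg_right, real_inner_self_eq_norm_sq, S.he] at h4
    linarith
  obtain ⟨ξ, hξ, hξe⟩ := S.exists_rot h1 hne
  obtain ⟨a, ha⟩ := rot_surj S ξ (ψ g).1.2
  have hea : (inner ℝ S.e a : ℝ) = 0 := by rw [← S.inner_rot ξ, hξe, ha, h3]
  have hia : S.i (S.pr a) = a := by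
    have := S.dec a
    rw [hea, zero_smul, zero_add] at this
    exact this.symm
  have hn : ‖S.pr a‖ = 1 := by rw [← S.i.norm_map, hia, ← S.norm_rot ξ, ha, h2]
  have hn2 : ‖t • S.pr a‖ = t := by rw [norm_smul, hn, mul_one, Real.norm_eq_abs, abs_of_pos ht0]
  have hz2 : t • S.pr a ≠ 0 := by
    rw [← norm_ne_zero_iff, hn2]
    exact ht0.ne'
  have hcc : ccM S x0 c (c • ξ, t • S.pr a) = ψ g := by
    refine Subtype.ext ?_
    rw [ccM_val S x0 c hz2]
    simp only [hn2, smul_smul, inv_mul_cancel₀ hc.ne', inv_mul_cancel₀ ht0.ne', one_smul, hia, hξe,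
      ha]
  refine ⟨(c • ξ, t • S.pr a), ⟨?_, hz2, by rw [hcc]; exact hO g⟩, ?_⟩
  · rw [mem_ball_zero_iff] at hξ ⊢
    rw [norm_smul, Real.norm_eq_abs, abs_of_pos hc]
    nlinarith
  · rw [ff, hcc, hk, hn2]

theorem cut_step {t ε : ℝ} (hε : ε < t) {H : ℝ → ℝ} (h1 : ContDiff ℝ ∞ H)
    (h2 : ∀ s, s ≤ t - ε → H s = 0) (h3 : ∀ s, t + ε ≤ s → H s = 1) :
    Q.Cut (fun η : V => H ‖η‖) (closedBall 0 (t + ε)) := by
  have h0 : ∀ᶠ η in 𝓝 (0 : V), H ‖η‖ = 0 := by
    filter_upwards [ball_mem_nhds (0 : V) (sub_pos.2 hε)] with η hη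
    exact h2 _ (mem_ball_zero_iff.1 hη).le
  refine ⟨contDiff_iff_contDiffAt.2 fun η => ?_, isCompact_closedBall _ _, fun η hη => h3 _ ?_, h0⟩
  · rcases eq_or_ne η 0 with rfl | hη
    · exact contDiffAt_const.congr_of_eventuallyEq h0
    · exact h1.contDiffAt.comp η (contDiffAt_id.norm ℝ hη)
  · rw [mem_closedBall_zero_iff, not_le] at hη
    exact hη.le

variable [MeasurableSpace V] [BorelSpace V]

/-- the fundamental cycle as an integral over the product -/
theorem IM_eq (S : Spl V W) (x0 : St W) {k : ℕ} (b : Basis (Fin k) ℝ V) (c : ℝ) {r : V → ℝ}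
    {K : Set V} (hr : Q.Cut r K) (w : Form (dSt W)) :
    IM S x0 b c r w = ∫ z in ball (0 : V) (Real.pi * c) ×ˢ (univ : Set V),
      evalForm (Q.cw r (w.val (ccM S x0 c)) z) (TW.pB b b) ∂(TW.pB b b).addHaar := by
  have hw : ContDiffOn ℝ ∞ (w.val (ccM S x0 c)) (univ ×ˢ {0}ᶜ) := fun z hz =>
    (w.smooth (at_ccM S x0 c hz.2)).contDiffWithinAt
  have hc : Continuous fun z => evalForm (Q.cw r (w.val (ccM S x0 c)) z) (TW.pB b b) := by
    have h1 := (Q.contDiffOn_cw hr isOpen_univ hw).continuousOn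
    rw [univ_prod_univ, continuousOn_univ] at h1
    exact (evalL (TW.pB b b)).continuous.comp h1
  have hi : IntegrableOn (fun z => evalForm (Q.cw r (w.val (ccM S x0 c)) z) (TW.pB b b))
      (ball (0 : V) (Real.pi * c) ×ˢ (univ : Set V)) (b.addHaar.prod b.addHaar) := by
    have h1 : IntegrableOn (fun z => evalForm (Q.cw r (w.val (ccM S x0 c)) z) (TW.pB b b))
        (closedBall (0 : V) (Real.pi * c) ×ˢ K) (b.addHaar.prod b.addHaar) :=
      hc.continuousOn.integrableOn_compact ((isCompact_closedBall _ _).prod hr.compact)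
    refine (h1.mono_set (prod_mono ball_subset_closedBall Subset.rfl)).of_forall_sdiff_eq_zero
      (isOpen_ball.prod isOpen_univ).measurableSet ?_
    rintro ⟨x, y⟩ ⟨hx, hy⟩
    rw [Q.cw_out hr _ x fun h => hy ⟨hx.1, h⟩]
    exact map_zero (evalL (TW.pB b b))
  rw [TW.addHaar_pB, setIntegral_prod _ hi, IM]
  refine setIntegral_congr_fun isOpen_ball.measurableSet fun ξ _ => ?_
  have h3 := ContinuousLinearMap.integral_comp_comm (evalL b)
    (Q.integrable_slice b.addHaar b hr isOpen_univ hw (mem_univ ξ))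
  simp only [TW.evalForm_pB, Measure.restrict_univ]
  exact h3.symm

end Model

end FD

section Model

variable {V V' W : Type} [NormedAddCommGroup V] [InnerProductSpace ℝ V] [FiniteDimensional ℝ V]
  [NormedAddCommGroup V'] [InnerProductSpace ℝ V'] [FiniteDimensional ℝ V']
  [NormedAddCommGroup W] [InnerProductSpace ℝ W] [FiniteDimensional ℝ W] {N : ℕ}

variable [MeasurableSpace V] [BorelSpace V] [MeasurableSpace V'] [BorelSpace V']

open FD in
theorem IM_deg (S : Spl V W) (S' : Spl V' V) (x0 : St W) (b : Basis (Fin (N + 1)) ℝ V)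
    (bG : Basis (Fin (2 * N + 1)) ℝ (V × V')) {c : ℝ} (hc : 0 < c) :
    ∃ (r : V → ℝ) (K : Set V) (y₀ : V × V') (ε₀ : ℝ) (s : ℤ), Q.Cut r K ∧ 0 < ε₀ ∧ |s| = 1 ∧
      Deg (dSt W) (OT S S') (kT S S') bG (IM S x0 b c r) y₀ ε₀ s := by
  obtain ⟨⟨y₀, t₀⟩, ⟨-, ht⟩, ε, hε, s, hs, H⟩ := one_deg' (by omega) (TW.pB b b) (TW.pB bG TW.bR)
    (isOpen_UU S S' x0 c) (contDiffOn_ff S S' x0 c) (injOn_ff S S' x0 hc)
    (isOpen_univ.prod isOpen_Ioi) ⟨(0, 1), mem_univ _, mem_Ioi.2 one_pos⟩ (surj_ff S S' x0 hc)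
  have ht0 : 0 < t₀ := ht
  have hδ : 0 < min ε t₀ / 2 := by positivity
  have hδ1 : min ε t₀ / 2 < ε := by linarith [min_le_left ε t₀]
  have hδ2 : min ε t₀ / 2 < t₀ := by linarith [min_le_right ε t₀]
  obtain ⟨h, h1, h2, h3, h4, h5⟩ := exists_step (t := t₀) hδ
  have hr := cut_step (V := V) hδ2 h1 h2 h3
  refine ⟨_, _, y₀, ε, s, hr, hε, hs, fun w v hv ht hl => ?_⟩
  have hsup : tsupport (om h v) ⊆ ball (y₀, t₀) ε := by
    refine (tsupport_om isClosed_Icc h4 v).trans ?_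
    rw [← ball_prod_same]
    refine prod_mono ht fun u hu => ?_
    rw [mem_ball, Real.dist_eq, abs_lt]
    constructor <;> linarith [hu.1, hu.2]
  have k1 := H _ (contDiff_om h1 hv) hsup
  rw [JJ_om bG h5] at k1
  rw [← k1, IM_eq S x0 b c hr w]
  have hU : UU S S' x0 c ⊆ ball (0 : V) (Real.pi * c) ×ˢ (univ : Set V) := fun z hz =>
    ⟨hz.1, mem_univ _⟩
  have hps : ∀ z : V × V, (Q.ps (Q.dR (fun η : V => h ‖η‖) z.2) : Lam (V × V)) =
      dx (fderiv ℝ (fun z : V × V => h ‖z.2‖) z) := by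
    intro z
    have k2 : fderiv ℝ (fun z : V × V => h ‖z.2‖) z =
        (fderiv ℝ (fun η : V => h ‖η‖) z.2).comp (fderiv ℝ Prod.snd z) :=
      fderiv_fun_comp z (hr.smooth.differentiable (by simp) _) differentiableAt_snd
    rw [Q.ps, Q.dR, pull_dx, k2, fderiv_snd]
  rw [setIntegral_eq_of_subset_of_forall_sdiff_eq_zero
    (isOpen_ball.prod isOpen_univ).measurableSet hU]
  · refine setIntegral_congr_fun (isOpen_UU S S' x0 c).measurableSet fun z hz => ?_
    have k3 := pb_om (sm_kT S S' x0 c hz.2.1 hz.2.2).differentiableAt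
      ((contDiffAt_norm_snd hz.2.1).differentiableAt (by simp))
      (h1.differentiable (by simp) _) v
    have k4 : pb (ff S S' x0 c) (om h v) z = _ := k3
    rw [k4, Q.cw, hps]
    exact eval_dx_mul_congr (by omega)
      (fun u => (hl (at_ccM S x0 c hz.2.1) u).1 hz.2.2) _ _
  · rintro z ⟨hz, hz'⟩
    by_cases h0 : z.2 = 0
    · have k5 := (Q.cw_near hr (w.val (ccM S x0 c)) z.1).eq_of_nhds
      have k6 : z = (z.1, 0) := Prod.ext rfl h0
      rw [k6, k5]
      exact map_zero (evalL (TW.pB b b))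
    · rw [Q.cw, hps]
      exact eval_dx_mul_zero' (by omega)
        (fun u => (hl (at_ccM S x0 c h0) u).2 fun hc => hz' ⟨hz.1, h0, hc⟩) _ _

end Model

end

end Vale.Agent.P231Z.C
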