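import Vale.Agent.P231Z.C.Defs
import Vale.Agent.P231.H304.HvFin
import Vale.Agent.P231.L3.Core

/-!
# P231, spheres and real projective spaces, the volume: the covering by the round sphere
-/

set_option linter.unusedSectionVars false
set_option linter.unusedVariables false
set_option maxSynthPendingDepth 3

open Bundle Manifold Set Filter Module
open scoped ContDiff Topology Manifold

namespace Vale.Agent.P231Z.C

noncomputable section

open Vale.Agent.P234 Vale.Agent.P231 Vale.Agent.P231.Fm Vale.Agent.P231.W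
open Vale.Agent.P231.S2I (dP)

variable {E : Type*} [NormedAddCommGroup E] [NormedSpace ℝ E]
  {M : Type*} [MetricSpace M] [ChartedSpace E M]
  [RiemannianBundle (fun x : M => TangentSpace 𝓘(ℝ, E) x)]
  [FiniteDimensional ℝ E] [IsManifold 𝓘(ℝ, E) ∞ M]
  [IsContMDiffRiemannianBundle 𝓘(ℝ, E) ∞ E (fun x : M => TangentSpace 𝓘(ℝ, E) x)]
  {W : Type} [NormedAddCommGroup W] [InnerProductSpace ℝ W] [FiniteDimensional ℝ W]

/-- the covering of `M` by the unit sphere of `W` -/
structure Jm (e : ∀ x : M, TangentSpace 𝓘(ℝ, E) x → M) (p : M) (S : Spl (Eu E) W) (c : ℝ)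
    (j : W → M) : Prop where
  map : (dP W).Map (dM E M) j
  hom : ∀ (y : W) (t : ℝ), 0 < t → j (t • y) = j y
  exp : ∀ ξ : Eu E, j (S.rot (c⁻¹ • ξ) S.e) = ef e p ξ
  imm : ∀ y h : W, ‖y‖ = 1 → (inner ℝ y h : ℝ) = 0 → (CV.dF j y h : E) = 0 → h = 0

end

end Vale.Agent.P231Z.C
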