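import Vale.Agent.P231Z.C.Iso2
import Vale.Agent.P231Z.C.Gen
import Vale.Agent.P231Z.C.Col

/-!
# P231, spheres and real projective spaces, the volume: filling in the odd middle dimension
-/

set_option linter.unusedSectionVars false
set_option linter.unusedVariables false
set_option maxSynthPendingDepth 3

open Set Filter Module MeasureTheory Metric
open scoped ContDiff Topology

namespace Vale.Agent.P231Z.C

noncomputable section

open Vale.Agent.P231 Vale.Agent.P231.Fm Vale.Agent.P231.W Vale.Agent.P231.H584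
  Vale.Agent.P231Z.I7
open Vale.Agent.P231.S2I (dP)

variable {W : Type} [NormedAddCommGroup W] [InnerProductSpace ℝ W] [FiniteDimensional ℝ W] {N : ℕ}

/-- the splitting along a unit vector -/
def Iso.spl (a : W) (ha : ‖a‖ = 1) : Spl (ℝ ∙ a)ᗮ W where
  e := a
  i := (ℝ ∙ a)ᗮ.subtypeₗᵢ
  pr := (ℝ ∙ a)ᗮ.orthogonalProjectionOnto
  he := ha
  ort v := Submodule.mem_orthogonal_singleton_iff_inner_right.1 v.2
  pri v := Submodule.orthogonalProjectionOnto_mem_subspace_eq_self v
  pre := Submodule.orthogonalProjectionOnto_orthogonalComplement_singleton_eq_zero a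
  dec w := by
    have h := (ℝ ∙ a).starProjection_add_starProjection_orthogonal w
    rw [Submodule.starProjection_unit_singleton ℝ ha] at h
    exact h.symm

theorem fill_odd (hW : finrank ℝ W = N + 2) (hN : Odd N) {z : Form (dSt W) → ℝ}
    (hz : Cy (dSt W) N z) : Bd (dSt W) N fun w => 2 * z w := by
  obtain ⟨q, hq, δ, hδ, hin⟩ := gen_foot hW le_rfl hz.rep
  obtain ⟨f, hf, hH, h1, -⟩ := col_foot hq hδ
  have hq' : ‖-q‖ = 1 := by rw [norm_neg, hq]
  have hq0 : -q ≠ 0 := by
    rw [← norm_ne_zero_iff, hq']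
    exact one_ne_zero
  have : Fact (finrank ℝ W = N + 1 + 1) := ⟨hW⟩
  have hV : finrank ℝ (ℝ ∙ -q)ᗮ = N + 1 := Submodule.finrank_orthogonal_span_singleton hq0
  borelize (ℝ ∙ -q)ᗮ
  have h2 := Iso.fib_odd (Iso.spl (-q) hq') hV hN (hz.pull f hf)
    (hin.pull f hf fun x hx => h1 x (le_of_lt hx))
  have h3 := (hH.bd hz).neg
  exact ((h3.add h3).add h2).of_eq fun w => by ring

end

end Vale.Agent.P231Z.C
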