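import Vale.Agent.P231Z.C.Defs

/-!
# P231, spheres and real projective spaces, the volume: orientation reversing isometries
-/

set_option linter.unusedSectionVars false
set_option linter.unusedVariables false
set_option maxSynthPendingDepth 3

open Set Filter Module MeasureTheory Metric
open scoped ContDiff Topology

namespace Vale.Agent.P231Z.C

noncomputable section

open Vale.Agent.P231 Vale.Agent.P231.Fm Vale.Agent.P231.W Vale.Agent.P231.H584
  Vale.Agent.P231Z.I7
open Vale.Agent.P231.S2I (dP)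

namespace Iso

open Vale.Agent.P231.S2I Vale.Agent.P231.Co
open Vale.Agent.P231.Q (dR Cut)

variable {F : Type} [NormedAddCommGroup F] [InnerProductSpace ℝ F] [FiniteDimensional ℝ F]
  [MeasurableSpace F] [BorelSpace F] {m : ℕ} (o : OrthonormalBasis (Fin m) ℝ F)

/-- a closed form of top degree on the punctured space with sphere integral zero is exact -/
theorem punct_zero {σ : Form (dP F)} {j : ℕ} (hm : m = j + 2) (hσ : σ.d = 0)
    (hσk : Form.IsDeg (j + 1) σ) (h0 : sint o σ = 0) : ∃ ζ : Form (dP F), σ = ζ.d := by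
  set s : Form (SB dPt F) := Form.pull Prod.snd map_i σ with hs
  have hsd : s.d = 0 := by rw [hs, ← Form.pull_d, hσ, Co.pull_zero]
  have hsk : Form.IsDeg (j + 1) s := hσk.pull Prod.snd map_i
  have h1 : si o s = 0 := by
    have h2 := pt_zero (isDeg_si o hsk (k := 0) (by omega))
    rw [h2]
    change sint o σ • (1 : Form dPt) = 0
    rw [h0, zero_smul]
  obtain ⟨τ, hτ⟩ := exists_th o dPt
  have h4 := gysin2 o hsd h1 hτ
  have h6 : ba o s τ = 0 := pt_pos (isDeg_ba o hsk hτ)
  rw [h6, pS, Co.pull_zero, zero_add] at h4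
  have hr : Form.pull (fun y => ((0 : Pt), rad y)) map_r s = Form.pull rad map_rad' σ :=
    pull_pull map_r map_i map_rad' (fun _ => rfl) σ
  have e2 := congrArg (Form.pull (fun y : F => ((0 : Pt), rad y)) map_r) h4
  rw [hr, Form.pull_d] at e2
  have e3 := rad_homotopy hσ
  rw [e2, ← Form.d_add] at e3
  exact ⟨_, e3⟩

theorem dR_iso (A : F ≃ₗᵢ[ℝ] F) (y : F) :
    dR chF y = Fm.pull (A.toContinuousLinearEquiv : F →L[ℝ] F) (dR chF (A y)) := by
  have e : (chF : F → ℝ) = chF ∘ (A.toContinuousLinearEquiv : F →L[ℝ] F) := by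
    funext x
    simp [chF]
  have h1 : HasFDerivAt ((chF : F → ℝ) ∘ (A.toContinuousLinearEquiv : F →L[ℝ] F))
      ((fderiv ℝ (chF : F → ℝ) (A y)).comp (A.toContinuousLinearEquiv : F →L[ℝ] F)) y :=
    (contDiff_chF.differentiable (by simp) (A y)).hasFDerivAt.comp y
      (A.toContinuousLinearEquiv : F →L[ℝ] F).hasFDerivAt
  rw [← e] at h1
  rw [dR, dR, Fm.pull_dx, h1.fderiv]

theorem integrand_iso (A : F ≃ₗᵢ[ℝ] F) (hm : (dP F).Map (dP F) A) (σ : Form (dP F)) (y : F) :
    evalForm (dR chF y * (Form.pull A hm σ).val id y) o =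
      LinearMap.det (A.toLinearEquiv : F →ₗ[ℝ] F) *
        evalForm (dR chF (A y) * σ.val id (A y)) o := by
  rcases eq_or_ne y 0 with rfl | hy
  · rw [map_zero, cut_chF.dR_near.self_of_nhds, zero_mul, zero_mul, Q.evalForm_zero, mul_zero]
  · have hA : A y ≠ 0 := fun h => hy (A.injective (h.trans (map_zero A).symm))
    have h1 : (Form.pull A hm σ).val id y =
        Fm.pull (A.toContinuousLinearEquiv : F →L[ℝ] F) (σ.val id (A y)) := by
      rw [Form.pull_val _ _ (at_id hy)]
      have h2 := σ.nat (u := (id : F → F)) (g := (A.toContinuousLinearEquiv : F →L[ℝ] F))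
        (x := y) (at_id hA)
        (Sm.of_contDiff (A.toContinuousLinearEquiv : F →L[ℝ] F).contDiff y)
      rw [ContinuousLinearMap.fderiv] at h2
      exact h2
    rw [h1, dR_iso A y, ← map_mul]
    exact evalForm_pull_det o.toBasis _ _

theorem sint_iso (A : F ≃ₗᵢ[ℝ] F) (hA : LinearMap.det (A.toLinearEquiv : F →ₗ[ℝ] F) = -1)
    (hm : (dP F).Map (dP F) A) {σ : Form (dP F)} (hσ : σ.d = 0) :
    sint o (σ + Form.pull A hm σ) = 0 := by
  have h1 : (σ + Form.pull A hm σ).d = 0 := by
    rw [Form.d_add, ← Form.pull_d, hσ, Co.pull_zero, add_zero]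
  rw [sint_eq_cut o h1 cut_chF]
  have h2 : ∀ y, evalForm (dR chF y * (σ + Form.pull A hm σ).val id y) o =
      evalForm (dR chF y * σ.val id y) o +
        evalForm (dR chF y * (Form.pull A hm σ).val id y) o := fun y => by
    rw [Form.add_val, mul_add, Q.evalForm_add]
  simp only [h2]
  rw [integral_add (integrable_dR o _ cut_chF) (integrable_dR o _ cut_chF)]
  simp only [integrand_iso o A hm σ, hA]
  have h3 := A.measurePreserving.integral_comp A.toHomeomorph.measurableEmbedding
    (fun y => evalForm (dR chF y * σ.val id y) o)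
  rw [integral_const_mul, h3]
  ring

end Iso

variable {V : Type} [NormedAddCommGroup V] [InnerProductSpace ℝ V] [FiniteDimensional ℝ V]

theorem iso_exact {j : ℕ} (hV : finrank ℝ V = j + 2) (A : V ≃ₗᵢ[ℝ] V)
    (hA : LinearMap.det (A.toLinearEquiv : V →ₗ[ℝ] V) = -1) (hm : (dP V).Map (dP V) A)
    {σ : Form (dP V)} (hσ : σ.d = 0) (hk : Form.IsDeg (j + 1) σ) :
    ∃ ζ : Form (dP V), σ + Form.pull A hm σ = ζ.d := by
  borelize V
  let o : OrthonormalBasis (Fin (j + 2)) ℝ V := (stdOrthonormalBasis ℝ V).reindex (finCongr hV)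
  refine Iso.punct_zero o rfl ?_ (hk.add (hk.pull A hm)) (Iso.sint_iso o A hA hm hσ)
  rw [Form.d_add, ← Form.pull_d, hσ, Co.pull_zero, add_zero]

end

end Vale.Agent.P231Z.C
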