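import Vale.Agent.P231Z.C.Basic
import Vale.Agent.P231Z.C.Iso1

/-!
# P231, spheres and real projective spaces, the volume: twice a cycle in an odd fibre bounds
-/

set_option linter.unusedSectionVars false
set_option linter.unusedVariables false
set_option maxSynthPendingDepth 3

open Set Filter Module MeasureTheory Metric
open scoped ContDiff Topology

namespace Vale.Agent.P231Z.C

noncomputable section

open Vale.Agent.P231 Vale.Agent.P231.Fm Vale.Agent.P231.W Vale.Agent.P231.H584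
  Vale.Agent.P231Z.I7
open Vale.Agent.P231.S2I (dP)

namespace Iso

variable {V W : Type} [NormedAddCommGroup V] [InnerProductSpace ℝ V] [FiniteDimensional ℝ V]
  [NormedAddCommGroup W] [InnerProductSpace ℝ W] [FiniteDimensional ℝ W] {N : ℕ}

/-! ### rotations in a fixed plane -/

/-- the rotation by the angle `t` in the plane of `e` and `w` -/
def rt (e w : W) (t : ℝ) (a : W) : W :=
  a + ((Real.cos t - 1) * (inner ℝ e a : ℝ) - Real.sin t * (inner ℝ w a : ℝ)) • e +
    ((Real.cos t - 1) * (inner ℝ w a : ℝ) + Real.sin t * (inner ℝ e a : ℝ)) • w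

theorem inner_rt {e w : W} (he : ‖e‖ = 1) (hw : ‖w‖ = 1) (hew : (inner ℝ e w : ℝ) = 0) (t : ℝ)
    (a b : W) : (inner ℝ (rt e w t a) (rt e w t b) : ℝ) = inner ℝ a b := by
  have k1 : (inner ℝ e e : ℝ) = 1 := by rw [real_inner_self_eq_norm_sq, he, one_pow]
  have k2 : (inner ℝ w w : ℝ) = 1 := by rw [real_inner_self_eq_norm_sq, hw, one_pow]
  have k3 : (inner ℝ w e : ℝ) = 0 := by rw [real_inner_comm, hew]
  have k4 : (inner ℝ a e : ℝ) = inner ℝ e a := real_inner_comm _ _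
  have k5 : (inner ℝ a w : ℝ) = inner ℝ w a := real_inner_comm _ _
  have k6 := Real.sin_sq_add_cos_sq t
  simp only [rt, inner_add_left, inner_add_right, real_inner_smul_left, real_inner_smul_right,
    k1, k2, k3, k4, k5, hew]
  linear_combination ((inner ℝ e a : ℝ) * (inner ℝ e b : ℝ) +
    (inner ℝ w a : ℝ) * (inner ℝ w b : ℝ)) * k6

theorem norm_rt {e w : W} (he : ‖e‖ = 1) (hw : ‖w‖ = 1) (hew : (inner ℝ e w : ℝ) = 0) (t : ℝ)
    (a : W) : ‖rt e w t a‖ = ‖a‖ := by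
  have h := inner_rt he hw hew t a a
  rw [real_inner_self_eq_norm_sq, real_inner_self_eq_norm_sq] at h
  exact (pow_left_inj₀ (norm_nonneg _) (norm_nonneg _) two_ne_zero).1 h

theorem contDiff_rt (e w : W) : ContDiff ℝ ∞ fun q : W × ℝ => rt e w q.2 q.1 := by
  have h1 : ContDiff ℝ ∞ fun q : W × ℝ => (inner ℝ e q.1 : ℝ) :=
    contDiff_const.inner ℝ contDiff_fst
  have h2 : ContDiff ℝ ∞ fun q : W × ℝ => (inner ℝ w q.1 : ℝ) :=
    contDiff_const.inner ℝ contDiff_fst
  have h3 : ContDiff ℝ ∞ fun q : W × ℝ => Real.cos q.2 - 1 := contDiff_snd.cos.sub contDiff_const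
  have h4 : ContDiff ℝ ∞ fun q : W × ℝ => Real.sin q.2 := contDiff_snd.sin
  exact (contDiff_fst.add (((h3.mul h1).sub (h4.mul h2)).smul contDiff_const)).add
    (((h3.mul h2).add (h4.mul h1)).smul contDiff_const)

/-- the action of the rotations on the orthonormal pairs -/
def act (x0 : St W) (p : St W × ℝ) : St W :=
  mkSt p.1 (rt x0.1.1 x0.1.2 p.2 p.1.1.1, rt x0.1.1 x0.1.2 p.2 p.1.1.2)

theorem act_val (x0 : St W) (p : St W × ℝ) :
    (act x0 p).1 = (rt x0.1.1 x0.1.2 p.2 p.1.1.1, rt x0.1.1 x0.1.2 p.2 p.1.1.2) := by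
  obtain ⟨h1, h2, h3⟩ := x0.2
  refine mkSt_val _ ⟨?_, ?_, ?_⟩
  · exact (norm_rt h1 h2 h3 _ _).trans p.1.2.1
  · exact (norm_rt h1 h2 h3 _ _).trans p.1.2.2.1
  · exact (inner_rt h1 h2 h3 _ _ _).trans p.1.2.2.2

theorem map_act (x0 : St W) : ((dSt W).prod (Dif.lin ℝ)).Map (dSt W) (act x0) := by
  intro E _ _ _ u x h
  have h1 : Sm (fun y => (u y).1.1) x := h.1
  have h2 : Sm (fun y => (u y).2) x := h.2
  have h3 : (Subtype.val ∘ act x0 ∘ u) = fun y =>
      (rt x0.1.1 x0.1.2 (u y).2 (u y).1.1.1, rt x0.1.1 x0.1.2 (u y).2 (u y).1.1.2) :=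
    funext fun y => act_val x0 (u y)
  change Sm (Subtype.val ∘ act x0 ∘ u) x
  rw [h3]
  filter_upwards [h1, h2] with y k1 k2
  exact ((contDiff_rt x0.1.1 x0.1.2).contDiffAt.comp y (k1.fst.prodMk k2)).prodMk
    ((contDiff_rt x0.1.1 x0.1.2).contDiffAt.comp y (k1.snd.prodMk k2))

/-- the homotopy -/
def hty (x0 : St W) (p : St W × ℝ) : St W := mf (act x0 (p.1, Real.pi * p.2), Real.pi * p.2)

theorem map_hty (x0 : St W) : ((dSt W).prod (Dif.lin ℝ)).Map (dSt W) (hty x0) := by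
  intro E _ _ _ u x h
  have h2 : Sm (fun y => (u y).2) x := h.2
  have h3 : Sm (fun y => Real.pi * (u y).2) x := by
    filter_upwards [h2] with y k2 using contDiffAt_const.mul k2
  have h4 : (dSt W).At (act x0 ∘ fun y => ((u y).1, Real.pi * (u y).2)) x :=
    map_act x0 (u := fun y => ((u y).1, Real.pi * (u y).2)) ⟨h.1, h3⟩
  exact map_mf (u := fun y => (act x0 ((u y).1, Real.pi * (u y).2), Real.pi * (u y).2)) ⟨h4, h3⟩

theorem hty_zero (x0 x : St W) : hty x0 (x, 0) = x := by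
  rw [hty, mul_zero, mf_zero]
  refine Subtype.ext ?_
  rw [act_val]
  simp [rt]

/-- the end of the homotopy -/
def gg (x0 x : St W) : St W := hty x0 (x, 1)

theorem map_gg (x0 : St W) : (dSt W).Map (dSt W) (gg x0) :=
  fun h => map_hty x0 (Form.map_slice 1 h)

theorem htp_gg (x0 : St W) : Htp (dSt W) (gg x0) (map_gg x0) :=
  htp_of (hty x0) (map_hty x0) (hty_zero x0) _ fun _ => rfl

theorem gg_val (x0 x : St W) (h : x.1.1 = x0.1.1) :
    (gg x0 x).1 = (x0.1.1, (2 * (inner ℝ x0.1.2 x.1.2 : ℝ)) • x0.1.2 - x.1.2) := by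
  obtain ⟨h1, h2, h3⟩ := x0.2
  have k1 : (inner ℝ x0.1.1 x0.1.1 : ℝ) = 1 := by rw [real_inner_self_eq_norm_sq, h1, one_pow]
  have k3 : (inner ℝ x0.1.2 x0.1.1 : ℝ) = 0 := by rw [real_inner_comm, h3]
  have k4 : (inner ℝ x0.1.1 x.1.2 : ℝ) = 0 := by rw [← h]; exact x.2.2.2
  rw [gg, hty, mul_one, mf_pi]
  change -(act x0 (x, Real.pi)).1 = _
  rw [act_val]
  simp only [rt, h, k1, k3, k4, Real.cos_pi, Real.sin_pi, Prod.neg_mk]
  refine Prod.ext ?_ ?_
  · simp only
    module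
  · simp only
    module

/-! ### the fibre -/

variable [MeasurableSpace V] [BorelSpace V]

theorem top_zero {n : ℕ} (hV : finrank ℝ V = n) {w : Lam V} (hw : WA.prt n w = w) {x : V}
    (hx : x ≠ 0) (h : iprod x w = 0) : w = 0 := by
  have k1 : dx (innerSL ℝ x) * w = 0 := by
    have k := WA.prt_eq_zero (k := n + 1) (by omega) (dx (innerSL ℝ x) * w)
    rwa [WA.prt_succ_dx_mul, hw] at k
  have k2 := congrArg (iprod x) k1
  rw [iprod_dx_mul, h, mul_zero, sub_zero, innerSL_apply_apply, real_inner_self_eq_norm_sq,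
    map_zero] at k2
  exact (smul_eq_zero.1 k2).resolve_left (pow_ne_zero 2 (norm_ne_zero_iff.2 hx))

/-- the parametrisation of the fibre -/
def sec (S : Spl V W) (x0 : St W) (η : V) : St W := mkSt x0 (S.e, S.i (rad η))

theorem sec_val (S : Spl V W) (x0 : St W) {η : V} (h : η ≠ 0) :
    (sec S x0 η).1 = (S.e, S.i (rad η)) :=
  mkSt_val _ ⟨S.he, (S.i.norm_map _).trans (norm_rad h), S.ort _⟩

theorem map_sec (S : Spl V W) (x0 : St W) : (dP V).Map (dSt W) (sec S x0) := by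
  intro E _ _ _ u x h
  have h1 : Sm (rad ∘ u) x := (S2I.sm_rad h.2.self_of_nhds).comp h.1
  have h2 : Sm (fun y => (S.e, S.i (rad (u y)))) x :=
    (Sm.of_contDiff contDiff_const x).prodMk
      ((Sm.of_contDiff S.i.toContinuousLinearMap.contDiff _).comp h1)
  change Sm (Subtype.val ∘ sec S x0 ∘ u) x
  refine h2.congr ?_
  filter_upwards [h.2] with y hy
  exact (sec_val S x0 hy).symm

theorem closed_sec (S : Spl V W) (hV : finrank ℝ V = N + 1) (x0 : St W) (ρ : Form (dSt W)) :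
    (Form.part N (Form.pull (sec S x0) (map_sec S x0) ρ)).d = 0 := by
  rw [← Form.part_succ_d, ← Form.pull_d]
  refine S2I.ext_id isOpen_ne fun x hx => ?_
  have hx' : x ≠ 0 := hx
  have hr : rad x ≠ 0 := by
    rw [← norm_ne_zero_iff, norm_rad hx']
    exact one_ne_zero
  have h1 : (dSt W).At (sec S x0) x := map_sec S x0 (S2I.at_id hx')
  have h2 : (dSt W).At (sec S x0) (rad x) := map_sec S x0 (S2I.at_id hr)
  have hh : sec S x0 =ᶠ[𝓝 x] sec S x0 ∘ rad := by
    filter_upwards [isOpen_ne.mem_nhds hx'] with y hy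
    have : rad (rad y) = rad y := rad_smul y (inv_pos.2 (norm_pos_iff.2 hy))
    simp only [Function.comp, sec, this]
  have h3 : (Form.pull (sec S x0) (map_sec S x0) ρ.d).val id x =
      Fm.pull (fderiv ℝ rad x) (ρ.d.val (sec S x0) (rad x)) := by
    rw [Form.pull_val _ _ (S2I.at_id hx')]
    change ρ.d.val (sec S x0) x = _
    rw [ρ.d.congr h1 hh, ρ.d.nat h2 (S2I.sm_rad hx')]
  rw [Form.part_val, Form.zero_val]
  refine top_zero hV (WA.prt_prt_self _ _) hx' ?_
  rw [← WA.prt_iprod, h3, pull_iprod, sphMap_rad.fderiv_self hx', Q.iprod_zero_left, map_zero,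
    map_zero]

theorem i_pr (S : Spl V W) {x : St W} (h : x.1.1 = S.e) : S.i (S.pr x.1.2) = x.1.2 := by
  have k : (inner ℝ S.e x.1.2 : ℝ) = 0 := by rw [← h]; exact x.2.2.2
  have := S.dec x.1.2
  rw [k, zero_smul, zero_add] at this
  exact this.symm

theorem norm_pr (S : Spl V W) {x : St W} (h : x.1.1 = S.e) : ‖S.pr x.1.2‖ = 1 := by
  rw [← S.i.norm_map, i_pr S h, x.2.2.1]

theorem sec_unit (S : Spl V W) (x0 : St W) {η : V} (h : ‖η‖ = 1) :
    (sec S x0 η).1 = (S.e, S.i η) := by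
  have h0 : η ≠ 0 := by
    rw [← norm_ne_zero_iff, h]
    exact one_ne_zero
  rw [sec_val S x0 h0, rad, h, inv_one, one_smul]

theorem sec_pr (S : Spl V W) (x0 : St W) {x : St W} (h : x.1.1 = S.e) :
    sec S x0 (S.pr x.1.2) = x :=
  Subtype.ext (by rw [sec_unit S x0 (norm_pr S h), i_pr S h, ← h])

/-- forms on the punctured complement extend from the fibre -/
theorem exists_ext (S : Spl V W) (ζ : Form (dP V)) : ∃ Z : Form (dSt W),
    ∀ {E : Type} [NormedAddCommGroup E] [NormedSpace ℝ E] [FiniteDimensional ℝ E]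
      {u : E → St W} {x : E}, ((dSt W).on {x | x.1.1 = S.e}).At u x →
        (dP V).At (fun y => S.pr (u y).1.2) x ∧
          Z.d.val u x = ζ.d.val (fun y => S.pr (u y).1.2) x := by
  have hφ : (dSt W).Map (Dif.lin V) fun x : St W => S.pr x.1.2 := by
    intro E _ _ _ u x h
    have h1 : Sm (fun y => (u y).1) x := h
    exact (Sm.of_contDiff S.pr.contDiff _).comp h1.snd
  have hρ : (dSt W).Map (Dif.lin ℝ) fun x : St W => ‖S.pr x.1.2‖ ^ 2 :=
    fun h => Dif.map_lin (contDiff_norm_sq ℝ) (hφ h)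
  have hc : ContDiff ℝ ∞ fun t : ℝ => Real.smoothTransition (4 * t - 1) :=
    Real.smoothTransition.contDiff.comp ((contDiff_const.mul contDiff_id).sub contDiff_const)
  have hh : (dSt W).Map (Dif.lin ℝ)
      fun x : St W => Real.smoothTransition (4 * ‖S.pr x.1.2‖ ^ 2 - 1) :=
    fun h => Dif.map_lin hc (hρ h)
  have hθ := Form.supp_fn_comp (h := fun t : ℝ => Real.smoothTransition (4 * t - 1)) hρ hh
    (isOpen_Ioi (a := (0 : ℝ))) fun t ht => by
      have ht' : t < 1 / 4 := by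
        have : t ≤ 0 := not_lt.1 ht
        linarith
      filter_upwards [gt_mem_nhds ht'] with s hs
      exact Real.smoothTransition.zero_of_nonpos (by linarith)
  have hφO : ((dSt W).on ((fun x : St W => ‖S.pr x.1.2‖ ^ 2) ⁻¹' Ioi 0)).Map (dP V)
      fun x : St W => S.pr x.1.2 := by
    intro E _ _ _ u x h
    refine ⟨hφ h.1, h.2.mono fun y hy h0 => ?_⟩
    have h1 : 0 < ‖S.pr (u y).1.2‖ ^ 2 := hy
    have h2 : S.pr (u y).1.2 = 0 := h0
    rw [h2] at h1
    simp at h1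
  have hsub : {x : St W | x.1.1 = S.e} ⊆ (fun x : St W => ‖S.pr x.1.2‖ ^ 2) ⁻¹' Ioi 0 :=
    fun x hx => by
      change 0 < ‖S.pr x.1.2‖ ^ 2
      rw [norm_pr S hx]
      norm_num
  refine ⟨Form.mx _ hθ (Form.pull _ hφO ζ), fun {E} _ _ _ {u x} h => ?_⟩
  have h1 : (dP V).At (fun y => S.pr (u y).1.2) x := hφO (Dif.map_on_mono hsub h)
  refine ⟨h1, ?_⟩
  rw [Form.d_val _ h.1, Form.d_val _ h1]
  refine extd_congr ?_
  filter_upwards [((dSt W).on _).open' h] with y hy
  have h2 : ‖S.pr (u y).1.2‖ = 1 := norm_pr S hy.2.self_of_nhds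
  have h3 : ((dSt W).on ((fun x : St W => ‖S.pr x.1.2‖ ^ 2) ⁻¹' Ioi 0)).At u y :=
    Dif.map_on_mono hsub hy
  rw [Form.mx_val, Form.fn_val _ _ hy.1, Form.pull_val _ _ h3, h2,
    Real.smoothTransition.one_of_one_le (by norm_num), map_one, one_mul]
  rfl

/-- twice a cycle in a fibre of odd dimension bounds -/
theorem fib_odd (S : Spl V W) (hV : finrank ℝ V = N + 1) (hN : Odd N) {z : Form (dSt W) → ℝ}
    (hz : Cy (dSt W) N z) (hin : RepIn (dSt W) N {x | x.1.1 = S.e} z) :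
    Bd (dSt W) N fun w => 2 * z w := by
  have : Nontrivial V := Module.nontrivial_of_finrank_pos (R := ℝ) (by omega)
  obtain ⟨w1, hw1⟩ := exists_norm_eq V zero_le_one
  have hw0 : w1 ≠ 0 := by
    rw [← norm_ne_zero_iff, hw1]
    exact one_ne_zero
  let x0 : St W := ⟨(S.e, S.i w1), S.he, (S.i.norm_map _).trans hw1, S.ort _⟩
  let A : V ≃ₗᵢ[ℝ] V := (ℝ ∙ w1).reflection
  have hA : LinearMap.det (A.toLinearEquiv : V →ₗ[ℝ] V) = -1 := by
    have : Fact (finrank ℝ V = N + 1) := ⟨hV⟩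
    have h1 := (ℝ ∙ w1).det_reflection
    rw [Submodule.finrank_orthogonal_span_singleton (n := N) hw0, hN.neg_one_pow] at h1
    exact h1
  have hm : (dP V).Map (dP V) A := by
    intro E _ _ _ u x h
    exact ⟨Dif.map_lin A.toContinuousLinearEquiv.contDiff h.1,
      h.2.mono fun y hy h0 => hy (A.injective (Eq.trans h0 (map_zero A).symm))⟩
  have hg : ∀ x : St W, x.1.1 = S.e → sec S x0 (A (S.pr x.1.2)) = gg x0 x := fun x hx => by
    refine Subtype.ext ?_
    rw [sec_unit S x0 ((A.norm_map _).trans (norm_pr S hx)), gg_val x0 x hx]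
    refine Prod.ext rfl ?_
    change S.i ((ℝ ∙ w1).reflection (S.pr x.1.2)) =
      (2 * (inner ℝ (S.i w1) x.1.2 : ℝ)) • S.i w1 - x.1.2
    conv_rhs => rw [← i_pr S hx, S.i.inner_map_map]
    rw [Submodule.reflection_singleton_apply, map_sub, hw1]
    simp [two_smul, two_mul, add_smul]
  have key : ∀ ρ : Form (dSt W), z ρ + z (Form.pull (gg x0) (map_gg x0) ρ) = 0 := fun ρ => by
    obtain ⟨j, rfl⟩ : ∃ j, N = j + 1 := ⟨N - 1, by have := hN.pos; omega⟩
    obtain ⟨ζ, hζ⟩ := iso_exact (j := j) hV A hA hm (closed_sec S hV x0 ρ) (Form.isDeg_part _ _)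
    obtain ⟨Z, hZ⟩ := exists_ext S ζ
    rw [← hz.rep.map_add, ← hz.cl Z]
    refine hin.congr fun {E} _ _ _ {u x} h a => ?_
    borelize E
    obtain ⟨h1, h2⟩ := hZ h
    have h3 : u =ᶠ[𝓝 x] sec S x0 ∘ fun y => S.pr (u y).1.2 := by
      filter_upwards [h.2] with y hy using (sec_pr S x0 hy).symm
    have h4 : gg x0 ∘ u =ᶠ[𝓝 x] sec S x0 ∘ A ∘ fun y => S.pr (u y).1.2 := by
      filter_upwards [h.2] with y hy using (hg _ hy).symm
    rw [h2, ← hζ, Form.add_val, Form.add_val, Form.pull_val _ _ h.1, Form.pull_val _ _ h1,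
      Form.part_val, Form.part_val, Form.pull_val _ _ h1, Form.pull_val _ _ (hm h1),
      ← ρ.congr h.1 h3, ← ρ.congr (map_gg x0 h.1) h4, Q.evalForm_add, Q.evalForm_add,
      WA.evalForm_prt, WA.evalForm_prt]
  exact ((htp_gg x0).bd hz).neg.of_eq fun w => by
    have := key w
    linarith

end Iso

end

end Vale.Agent.P231Z.C
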