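import Vale.Agent.P231Z.C.Rot

/-!
# P231, spheres and real projective spaces, the volume: polar coordinates on the round sphere
-/

set_option linter.unusedSectionVars false
set_option linter.unusedVariables false

open Set Filter Module Metric
open scoped ContDiff Topology

namespace Vale.Agent.P231Z.C

noncomputable section

variable {V W : Type} [NormedAddCommGroup V] [InnerProductSpace ℝ V] [FiniteDimensional ℝ V]
  [NormedAddCommGroup W] [InnerProductSpace ℝ W] [FiniteDimensional ℝ W]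

namespace Spl

/-- the angle between `e` and `y` -/
def ang (S : Spl V W) (y : W) : ℝ := Real.arccos (inner ℝ S.e y / ‖y‖)

/-- the polar coordinates -/
def pol (S : Spl V W) (y : W) : V := S.ang y • (‖S.pr y‖⁻¹ • S.pr y)

theorem ang_smul (S : Spl V W) (y : W) {t : ℝ} (ht : 0 < t) : S.ang (t • y) = S.ang y := by
  rw [ang, ang, real_inner_smul_right, norm_smul, Real.norm_of_nonneg ht.le,
    mul_div_mul_left _ _ ht.ne']

theorem pol_smul (S : Spl V W) (y : W) {t : ℝ} (ht : 0 < t) : S.pol (t • y) = S.pol y := by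
  rw [pol, pol, S.ang_smul y ht, map_smul, norm_smul, Real.norm_of_nonneg ht.le, mul_inv,
    smul_smul _ t, mul_right_comm, inv_mul_cancel₀ ht.ne', one_mul]

theorem norm_pol_le (S : Spl V W) (y : W) : ‖S.pol y‖ ≤ S.ang y := by
  have h0 : 0 ≤ S.ang y := Real.arccos_nonneg _
  by_cases h : S.pr y = 0
  · rw [pol, h, smul_zero, smul_zero, norm_zero]
    exact h0
  · rw [pol, norm_smul, norm_unit h, mul_one, Real.norm_of_nonneg h0]

theorem pol_spec (S : Spl V W) {y : W} (hy : ‖y‖ = 1) (hne : y ≠ -S.e) :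
    ‖S.pol y‖ < Real.pi ∧ S.rot (S.pol y) S.e = y := by
  obtain ⟨ξ, hξ, rfl⟩ := S.exists_rot hy hne
  rw [mem_ball_zero_iff] at hξ
  have h1 : S.ang (S.rot ξ S.e) = ‖ξ‖ := by
    rw [ang, hy, div_one, S.inner_e_rot, Real.arccos_cos (norm_nonneg _) hξ.le]
  have h2 : S.pol (S.rot ξ S.e) = ξ := by
    rw [pol, h1, S.pr_rot]
    by_cases h0 : ξ = 0
    · rw [h0, norm_zero, zero_smul]
    · have h3 : 0 < ‖ξ‖ := norm_pos_iff.2 h0
      have h4 : 0 < Real.sin ‖ξ‖ := Real.sin_pos_of_pos_of_lt_pi h3 hξ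
      rw [norm_smul, Real.norm_of_nonneg (mul_pos h4 (inv_pos.2 h3)).le, smul_smul, smul_smul]
      have h5 : ‖ξ‖ * (Real.sin ‖ξ‖ * ‖ξ‖⁻¹ * ‖ξ‖)⁻¹ * (Real.sin ‖ξ‖ * ‖ξ‖⁻¹) = 1 := by
        field_simp
      rw [h5, one_smul]
  rw [h2]
  exact ⟨hξ, rfl⟩

theorem eventually_rot_pol (S : Spl V W) {y : W} (h0 : y ≠ 0) (hne : ‖y‖⁻¹ • y ≠ -S.e) :
    ∀ᶠ z in 𝓝 y, z ≠ 0 ∧ S.rot (S.pol z) S.e = ‖z‖⁻¹ • z := by
  have h1 : ContinuousAt (fun z : W => ‖z‖⁻¹ • z) y :=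
    (continuous_norm.continuousAt.inv₀ (norm_ne_zero_iff.2 h0)).smul continuousAt_id
  filter_upwards [h1.eventually_ne hne, isOpen_ne.mem_nhds h0] with z h2 h3
  refine ⟨h3, ?_⟩
  rw [← S.pol_smul z (inv_pos.2 (norm_pos_iff.2 h3))]
  exact (S.pol_spec (norm_unit h3) h2).2

theorem contDiff_rot_e (S : Spl V W) : ContDiff ℝ ∞ fun ξ => S.rot ξ S.e :=
  S.contDiff_rot.clm_apply contDiff_const

theorem hasFDerivAt_pr_rot (S : Spl V W) : HasFDerivAt (fun ξ => S.pr (S.rot ξ S.e))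
    ((ContinuousLinearEquiv.refl ℝ V : V ≃L[ℝ] V) : V →L[ℝ] V) 0 := by
  have h1 : DifferentiableAt ℝ (fun ξ => S.pr (S.rot ξ S.e)) 0 :=
    (S.pr.contDiff.comp S.contDiff_rot_e).differentiable (by simp) 0
  have h2 : fderiv ℝ (fun ξ => S.pr (S.rot ξ S.e)) 0 =
      ((ContinuousLinearEquiv.refl ℝ V : V ≃L[ℝ] V) : V →L[ℝ] V) := by
    ext ξ
    have h3 : HasDerivAt (fun s : ℝ => s • ξ) ξ 0 := by
      simpa using (hasDerivAt_id (0 : ℝ)).smul_const ξ
    have h4 : HasFDerivAt (fun ξ => S.pr (S.rot ξ S.e))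
        (fderiv ℝ (fun ξ => S.pr (S.rot ξ S.e)) 0) ((0 : ℝ) • ξ) := by
      rw [zero_smul]
      exact h1.hasFDerivAt
    have h5 := h4.comp_hasDerivAt (0 : ℝ) h3
    have h6 := S.pr.hasFDerivAt.comp_hasDerivAt (0 : ℝ) (S.hasDerivAt_rot' ξ S.e 0)
    rw [zero_smul, S.rot_zero, one_apply_eq_self, S.sk_e, S.pri] at h6
    exact h5.unique h6
  exact h2 ▸ h1.hasFDerivAt

theorem contDiffAt_pol (S : Spl V W) {y : W} (hy : ∀ t : ℝ, 0 ≤ t → y ≠ -t • S.e) :
    ContDiffAt ℝ ∞ S.pol y := by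
  have h0 : y ≠ 0 := by simpa using hy 0 le_rfl
  have hn : 0 < ‖y‖ := norm_pos_iff.2 h0
  have hq : ContDiffAt ℝ ∞ (fun z : W => (inner ℝ S.e z : ℝ) / ‖z‖) y :=
    (contDiffAt_const.inner ℝ contDiffAt_id).div (contDiffAt_id.norm ℝ h0) hn.ne'
  by_cases h : S.pr y = 0
  · have : CompleteSpace V := FiniteDimensional.complete ℝ V
    have hd := S.dec y
    rw [h, map_zero, add_zero] at hd
    have hc : 0 < (inner ℝ S.e y : ℝ) := by
      by_contra h1
      exact hy (-inner ℝ S.e y) (neg_nonneg.2 (not_lt.1 h1)) (by rw [neg_neg]; exact hd)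
    have hc' : ‖y‖ = inner ℝ S.e y := by
      conv_lhs => rw [hd]
      rw [norm_smul, S.he, mul_one, Real.norm_of_nonneg hc.le]
    have hne : ‖y‖⁻¹ • y ≠ -S.e := fun h1 => hy ‖y‖ hn.le (by
      rw [neg_smul, ← smul_neg, ← h1, smul_inv_smul₀ hn.ne'])
    have hF : ContDiffAt ℝ ∞ (fun ξ => S.pr (S.rot ξ S.e)) 0 :=
      (S.pr.contDiff.comp S.contDiff_rot_e).contDiffAt
    have h1 := hF.to_localInverse S.hasFDerivAt_pr_rot (by simp)
    have h2 := (hF.hasStrictFDerivAt' S.hasFDerivAt_pr_rot (by simp)).eventually_left_inverse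
    have h3 : Tendsto S.pol (𝓝 y) (𝓝 0) := by
      refine squeeze_zero_norm S.norm_pol_le ?_
      have h4 : ContinuousAt S.ang y := Real.continuous_arccos.continuousAt.comp hq.continuousAt
      have h5 : S.ang y = 0 := by rw [ang, hc', div_self hc.ne', Real.arccos_one]
      exact h5 ▸ h4
    have h4 : ContDiffAt ℝ ∞ (fun z : W => S.pr (‖z‖⁻¹ • z)) y :=
      S.pr.contDiff.contDiffAt.comp y (((contDiffAt_id.norm ℝ h0).inv hn.ne').smul contDiffAt_id)
    have h5 : S.pr (S.rot 0 S.e) = S.pr (‖y‖⁻¹ • y) := by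
      rw [S.rot_zero, one_apply_eq_self, S.pre, map_smul, h, smul_zero]
    rw [h5] at h1
    refine (h1.comp y h4).congr_of_eventuallyEq ?_
    filter_upwards [h3.eventually h2, S.eventually_rot_pol h0 hne] with z h6 h7
    rw [h7.2] at h6
    exact h6.symm
  · have h1 : 0 < ‖S.pr y‖ := norm_pos_iff.2 h
    have h2 := S.norm_sq_eq y
    have h3 : ((inner ℝ S.e y : ℝ) / ‖y‖) ^ 2 < 1 := by
      rw [div_pow, div_lt_one (pow_pos hn 2)]
      nlinarith
    have h4 : (inner ℝ S.e y : ℝ) / ‖y‖ ≠ -1 := fun h5 => by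
      rw [h5] at h3
      norm_num at h3
    have h5 : (inner ℝ S.e y : ℝ) / ‖y‖ ≠ 1 := fun h5 => by
      rw [h5] at h3
      norm_num at h3
    have h6 : ContDiffAt ℝ ∞ S.ang y := (Real.contDiffAt_arccos h4 h5).comp y hq
    have h7 : ContDiffAt ℝ ∞ S.pr y := S.pr.contDiff.contDiffAt
    exact h6.smul (((h7.norm ℝ h).inv h1.ne').smul h7)

theorem not_ray (S : Spl V W) {y : W} (hy : ‖y‖ = 1) (hne : y ≠ -S.e) (t : ℝ) (ht : 0 ≤ t) :
    y ≠ -t • S.e := fun h => by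
  have h1 : t = 1 := by
    rw [h, norm_smul, S.he, mul_one, norm_neg, Real.norm_of_nonneg ht] at hy
    exact hy
  exact hne (by rw [h, h1, neg_one_smul])

theorem fderiv_pol_inj (S : Spl V W) {y h : W} (hy : ‖y‖ = 1) (hne : y ≠ -S.e)
    (hh : (inner ℝ y h : ℝ) = 0) (h0 : fderiv ℝ S.pol y h = 0) : h = 0 := by
  have hy0 : y ≠ 0 := fun h1 => by
    rw [h1, norm_zero] at hy
    exact zero_ne_one hy
  have h1 := ((S.contDiffAt_pol (S.not_ray hy hne)).differentiableAt (by simp)).hasFDerivAt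
  have h2 := ((S.contDiff_rot_e.differentiable (by simp)) (S.pol y)).hasFDerivAt.comp y h1
  have h3 := ((contDiffAt_id.norm ℝ hy0 : ContDiffAt ℝ 1 (fun z : W => ‖z‖) y).differentiableAt
    one_ne_zero).hasFDerivAt
  have h4 := h3.smul h2
  have h5 : HasFDerivAt (fun z : W => z) _ y := h4.congr_of_eventuallyEq (by
    filter_upwards [S.eventually_rot_pol hy0 (by rwa [hy, inv_one, one_smul])] with z hz
    change z = ‖z‖ • S.rot (S.pol z) S.e
    rw [hz.2, smul_inv_smul₀ (norm_ne_zero_iff.2 hz.1)])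
  have h6 := congrArg (fun T : W →L[ℝ] W => T h) ((hasFDerivAt_id y).unique h5)
  simp only [ContinuousLinearMap.id_apply, add_apply, smul_apply, ContinuousLinearMap.comp_apply,
    h0, map_zero, smul_zero, zero_add, ContinuousLinearMap.smulRight_apply, Function.comp_apply,
    (S.pol_spec hy hne).2] at h6
  have h7 : (inner ℝ y y : ℝ) = 1 := by rw [real_inner_self_eq_norm_sq, hy, one_pow]
  rw [h6, real_inner_smul_right, h7, mul_one] at hh
  rw [h6, hh, zero_smul]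

theorem exists_polar (S : Spl V W) : ∃ L : W → V, (∀ y (t : ℝ), 0 < t → L (t • y) = L y) ∧
    (∀ y, ‖y‖ = 1 → y ≠ -S.e → ‖L y‖ < Real.pi ∧ S.rot (L y) S.e = y) ∧
    (∀ y, (∀ t : ℝ, 0 ≤ t → y ≠ -t • S.e) → ContDiffAt ℝ ∞ L y) ∧
    (∀ y h, ‖y‖ = 1 → y ≠ -S.e → (inner ℝ y h : ℝ) = 0 → fderiv ℝ L y h = 0 → h = 0) :=
  ⟨S.pol, fun y _ ht => S.pol_smul y ht, fun _ hy hne => S.pol_spec hy hne,
    fun _ hy => S.contDiffAt_pol hy, fun _ _ hy hne hh h0 => S.fderiv_pol_inj hy hne hh h0⟩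

end Spl

end

end Vale.Agent.P231Z.C
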