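import Vale.Agent.P231Z.C.GDefs
import Vale.Agent.P231Z.C.Polar

/-!
# P231, spheres and real projective spaces, the volume: the double covering by the round sphere
-/

set_option linter.unusedSectionVars false
set_option linter.unusedVariables false
set_option maxSynthPendingDepth 3

open Set Filter Module MeasureTheory Metric
open scoped ContDiff Topology

namespace Vale.Agent.P231Z.C

noncomputable section

open Vale.Agent.P231 Vale.Agent.P231.Fm Vale.Agent.P231.W Vale.Agent.P231.H584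
  Vale.Agent.P231Z.I7
open Vale.Agent.P231.S2I (dP)

namespace JP

section Model

variable {V W : Type} [NormedAddCommGroup V] [InnerProductSpace ℝ V] [FiniteDimensional ℝ V]
  [NormedAddCommGroup W] [InnerProductSpace ℝ W] [FiniteDimensional ℝ W] {X : Type*}

theorem exists_unit [Nontrivial V] (ξ : V) : ∃ u : V, ‖u‖ = 1 ∧ ξ = ‖ξ‖ • u := by
  by_cases h : ξ = 0
  · obtain ⟨u, hu⟩ := exists_norm_eq V zero_le_one
    exact ⟨u, hu, by rw [h, norm_zero, zero_smul]⟩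
  · exact ⟨‖ξ‖⁻¹ • ξ, norm_unit h, (smul_inv_smul₀ (norm_ne_zero_iff.2 h) ξ).symm⟩

theorem per_int {G : V → X} (hG : ∀ v : V, ‖v‖ = 1 → ∀ t : ℝ, G ((t + Real.pi) • v) = G (t • v))
    {v : V} (hv : ‖v‖ = 1) {a t : ℝ} (h : Real.sin (a - t) = 0) : G (a • v) = G (t • v) := by
  obtain ⟨n, hn⟩ := Real.sin_eq_zero_iff.1 h
  have h1 : Function.Periodic (fun s : ℝ => G (s • v)) Real.pi := fun s => hG v hv s
  have h2 := h1.int_mul n t
  rw [hn, add_sub_cancel] at h2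
  exact h2

/-- a function which is periodic on the rays descends to the projective space -/
theorem key [Nontrivial V] (S : Spl V W) {G : V → X}
    (hG : ∀ v : V, ‖v‖ = 1 → ∀ t : ℝ, G ((t + Real.pi) • v) = G (t • v)) {ξ η : V} {σ : ℝ}
    (hσ : σ = 1 ∨ σ = -1) (h : S.rot ξ S.e = σ • S.rot η S.e) : G ξ = G η := by
  obtain ⟨u, hu, h1⟩ := exists_unit ξ
  obtain ⟨v, hv, h2⟩ := exists_unit η
  rw [h1, h2] at h ⊢
  generalize ‖ξ‖ = a at h ⊢
  generalize ‖η‖ = t at h ⊢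
  rw [S.rot_e hu, S.rot_e hv, smul_add, smul_smul, smul_smul, ← map_smul, ← map_smul] at h
  have h3 : Real.cos a = σ * Real.cos t := by
    have := congrArg (fun w => (inner ℝ S.e w : ℝ)) h
    simpa only [S.inner_comb] using this
  have h4 : Real.sin a • u = (σ * Real.sin t) • v := by
    have := congrArg S.pr h
    simpa only [S.pr_comb] using this
  have h5 : |Real.sin a| = |σ * Real.sin t| := by
    have := congrArg norm h4
    simpa only [norm_smul, hu, hv, mul_one, Real.norm_eq_abs] using this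
  have h6 : σ ≠ 0 := by rcases hσ with rfl | rfl <;> norm_num
  by_cases h0 : Real.sin t = 0
  · have h7 : Real.sin a = 0 := by
      rw [h0, mul_zero, abs_zero] at h5
      exact abs_eq_zero.1 h5
    rw [per_int hG hu (t := 0) (by rwa [sub_zero]), per_int hG hv (t := 0) (by rwa [sub_zero]),
      zero_smul, zero_smul]
  · have h8 : σ * Real.sin t ≠ 0 := mul_ne_zero h6 h0
    rcases abs_eq_abs.1 h5 with h7 | h7
    · rw [h7] at h4
      obtain rfl : u = v := smul_right_injective V h8 h4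
      exact per_int hG hu (by rw [Real.sin_sub, h3, h7]; ring)
    · rw [h7, neg_smul, ← smul_neg] at h4
      obtain rfl : -u = v := smul_right_injective V h8 h4
      rw [smul_neg, ← neg_smul]
      exact per_int hG hu (by rw [sub_neg_eq_add, Real.sin_add, h3, h7]; ring)

theorem exists_rot' [Nontrivial V] (S : Spl V W) {y : W} (hy : ‖y‖ = 1) :
    ∃ ξ : V, S.rot ξ S.e = y := by
  by_cases h : y = -S.e
  · obtain ⟨ξ, hξ⟩ := exists_norm_eq V Real.pi_pos.le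
    exact ⟨ξ, by rw [S.rot_pi hξ, h]⟩
  · obtain ⟨ξ, -, h1⟩ := S.exists_rot hy h
    exact ⟨ξ, h1⟩

theorem norm_le_half (S : Spl V W) {ξ : V} (h1 : ‖ξ‖ < Real.pi)
    (h2 : 0 ≤ (inner ℝ S.e (S.rot ξ S.e) : ℝ)) : ‖ξ‖ ≤ Real.pi / 2 := by
  rw [S.inner_e_rot] at h2
  by_contra h3
  exact absurd (Real.cos_neg_of_pi_div_two_lt_of_lt (not_le.1 h3)
    (by linarith [Real.pi_pos])) (not_lt.2 h2)

theorem ne_neg_e (S : Spl V W) {y : W} (h : 0 ≤ (inner ℝ S.e y : ℝ)) : y ≠ -S.e := by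
  rintro rfl
  rw [inner_neg_right, S.inner_e_e] at h
  linarith

theorem exists_half (S : Spl V W) {y : W} (hy : ‖y‖ = 1) (h : 0 ≤ (inner ℝ S.e y : ℝ)) :
    ∃ ξ : V, ‖ξ‖ ≤ Real.pi / 2 ∧ S.rot ξ S.e = y := by
  obtain ⟨ξ, h1, h2⟩ := S.exists_rot hy (ne_neg_e S h)
  exact ⟨ξ, norm_le_half S (mem_ball_zero_iff.1 h1) (by rwa [h2]), h2⟩

theorem rot_neg_half (S : Spl V W) {ξ : V} (h : ‖ξ‖ = Real.pi / 2) :
    S.rot (-ξ) S.e = -S.rot ξ S.e := by
  rw [S.rot_e', S.rot_e', norm_neg, h, Real.cos_pi_div_two, zero_smul, zero_add, zero_add,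
    smul_neg, _root_.map_neg]

/-- the descended function -/
def jj (S : Spl V W) (G : V → X) (y : W) : X :=
  G (Classical.epsilon fun ξ : V => S.rot ξ S.e = ‖y‖⁻¹ • y)

theorem jj_smul (S : Spl V W) (G : V → X) (y : W) {t : ℝ} (ht : 0 < t) :
    jj S G (t • y) = jj S G y := by
  have h : ‖t • y‖⁻¹ • t • y = ‖y‖⁻¹ • y := by
    rw [norm_smul, Real.norm_of_nonneg ht.le, smul_smul, mul_inv, mul_right_comm,
      inv_mul_cancel₀ ht.ne', one_mul]
  unfold jj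
  rw [h]

theorem jj_eq [Nontrivial V] (S : Spl V W) {G : V → X}
    (hG : ∀ v : V, ‖v‖ = 1 → ∀ t : ℝ, G ((t + Real.pi) • v) = G (t • v)) {y : W} (hy : y ≠ 0)
    {ξ : V} {σ : ℝ} (hσ : σ = 1 ∨ σ = -1) (h : ‖y‖⁻¹ • y = σ • S.rot ξ S.e) :
    jj S G y = G ξ :=
  key S hG hσ ((Classical.epsilon_spec (exists_rot' S (norm_unit hy))).trans h)

theorem jj_rot [Nontrivial V] (S : Spl V W) {G : V → X}
    (hG : ∀ v : V, ‖v‖ = 1 → ∀ t : ℝ, G ((t + Real.pi) • v) = G (t • v)) (ξ : V) :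
    jj S G (S.rot ξ S.e) = G ξ := by
  have h : ‖S.rot ξ S.e‖ = 1 := by rw [S.norm_rot, S.he]
  exact jj_eq S hG (norm_ne_zero_iff.1 (by rw [h]; exact one_ne_zero)) (Or.inl rfl)
    (by rw [h, inv_one])

theorem jj_neg [Nontrivial V] (S : Spl V W) {G : V → X}
    (hG : ∀ v : V, ‖v‖ = 1 → ∀ t : ℝ, G ((t + Real.pi) • v) = G (t • v)) (y : W) :
    jj S G (-y) = jj S G y := by
  by_cases hy : y = 0
  · rw [hy, neg_zero]
  · obtain ⟨ξ, h⟩ := exists_rot' S (norm_unit hy)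
    rw [jj_eq S hG hy (Or.inl rfl) (ξ := ξ) (by rw [h, one_smul]),
      jj_eq S hG (neg_ne_zero.2 hy) (Or.inr rfl) (ξ := ξ)
        (by rw [h, norm_neg, smul_neg, neg_one_smul])]

theorem jj_fib [Nontrivial V] (S : Spl V W) {G : V → X}
    (hG : ∀ v : V, ‖v‖ = 1 → ∀ t : ℝ, G ((t + Real.pi) • v) = G (t • v))
    (hf : ∀ ξ η : V, ‖ξ‖ ≤ Real.pi / 2 → ‖η‖ ≤ Real.pi / 2 → G ξ = G η →
      η = ξ ∨ (η = -ξ ∧ ‖ξ‖ = Real.pi / 2))
    {y y' : W} (hy : ‖y‖ = 1) (hy' : ‖y'‖ = 1) (h : jj S G y = jj S G y') : y' = y ∨ y' = -y := by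
  have main : ∀ z z' : W, ‖z‖ = 1 → ‖z'‖ = 1 → 0 ≤ (inner ℝ S.e z : ℝ) →
      0 ≤ (inner ℝ S.e z' : ℝ) → jj S G z = jj S G z' → z' = z ∨ z' = -z := by
    intro z z' h1 h2 h3 h4 h5
    obtain ⟨ξ, k1, rfl⟩ := exists_half S h1 h3
    obtain ⟨η, k2, rfl⟩ := exists_half S h2 h4
    rw [jj_rot S hG, jj_rot S hG] at h5
    rcases hf ξ η k1 k2 h5 with rfl | ⟨rfl, k3⟩
    · exact Or.inl rfl
    · exact Or.inr (rot_neg_half S k3)
  have hs : ∀ z : W, ¬ 0 ≤ (inner ℝ S.e z : ℝ) → 0 ≤ (inner ℝ S.e (-z) : ℝ) := fun z hz => by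
    rw [inner_neg_right]
    linarith [not_le.1 hz]
  by_cases h1 : 0 ≤ (inner ℝ S.e y : ℝ) <;> by_cases h2 : 0 ≤ (inner ℝ S.e y' : ℝ)
  · exact main y y' hy hy' h1 h2 h
  · rcases main y (-y') hy (by rwa [norm_neg]) h1 (hs _ h2) (by rwa [jj_neg S hG]) with k | k
    · exact Or.inr (neg_eq_iff_eq_neg.1 k)
    · exact Or.inl (neg_injective k)
  · rcases main (-y) y' (by rwa [norm_neg]) hy' (hs _ h1) h2 (by rwa [jj_neg S hG]) with k | k
    · exact Or.inr k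
    · exact Or.inl (by rwa [neg_neg] at k)
  · rcases main (-y) (-y') (by rwa [norm_neg]) (by rwa [norm_neg]) (hs _ h1) (hs _ h2)
      (by rwa [jj_neg S hG, jj_neg S hG]) with k | k
    · exact Or.inl (neg_injective k)
    · exact Or.inr (neg_injective k)

/-- polar coordinates outside the negative ray -/
structure Pol (S : Spl V W) (L : W → V) : Prop where
  lt : ∀ y : W, 0 < ‖y‖ + (inner ℝ S.e y : ℝ) → ‖L y‖ < Real.pi
  rot : ∀ y : W, 0 < ‖y‖ + (inner ℝ S.e y : ℝ) → S.rot (L y) S.e = ‖y‖⁻¹ • y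
  sm : ∀ y : W, 0 < ‖y‖ + (inner ℝ S.e y : ℝ) → ContDiffAt ℝ ∞ L y

theorem isOpen_dom (S : Spl V W) : IsOpen {y : W | 0 < ‖y‖ + (inner ℝ S.e y : ℝ)} :=
  isOpen_lt continuous_const (continuous_norm.add (continuous_const.inner continuous_id))

theorem ne_zero_of_dom (S : Spl V W) {y : W} (h : 0 < ‖y‖ + (inner ℝ S.e y : ℝ)) : y ≠ 0 := by
  rintro rfl
  simp at h

theorem mem_dom (S : Spl V W) {y : W} (hy : y ≠ 0) (h : 0 ≤ (inner ℝ S.e y : ℝ)) :
    0 < ‖y‖ + (inner ℝ S.e y : ℝ) := add_pos_of_pos_of_nonneg (norm_pos_iff.2 hy) h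

theorem Pol.le_half {S : Spl V W} {L : W → V} (hL : Pol S L) {y : W} (hy : y ≠ 0)
    (h : 0 ≤ (inner ℝ S.e y : ℝ)) : ‖L y‖ ≤ Real.pi / 2 := by
  refine norm_le_half S (hL.lt y (mem_dom S hy h)) ?_
  rw [hL.rot y (mem_dom S hy h), real_inner_smul_right]
  exact mul_nonneg (inv_nonneg.2 (norm_nonneg y)) h

theorem Pol.inj {S : Spl V W} {L : W → V} (hL : Pol S L) {y h : W}
    (hy : 0 < ‖y‖ + (inner ℝ S.e y : ℝ)) (h1 : (inner ℝ y h : ℝ) = 0)
    (h2 : fderiv ℝ L y h = 0) : h = 0 := by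
  have hy0 := ne_zero_of_dom S hy
  have k1 : HasFDerivAt L (fderiv ℝ L y) y :=
    ((hL.sm y hy).differentiableAt (by simp)).hasFDerivAt
  have k2 : HasDerivAt (fun t : ℝ => y + t • h) h 0 := by
    simpa using ((hasDerivAt_id (0 : ℝ)).smul_const h).const_add y
  have k0 : y + (0 : ℝ) • h = y := by rw [zero_smul, add_zero]
  have k3 : HasDerivAt (fun t : ℝ => L (y + t • h)) 0 0 := by
    rw [← h2]
    exact HasFDerivAt.comp_hasDerivAt (0 : ℝ) (by rw [k0]; exact k1) k2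
  have k4 : DifferentiableAt ℝ (fun ξ : V => S.rot ξ S.e) (L (y + (0 : ℝ) • h)) :=
    (S.contDiff_rot.clm_apply contDiff_const).contDiffAt.differentiableAt (by simp)
  have k5 : HasDerivAt (fun t : ℝ => S.rot (L (y + t • h)) S.e) 0 0 := by
    have := k4.hasFDerivAt.comp_hasDerivAt (0 : ℝ) k3
    rwa [map_zero] at this
  have k6 : HasDerivAt (fun t : ℝ => ‖y + t • h‖) 0 0 := by
    have e1 : HasDerivAt (fun t : ℝ => ‖y + t • h‖ ^ 2) 0 0 := by
      have := k2.norm_sq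
      rwa [k0, h1, mul_zero] at this
    have e2 := e1.sqrt (by rw [k0]; exact pow_ne_zero 2 (norm_ne_zero_iff.2 hy0))
    simpa only [Real.sqrt_sq (norm_nonneg _), zero_div] using e2
  have k7 := k6.smul k5
  rw [smul_zero, zero_smul, add_zero] at k7
  refine k2.unique (k7.congr_of_eventuallyEq ?_)
  have k8 : ∀ᶠ t : ℝ in 𝓝 0, 0 < ‖y + t • h‖ + (inner ℝ S.e (y + t • h) : ℝ) :=
    k2.continuousAt.eventually (p := fun z : W => 0 < ‖z‖ + (inner ℝ S.e z : ℝ))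
      ((isOpen_dom S).mem_nhds (by beta_reduce; rw [k0]; exact hy))
  filter_upwards [k8] with t ht
  rw [Pi.smul_apply', hL.rot _ ht, smul_inv_smul₀ (norm_ne_zero_iff.2 (ne_zero_of_dom S ht))]

theorem Pol.jj_eq [Nontrivial V] {S : Spl V W} {L : W → V} (hL : Pol S L) {G : V → X}
    (hG : ∀ v : V, ‖v‖ = 1 → ∀ t : ℝ, G ((t + Real.pi) • v) = G (t • v)) {y : W}
    (hy : 0 < ‖y‖ + (inner ℝ S.e y : ℝ)) : jj S G =ᶠ[𝓝 y] fun z => G (L z) := by
  filter_upwards [(isOpen_dom S).mem_nhds hy] with z hz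
  exact JP.jj_eq S hG (ne_zero_of_dom S hz) (Or.inl rfl) (by rw [hL.rot z hz, one_smul])

theorem exists_pol (S : Spl V W) : ∃ L, Pol S L := by
  obtain ⟨L, h1, h2, h3, -⟩ := S.exists_polar
  have ray : ∀ y : W, 0 < ‖y‖ + (inner ℝ S.e y : ℝ) → ∀ t : ℝ, 0 ≤ t → y ≠ -t • S.e := by
    rintro y hy t ht rfl
    rw [norm_smul, real_inner_smul_right, S.inner_e_e, S.he, norm_neg, Real.norm_of_nonneg ht] at hy
    linarith
  have main : ∀ y : W, 0 < ‖y‖ + (inner ℝ S.e y : ℝ) →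
      ‖L y‖ < Real.pi ∧ S.rot (L y) S.e = ‖y‖⁻¹ • y := by
    intro y hy
    have hy0 := ne_zero_of_dom S hy
    rw [← h1 y _ (inv_pos.2 (norm_pos_iff.2 hy0))]
    refine h2 _ (norm_unit hy0) fun h => ray y hy ‖y‖ (norm_nonneg y) ?_
    rw [neg_smul, ← smul_neg, ← h, smul_inv_smul₀ (norm_ne_zero_iff.2 hy0)]
  exact ⟨L, fun y hy => (main y hy).1, fun y hy => (main y hy).2, fun y hy => h3 y (ray y hy)⟩

end Model

end JP

section Geo

open Bundle Manifold Vale.Agent.P234 Vale.Agent.P231.WG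
open scoped Manifold

variable {E : Type*} [NormedAddCommGroup E] [NormedSpace ℝ E]
  {M : Type*} [MetricSpace M] [ChartedSpace E M]
  [RiemannianBundle (fun x : M => TangentSpace 𝓘(ℝ, E) x)]
  {e : ∀ x : M, TangentSpace 𝓘(ℝ, E) x → M}
  [FiniteDimensional ℝ E] [IsManifold 𝓘(ℝ, E) ∞ M]
  [IsContMDiffRiemannianBundle 𝓘(ℝ, E) ∞ E (fun x : M => TangentSpace 𝓘(ℝ, E) x)]
  [CompactSpace M] [ConnectedSpace M] [IsRiemannianManifold 𝓘(ℝ, E) M]
  {W : Type} [NormedAddCommGroup W] [InnerProductSpace ℝ W] [FiniteDimensional ℝ W]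

variable (F : Facts e) {D : ℝ} (hD : 0 < D) (hB : InjGE e D) (hdiam : ∀ p q : M, dist p q ≤ D)
  {N : ℕ} (hN : finrank ℝ E = N + 1)

namespace JP

include hB in
theorem dist_ef (p : M) {ξ : Eu E} (h : ‖ξ‖ ≤ D) : dist p (ef e p ξ) = ‖ξ‖ := by
  rw [← nm_fr p ξ] at h ⊢
  exact hB p (fr p ξ : E) h

include F hD hB hdiam in
theorem ef_per (p : M) {v : Eu E} (hv : ‖v‖ = 1) (t : ℝ) :
    ef e p ((t + 2 * D) • v) = ef e p (t • v) := by
  have h := gam_per F hD.le (closed_of_inj_diam F hD hB hdiam) p (fr p v)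
    (by rw [nm_fr, hv]) t
  unfold ef
  rw [map_smul, map_smul]
  exact h

include F hD hB in
theorem dEf_inj (hk : ∀ (x : M) (v : TangentSpace 𝓘(ℝ, E) x), ‖v‖ = 1 →
      finrank ℝ (H703.Ker e D x v) = 0) (p : M) {ξ ζ : Eu E} (h : ‖ξ‖ ≤ D)
    (h0 : CV.dEf e p ξ ζ = 0) : ζ = 0 := by
  have main : (fr p ζ : E) = 0 := by
    rcases h.lt_or_eq with h1 | h1
    · exact dE_injective F hB (by rwa [nm_fr]) h0
    · have hE : FiniteDimensional ℝ (TangentSpace 𝓘(ℝ, E) p) :=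
        inferInstanceAs (FiniteDimensional ℝ E)
      have h2 : nm p (fr p (D⁻¹ • ξ) : E) = 1 := by
        rw [nm_fr, norm_smul, h1, norm_inv, Real.norm_of_nonneg hD.le, inv_mul_cancel₀ hD.ne']
      have h3 := Submodule.finrank_eq_zero.1 (hk p (fr p (D⁻¹ • ξ) : E) h2)
      have h4 : (D • fr p (D⁻¹ • ξ) : E) = fr p ξ := by
        rw [← map_smul, smul_inv_smul₀ hD.ne']
      have h5 : dE e p (D • fr p (D⁻¹ • ξ) : E) (fr p ζ) = 0 := by
        rw [h4]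
        exact h0
      have h6 : (show TangentSpace 𝓘(ℝ, E) p from (fr p ζ : E)) ∈
          H703.Ker e D p (fr p (D⁻¹ • ξ) : E) := H703.mem_Ker.2 h5
      rw [h3] at h6
      exact (Submodule.mem_bot ℝ).1 h6
  exact (fr p).injective (main.trans (map_zero _).symm)

include F hD hB in
theorem ef_fib (hl : ∀ x y : M, dist x y = D → finrank ℝ (H775.Pl e D x y) = 0 + 1) (p : M)
    {ξ η : Eu E} (h1 : ‖ξ‖ ≤ D) (h2 : ‖η‖ ≤ D) (h : ef e p ξ = ef e p η) :
    η = ξ ∨ (η = -ξ ∧ ‖ξ‖ = D) := by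
  have h3 : ‖η‖ = ‖ξ‖ := by rw [← dist_ef hB p h1, ← dist_ef hB p h2, h]
  rcases h1.lt_or_eq with h4 | h4
  · exact Or.inl (area_injOn F hB p (mem_ball_zero_iff.2 h4)
      (mem_ball_zero_iff.2 (h3.trans_lt h4)) h).symm
  · have hm : ∀ ζ : Eu E, ‖ζ‖ = D → ef e p ζ = ef e p ξ →
        (show TangentSpace 𝓘(ℝ, E) p from (fr p ζ : E)) ∈ H775.Pl e D (ef e p ξ) p := by
      intro ζ k1 k2
      have k3 : nm p (fr p (D⁻¹ • ζ) : E) = 1 := by
        rw [nm_fr, norm_smul, k1, norm_inv, Real.norm_of_nonneg hD.le, inv_mul_cancel₀ hD.ne']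
      have k4 : (D • fr p (D⁻¹ • ζ) : E) = fr p ζ := by
        rw [← map_smul, smul_inv_smul₀ hD.ne']
      have k5 : (show TangentSpace 𝓘(ℝ, E) p from (fr p (D⁻¹ • ζ) : E)) ∈
          Lk e D (ef e p ξ) p := ⟨k3, (congrArg (e p) k4).trans k2⟩
      have k6 := Submodule.smul_mem _ D (H775.Lk_subset_Pl D _ _ k5)
      exact k4 ▸ k6
    have h5 := hl (ef e p ξ) p (by rw [dist_comm, dist_ef hB p h4.le, h4])
    have h6 : ξ ≠ 0 := norm_ne_zero_iff.1 (by rw [h4]; exact hD.ne')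
    have h7 : (⟨_, hm ξ h4 rfl⟩ : H775.Pl e D (ef e p ξ) p) ≠ 0 := fun k =>
      h6 ((fr p).injective ((congrArg Subtype.val k).trans (map_zero _).symm))
    obtain ⟨c, hc⟩ := (finrank_eq_one_iff_of_nonzero' _ h7).1 h5 ⟨_, hm η (h3.trans h4) h.symm⟩
    have h8 : (c • fr p ξ : E) = fr p η := congrArg Subtype.val hc
    have h9 : η = c • ξ := (fr p).injective (by rw [map_smul, h8])
    have h10 : |c| = 1 := by
      rw [h9, norm_smul, Real.norm_eq_abs] at h3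
      exact mul_right_cancel₀ (norm_ne_zero_iff.2 h6) (h3.trans (one_mul _).symm)
    rcases abs_eq_abs.1 (h10.trans abs_one.symm) with rfl | rfl
    · exact Or.inl (by rw [h9, one_smul])
    · exact Or.inr ⟨by rw [h9, neg_one_smul], h4⟩

end JP

include F hD hB hdiam hN in
theorem exists_j_proj (hl : ∀ x y : M, dist x y = D → finrank ℝ (H775.Pl e D x y) = 0 + 1)
    (hk : ∀ (x : M) (v : TangentSpace 𝓘(ℝ, E) x), ‖v‖ = 1 → finrank ℝ (H703.Ker e D x v) = 0)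
    (p : M) (S : Spl (Eu E) W) : ∃ j : W → M, Jm e p S (2 * D / Real.pi) j ∧
      (∀ y, j (-y) = j y) ∧
      ∀ y y' : W, ‖y‖ = 1 → ‖y'‖ = 1 → j y = j y' → y' = y ∨ y' = -y := by
  have hnt : Nontrivial (Eu E) := Module.nontrivial_of_finrank_pos (R := ℝ) (by simp [hN])
  obtain ⟨L, hL⟩ := JP.exists_pol S
  have hπ := Real.pi_pos
  set c : ℝ := 2 * D / Real.pi with hc
  have hc0 : 0 < c := by positivity
  have hcπ : c * Real.pi = 2 * D := by rw [hc]; field_simp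
  have hn : ∀ ξ : Eu E, ‖c • ξ‖ = c * ‖ξ‖ := fun ξ => by
    rw [norm_smul, Real.norm_of_nonneg hc0.le]
  have hle : ∀ ξ : Eu E, ‖ξ‖ ≤ Real.pi / 2 → ‖c • ξ‖ ≤ D := fun ξ h => by
    rw [hn]
    nlinarith
  let G : Eu E → M := fun ξ => ef e p (c • ξ)
  have hG : ∀ v : Eu E, ‖v‖ = 1 → ∀ t : ℝ, G ((t + Real.pi) • v) = G (t • v) := by
    intro v hv t
    change ef e p (c • (t + Real.pi) • v) = ef e p (c • t • v)
    rw [smul_smul, smul_smul, mul_add, hcπ]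
    exact JP.ef_per F hD hB hdiam p hv _
  have hs : ∀ z : W, ¬ 0 ≤ (inner ℝ S.e z : ℝ) → 0 ≤ (inner ℝ S.e (-z) : ℝ) := fun z hz => by
    rw [inner_neg_right]
    linarith [not_le.1 hz]
  have hneg : JP.jj S G = fun z => JP.jj S G (-z) := funext fun z => (JP.jj_neg S hG z).symm
  have sm1 : ∀ y : W, y ≠ 0 → 0 ≤ (inner ℝ S.e y : ℝ) →
      ContMDiffAt 𝓘(ℝ, W) 𝓘(ℝ, E) ∞ (JP.jj S G) y := by
    intro y hy h
    have h1 := JP.mem_dom S hy h
    have h2 : ContDiffAt ℝ ∞ (fun z => c • L z) y := (hL.sm y h1).const_smul c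
    exact ((CV.contMDiff_ef F.isExp p _).comp y h2.contMDiffAt).congr_of_eventuallyEq
      (hL.jj_eq hG h1)
  have sm2 : ∀ y : W, y ≠ 0 → ContMDiffAt 𝓘(ℝ, W) 𝓘(ℝ, E) ∞ (JP.jj S G) y := by
    intro y hy
    by_cases h : 0 ≤ (inner ℝ S.e y : ℝ)
    · exact sm1 y hy h
    · rw [hneg]
      exact (sm1 (-y) (neg_ne_zero.2 hy) (hs y h)).comp y
        (contDiff_neg (𝕜 := ℝ)).contMDiff.contMDiffAt
  have im1 : ∀ y h : W, y ≠ 0 → 0 ≤ (inner ℝ S.e y : ℝ) → (inner ℝ y h : ℝ) = 0 →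
      (CV.dF (JP.jj S G) y h : E) = 0 → h = 0 := by
    intro y h hy h0 h1 h2
    have h3 := JP.mem_dom S hy h0
    have h4 : HasFDerivAt (fun z => c • L z) (c • fderiv ℝ L y) y :=
      ((hL.sm y h3).differentiableAt (by simp)).hasFDerivAt.const_smul c
    rw [CV.dF_congr (hL.jj_eq hG h3),
      CV.dF_comp (G := ef e p) (CV.contMDiff_ef F.isExp p _) h4, CV.mfderiv_ef F.isExp] at h2
    have h5 := JP.dEf_inj F hD hB hk p (hle _ (hL.le_half hy h0)) h2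
    exact hL.inj h3 h1 ((smul_eq_zero.1 h5).resolve_left hc0.ne')
  refine ⟨JP.jj S G, ⟨?_, fun y t ht => JP.jj_smul S G y ht, fun ξ => ?_, ?_⟩, JP.jj_neg S hG,
    fun y y' hy hy' h => JP.jj_fib S hG ?_ hy hy' h⟩
  · intro A _ _ _ u x hu
    have h1 : Sm u x := hu.1
    have h2 : ∀ᶠ z in 𝓝 x, u z ≠ 0 := hu.2
    filter_upwards [h1, h2] with z k1 k2
    exact (sm2 (u z) k2).comp z k1.contMDiffAt
  · rw [JP.jj_rot S hG]
    change ef e p (c • c⁻¹ • ξ) = _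
    rw [smul_inv_smul₀ hc0.ne']
  · intro y h hy h1 h2
    have hy0 : y ≠ 0 := norm_ne_zero_iff.1 (by rw [hy]; exact one_ne_zero)
    by_cases h0 : 0 ≤ (inner ℝ S.e y : ℝ)
    · exact im1 y h hy0 h0 h1 h2
    · rw [hneg, CV.dF_comp (G := JP.jj S G) (j := fun z : W => -z) (sm2 _ (neg_ne_zero.2 hy0))
        (hasFDerivAt_id y).neg] at h2
      exact neg_eq_zero.1 (im1 (-y) (-h) (neg_ne_zero.2 hy0) (hs y h0)
        (by rw [inner_neg_neg, h1]) h2)
  · intro ξ η h1 h2 h3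
    rcases JP.ef_fib F hD hB hl p (hle ξ h1) (hle η h2) h3 with k | ⟨k, k'⟩
    · exact Or.inl (smul_right_injective _ hc0.ne' k)
    · refine Or.inr ⟨smul_right_injective _ hc0.ne' (k.trans (smul_neg c ξ).symm), ?_⟩
      rw [hn] at k'
      exact mul_left_cancel₀ hc0.ne' (by rw [k']; linarith)

end Geo

end

end Vale.Agent.P231Z.C
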