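import Vale.Agent.P231Z.C.GDefs
import Vale.Agent.P231Z.C.Polar
import Vale.Agent.P231.WD.FirstVar
import Vale.Agent.P231.Co.M3g

/-!
# P231, spheres, the volume: the round sphere parametrises the manifold
-/

set_option linter.unusedSectionVars false
set_option linter.unusedVariables false
set_option maxSynthPendingDepth 3

open Bundle Manifold Set Filter Module
open scoped ContDiff Topology Manifold

namespace Vale.Agent.P231Z.C

noncomputable section

open Vale.Agent.P234 Vale.Agent.P231 Vale.Agent.P231.Fm Vale.Agent.P231.W Vale.Agent.P231.CoC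
open Vale.Agent.P231.S2I (dP)

namespace JS

section Lin

variable {V W : Type} [NormedAddCommGroup V] [InnerProductSpace ℝ V] [FiniteDimensional ℝ V]
  [NormedAddCommGroup W] [InnerProductSpace ℝ W] [FiniteDimensional ℝ W]

/-- the splitting with the opposite vector -/
def flip (S : Spl V W) : Spl V W where
  e := -S.e
  i := S.i
  pr := S.pr
  he := by rw [norm_neg, S.he]
  ort v := by rw [inner_neg_left, S.ort, neg_zero]
  pri := S.pri
  pre := by rw [S.pr.map_neg, S.pre, neg_zero]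
  dec w := by
    rw [inner_neg_left, neg_smul_neg]
    exact S.dec w

theorem ang_flip (S : Spl V W) (y : W) : (flip S).ang y = Real.pi - S.ang y := by
  rw [Spl.ang, Spl.ang, ← Real.arccos_neg, ← neg_div, ← inner_neg_left]
  rfl

theorem off_ray (S : Spl V W) {y : W} (h : S.pr y ≠ 0 ∨ 0 < (inner ℝ S.e y : ℝ)) (t : ℝ)
    (ht : 0 ≤ t) : y ≠ -t • S.e := by
  rintro rfl
  rw [map_smul, S.pre, smul_zero, real_inner_smul_right, S.inner_e_e] at h
  rcases h with h | h
  · exact h rfl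
  · linarith

theorem of_off (S : Spl V W) {y : W} (h : ∀ t : ℝ, 0 ≤ t → y ≠ -t • S.e) :
    S.pr y ≠ 0 ∨ 0 < (inner ℝ S.e y : ℝ) := by
  by_contra k
  push Not at k
  refine h (-inner ℝ S.e y) (by linarith [k.2]) ?_
  rw [neg_neg]
  have h1 := S.dec y
  rwa [k.1, map_zero, add_zero] at h1

theorem ev_off (S : Spl V W) {y : W} (h : S.pr y ≠ 0 ∨ 0 < (inner ℝ S.e y : ℝ)) :
    ∀ᶠ z in 𝓝 y, S.pr z ≠ 0 ∨ 0 < (inner ℝ S.e z : ℝ) := by
  rcases h with h | h
  · exact (S.pr.continuous.continuousAt.eventually_ne h).mono fun z hz => Or.inl hz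
  · exact ((continuous_const.inner continuous_id).continuousAt.eventually
      (lt_mem_nhds h)).mono fun z hz => Or.inr hz

end Lin

variable {E : Type*} [NormedAddCommGroup E] [NormedSpace ℝ E]
  {M : Type*} [MetricSpace M] [ChartedSpace E M]
  [RiemannianBundle (fun x : M => TangentSpace 𝓘(ℝ, E) x)]
  {e : ∀ x : M, TangentSpace 𝓘(ℝ, E) x → M}
  [FiniteDimensional ℝ E] [IsManifold 𝓘(ℝ, E) ∞ M]
  [IsContMDiffRiemannianBundle 𝓘(ℝ, E) ∞ E (fun x : M => TangentSpace 𝓘(ℝ, E) x)]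
  [CompactSpace M] [ConnectedSpace M] [IsRiemannianManifold 𝓘(ℝ, E) M]
  {W : Type} [NormedAddCommGroup W] [InnerProductSpace ℝ W] [FiniteDimensional ℝ W]

theorem ef_eq (p : M) (t : ℝ) (v : Eu E) :
    ef e p (t • v) = e p (t • fI (E := E) p v) := congrArg (e p) ((fI (E := E) p).map_smul t v)

/-- the antipode -/
theorem exists_anti (F : Facts e) {D : ℝ} (hD : 0 < D) (hB : InjGE e D)
    (hdiam : ∀ p q : M, dist p q ≤ D) {N : ℕ} (hN : finrank ℝ E = N + 1)
    (hl : ∀ x y : M, dist x y = D → finrank ℝ (H775.Pl e D x y) = N + 1) (p : M) {v₀ : Eu E}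
    (h0 : ‖v₀‖ = 1) : ∃ (q : M) (A : Eu E →ₗᵢ[ℝ] Eu E), dist p q = D ∧ ∀ v, ‖v‖ = 1 → ∀ s : ℝ,
      ef e p (s • v) = ef e q ((s - D) • A v) := by
  have h1 : ‖D • fI (E := E) p v₀‖ = D := by
    rw [norm_smul, LinearIsometryEquiv.norm_map, h0, mul_one, Real.norm_of_nonneg hD.le]
  have h2 : dist p (e p (D • fI (E := E) p v₀)) = D := (hB p _ h1.le).trans h1
  generalize e p (D • fI (E := E) p v₀) = q at h2
  obtain ⟨T, hT⟩ := WD2.exists_Tt F hD hB hdiam h2
  have hfd : FiniteDimensional ℝ (TangentSpace 𝓘(ℝ, E) p) :=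
    inferInstanceAs (FiniteDimensional ℝ E)
  have h3 : H703.Pl e D q p = ⊤ :=
    Submodule.eq_top_of_finrank_eq ((hl q p (by rw [dist_comm, h2])).trans hN.symm)
  let I : Eu E →ₗᵢ[ℝ] H703.Pl e D q p :=
    ⟨(fI (E := E) p).toLinearEquiv.toLinearMap.codRestrict _ fun a => h3 ▸ Submodule.mem_top,
      fun a => (fI (E := E) p).norm_map a⟩
  refine ⟨q, (fI (E := E) q).symm.toLinearIsometry.comp ((H703.Pl e D p q).subtypeₗᵢ.comp
    (T.toLinearIsometry.comp I)), h2, fun v hv s => ?_⟩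
  rw [ef_eq, ef_eq]
  refine (hT (I v) ((I.norm_map v).trans hv) s).trans ?_
  exact congrArg (fun a => e q ((s - D) • a)) ((fI (E := E) q).apply_symm_apply _).symm

/-- one half of the parametrisation -/
theorem half (F : Facts e) {D : ℝ} (hB : InjGE e D) (p : M) (S : Spl (Eu E) W)
    (A : Eu E →L[ℝ] Eu E) {c : ℝ} (hc : 0 < c) (hcD : c * Real.pi = D)
    (hA : ∀ v, ‖A v‖ = c * ‖v‖) {j : W → M}
    (hj : ∀ y, S.pr y ≠ 0 ∨ 0 < (inner ℝ S.e y : ℝ) → j y = ef e p (A (S.pol y))) :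
    (∀ y, S.pr y ≠ 0 ∨ 0 < (inner ℝ S.e y : ℝ) → ContMDiffAt 𝓘(ℝ, W) 𝓘(ℝ, E) ∞ j y) ∧
    ∀ y, ‖y‖ = 1 → y ≠ -S.e → ‖A (S.pol y)‖ < D ∧ j y = ef e p (A (S.pol y)) ∧
      ∀ h, (inner ℝ y h : ℝ) = 0 → (CV.dF j y h : E) = 0 → h = 0 := by
  have h1 : ∀ y, S.pr y ≠ 0 ∨ 0 < (inner ℝ S.e y : ℝ) →
      j =ᶠ[𝓝 y] fun y => ef e p (A (S.pol y)) := fun y hy => (ev_off S hy).mono hj
  refine ⟨fun y hy => ?_, fun y hy hne => ?_⟩
  · exact ((CV.contMDiff_ef F.isExp p _).comp y (A.contDiff.contDiffAt.comp y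
      (S.contDiffAt_pol (off_ray S hy))).contMDiffAt).congr_of_eventuallyEq (h1 y hy)
  · have h2 := of_off S (S.not_ray hy hne)
    have h3 : ‖A (S.pol y)‖ < D := by
      rw [hA, ← hcD]
      exact mul_lt_mul_of_pos_left (S.pol_spec hy hne).1 hc
    refine ⟨h3, hj y h2, fun h hh h0 => S.fderiv_pol_inj hy hne hh ?_⟩
    have h4 := CV.dF_comp (E := E) (G := ef e p) (j := fun y => A (S.pol y))
      (CV.contMDiff_ef F.isExp p _) (A.hasFDerivAt.comp y
        ((S.contDiffAt_pol (S.not_ray hy hne)).differentiableAt (by simp)).hasFDerivAt) h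
    rw [CV.mfderiv_ef F.isExp, ← CV.dF_congr (h1 y h2), h0] at h4
    have h5 := dE_injective F hB (by rw [nm_fr]; exact h3) h4.symm
    have h6 := hA (fderiv ℝ S.pol y h)
    have h7 : A (fderiv ℝ S.pol y h) = 0 := (fr (E := E) p).map_eq_zero_iff.1 h5
    rw [h7, norm_zero] at h6
    exact norm_eq_zero.1 ((mul_eq_zero.1 h6.symm).resolve_left hc.ne')

end JS

variable {E : Type*} [NormedAddCommGroup E] [NormedSpace ℝ E]
  {M : Type*} [MetricSpace M] [ChartedSpace E M]
  [RiemannianBundle (fun x : M => TangentSpace 𝓘(ℝ, E) x)]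
  {e : ∀ x : M, TangentSpace 𝓘(ℝ, E) x → M}
  [FiniteDimensional ℝ E] [IsManifold 𝓘(ℝ, E) ∞ M]
  [IsContMDiffRiemannianBundle 𝓘(ℝ, E) ∞ E (fun x : M => TangentSpace 𝓘(ℝ, E) x)]
  [CompactSpace M] [ConnectedSpace M] [IsRiemannianManifold 𝓘(ℝ, E) M]
  {W : Type} [NormedAddCommGroup W] [InnerProductSpace ℝ W] [FiniteDimensional ℝ W]

variable (F : Facts e) {D : ℝ} (hD : 0 < D) (hB : InjGE e D) (hdiam : ∀ p q : M, dist p q ≤ D)
  {N : ℕ} (hN : finrank ℝ E = N + 1)

open JS in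
include F hD hB hdiam hN in
theorem exists_j_sph (hl : ∀ x y : M, dist x y = D → finrank ℝ (H775.Pl e D x y) = N + 1)
    (p : M) (S : Spl (Eu E) W) : ∃ j : W → M, Jm e p S (D / Real.pi) j ∧
      ∀ y y' : W, ‖y‖ = 1 → ‖y'‖ = 1 → j y = j y' → y' = y := by
  classical
  have hpi := Real.pi_pos
  have hnt : Nontrivial (Eu E) := Module.nontrivial_of_finrank_pos (R := ℝ) (by
    rw [finrank_euclideanSpace, Fintype.card_fin]; omega)
  obtain ⟨v₀, h0⟩ := exists_norm_eq (Eu E) zero_le_one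
  obtain ⟨q, A, hq, hA⟩ := exists_anti F hD hB hdiam hN hl p h0
  set c := D / Real.pi with hc
  have c0 : 0 < c := by positivity
  have c1 : c * Real.pi = D := div_mul_cancel₀ _ hpi.ne'
  set A₁ : Eu E →L[ℝ] Eu E := c • ContinuousLinearMap.id ℝ (Eu E) with hA₁
  set A₂ : Eu E →L[ℝ] Eu E := (-c) • A.toContinuousLinearMap with hA₂
  have a1 : ∀ v, A₁ v = c • v := fun v => rfl
  have a2 : ∀ v, A₂ v = (-c) • A v := fun v => rfl
  have key : ∀ y, S.pr y ≠ 0 → ef e p (A₁ (S.pol y)) = ef e q (A₂ ((flip S).pol y)) := by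
    intro y hy
    have hd := norm_unit hy
    have b1 : S.pol y = S.ang y • (‖S.pr y‖⁻¹ • S.pr y) := rfl
    have b2 : (flip S).pol y = (Real.pi - S.ang y) • (‖S.pr y‖⁻¹ • S.pr y) := by
      rw [← ang_flip]
      rfl
    rw [a1, a2, b1, b2]
    generalize ‖S.pr y‖⁻¹ • S.pr y = d at hd
    rw [smul_smul, hA d hd, A.map_smul, smul_smul, ← c1]
    congr 2
    ring
  set j : W → M := fun y => if 0 ≤ (inner ℝ S.e y : ℝ) then ef e p (A₁ (S.pol y))
    else ef e q (A₂ ((flip S).pol y)) with hj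
  have i1 : ∀ y, (inner ℝ (flip S).e y : ℝ) = -inner ℝ S.e y := fun y => inner_neg_left _ _
  obtain ⟨k1, k2⟩ := half F hB p S A₁ c0 c1 (j := j)
    (fun v => by rw [a1, norm_smul, Real.norm_of_nonneg c0.le]) fun y hy => by
      by_cases h : 0 ≤ (inner ℝ S.e y : ℝ)
      · exact if_pos h
      · exact (if_neg h).trans (key y (hy.resolve_right fun k => h k.le)).symm
  obtain ⟨k3, k4⟩ := half F hB q (flip S) A₂ c0 c1 (j := j)
    (fun v => by rw [a2, norm_smul, norm_neg, A.norm_map, Real.norm_of_nonneg c0.le])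
    fun y hy => by
      by_cases h : 0 ≤ (inner ℝ S.e y : ℝ)
      · exact (if_pos h).trans (key y (hy.resolve_right fun k => by rw [i1] at k; linarith))
      · exact if_neg h
  have ne : -S.e ≠ -(flip S).e := fun h => by
    have h1 := congrArg (fun a => (inner ℝ S.e a : ℝ)) h
    change (inner ℝ S.e (-S.e) : ℝ) = inner ℝ S.e (- -S.e) at h1
    rw [neg_neg, inner_neg_right, S.inner_e_e] at h1
    linarith
  have je : j (-S.e) = q := by
    rw [(k4 _ (by rw [norm_neg, S.he]) ne).2.1, Spl.pol]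
    have h1 : (flip S).pr (-S.e) = 0 := (flip S).pre
    rw [h1, smul_zero, smul_zero, map_zero]
    exact (congrArg (e q) (map_zero (fI (E := E) q))).trans (WE.exp_zero_eq F.isExp q)
  have dj : ∀ y, ‖y‖ = 1 → y ≠ -S.e → dist p (j y) < D := fun y hy hne => by
    obtain ⟨h1, h2, -⟩ := k2 y hy hne
    have h3 : ‖fI (E := E) p (A₁ (S.pol y))‖ < D := by rwa [LinearIsometryEquiv.norm_map]
    rw [h2]
    exact (hB p _ h3.le).trans_lt h3
  have ray : ∀ v : Eu E, ‖v‖ = 1 → ∀ r ∈ Ioc (-D) D,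
      j (S.rot ((r / c) • v) S.e) = ef e p (r • v) := fun v hv r hr => by
    rcases hr.2.lt_or_eq with h | h
    · have h1 : (r / c) • v ∈ Metric.ball (0 : Eu E) Real.pi := by
        rw [mem_ball_zero_iff, norm_smul, hv, mul_one, norm_div, Real.norm_of_nonneg c0.le,
          div_lt_iff₀ c0, mul_comm, c1]
        exact abs_lt.2 ⟨hr.1, h⟩
      have h2 : ‖S.rot ((r / c) • v) S.e‖ = 1 := by rw [S.norm_rot, S.he]
      have h3 : S.rot ((r / c) • v) S.e ≠ -S.e := fun k => by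
        have k1 := S.inner_e_rot ((r / c) • v)
        rw [k, inner_neg_right, S.inner_e_e, ← Real.cos_pi] at k1
        exact (mem_ball_zero_iff.1 h1).ne
          (Real.injOn_cos ⟨norm_nonneg _, (mem_ball_zero_iff.1 h1).le⟩ ⟨hpi.le, le_rfl⟩ k1.symm)
      have h4 := S.pol_spec h2 h3
      rw [(k2 _ h2 h3).2.1, S.injOn_rot (mem_ball_zero_iff.2 h4.1) h1 h4.2, a1, smul_smul,
        mul_div_cancel₀ _ c0.ne']
    · rw [S.rot_pi (by
        rw [norm_smul, hv, mul_one, h, ← c1, mul_div_cancel_left₀ _ c0.ne',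
          Real.norm_of_nonneg hpi.le]), je, hA v hv, h, sub_self, zero_smul]
      exact ((congrArg (e q) (map_zero (fI (E := E) q))).trans (WE.exp_zero_eq F.isExp q)).symm
  refine ⟨j, ⟨fun {V} _ _ _ {u x} h => ?_, fun y t ht => ?_, fun ξ => ?_, fun y h hy hh h0 => ?_⟩,
    fun y y' hy hy' h => ?_⟩
  · have h1 : Sm u x := h.1
    filter_upwards [h1, h.2] with y l1 l2
    refine ContMDiffAt.comp y ?_ l1.contMDiffAt
    by_cases l3 : S.pr (u y) ≠ 0 ∨ 0 < (inner ℝ S.e (u y) : ℝ)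
    · exact k1 _ l3
    · push Not at l3
      refine k3 _ (Or.inr ?_)
      rw [i1, neg_pos]
      refine lt_of_le_of_ne l3.2 fun l4 => l2 ?_
      have l5 := S.dec (u y)
      rwa [l3.1, l4, map_zero, add_zero, zero_smul] at l5
  · simp only [hj, S.pol_smul y ht, (flip S).pol_smul y ht, real_inner_smul_right,
      mul_nonneg_iff_of_pos_left ht]
  · obtain ⟨v, hv, h1⟩ : ∃ v : Eu E, ‖v‖ = 1 ∧ ξ = ‖ξ‖ • v := by
      rcases eq_or_ne ξ 0 with h | h
      · exact ⟨v₀, h0, by rw [h, norm_zero, zero_smul]⟩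
      · exact ⟨_, norm_unit h, by
          rw [smul_smul, mul_inv_cancel₀ (norm_ne_zero_iff.2 h), one_smul]⟩
    generalize ‖ξ‖ = r at h1
    subst h1
    have h2 : (0 : ℝ) < 2 * D := by positivity
    have h3 := toIocMod_mem_Ioc h2 (-D) r
    rw [show -D + 2 * D = D by ring] at h3
    have h4 := ray v hv _ h3
    have h5 : Function.Periodic (fun t : ℝ => ef e p (t • v)) (2 * D) := fun t => by
      have l1 := gam_per F hD.le (closed_of_inj_diam F hD hB hdiam) p (fr p v : E)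
        (by rw [nm_fr, hv]) t
      simp only [ef_eq]
      exact l1
    have h6 : Function.Periodic (fun t : ℝ => S.rot ((t / c) • v) S.e) (2 * D) := fun t => by
      have l1 : (t + 2 * D) / c = t / c + 2 * Real.pi := by
        rw [← c1]
        field_simp
      simp only [S.rot_e hv, l1, Real.cos_add_two_pi, Real.sin_add_two_pi]
    have h7 := h5.sub_zsmul_eq (x := r) (toIocDiv h2 (-D) r)
    have h8 := h6.sub_zsmul_eq (x := r) (toIocDiv h2 (-D) r)
    rw [toIocMod] at h4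
    rw [h7, h8] at h4
    rw [smul_smul, mul_comm, ← div_eq_mul_inv, h4]
  · by_cases l : y = -S.e
    · exact (k4 y hy (l ▸ ne)).2.2 h hh h0
    · exact (k2 y hy l).2.2 h hh h0
  · by_cases l : y = -S.e <;> by_cases l' : y' = -S.e
    · rw [l, l']
    · have l1 := dj y' hy' l'
      rw [← h, l, je, hq] at l1
      exact absurd l1 (lt_irrefl _)
    · have l1 := dj y hy l
      rw [h, l', je, hq] at l1
      exact absurd l1 (lt_irrefl _)
    · obtain ⟨l1, l2, -⟩ := k2 y hy l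
      obtain ⟨l3, l4, -⟩ := k2 y' hy' l'
      rw [l2, l4] at h
      have l5 := WE.logMap_exp F hB (p := p) (v := fI (E := E) p (A₁ (S.pol y)))
        (by rwa [LinearIsometryEquiv.norm_map])
      have l6 := WE.logMap_exp F hB (p := p) (v := fI (E := E) p (A₁ (S.pol y')))
        (by rwa [LinearIsometryEquiv.norm_map])
      have l7 := (fI (E := E) p).injective
        (l5.symm.trans ((congrArg (logMap e p) h).trans l6))
      rw [a1, a1] at l7
      rw [← (S.pol_spec hy l).2, ← (S.pol_spec hy' l').2,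
        smul_right_injective _ c0.ne' l7]

end

end Vale.Agent.P231Z.C
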