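import Vale.Agent.P231.Final.Defs
import Mathlib.Analysis.SpecialFunctions.Integrals.Basic
import Mathlib.Analysis.SpecialFunctions.Gamma.BohrMollerup
import Mathlib.Analysis.SpecialFunctions.Gaussian.GaussianIntegral

/-!
# P231, spheres and real projective spaces, the volume: the constants
-/

namespace Vale.Agent.P231Z.C

noncomputable section

open Vale.Agent.P231

/-- the volume of the unit sphere of dimension `N` -/
def omS (N : ℕ) : ℝ := 2 * √Real.pi ^ (N + 1) / Real.Gamma (((N : ℝ) + 1) / 2)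

theorem omS_pos (N : ℕ) : 0 < omS N := by
  have h1 : 0 < Real.Gamma (((N : ℝ) + 1) / 2) := Real.Gamma_pos_of_pos (by positivity)
  have h2 := Real.pi_pos
  unfold omS
  positivity

theorem omS_zero : omS 0 = 2 := by
  have h2 : √Real.pi ≠ 0 := (Real.sqrt_pos.2 Real.pi_pos).ne'
  unfold omS
  rw [Nat.cast_zero, zero_add, zero_add, Real.Gamma_one_half_eq, pow_one]
  field_simp

theorem omS_one : omS 1 = 2 * Real.pi := by
  unfold omS
  rw [Nat.cast_one, add_self_div_two, Real.Gamma_one, Real.sq_sqrt Real.pi_pos.le, div_one]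

theorem omS_two (N : ℕ) : omS (N + 2) = 2 * Real.pi / ((N : ℝ) + 1) * omS N := by
  have h1 : 0 < Real.Gamma (((N : ℝ) + 1) / 2) := Real.Gamma_pos_of_pos (by positivity)
  have h2 : (((N + 2 : ℕ) : ℝ) + 1) / 2 = ((N : ℝ) + 1) / 2 + 1 := by push_cast; ring
  have h3 : √Real.pi ^ (N + 2 + 1) = √Real.pi ^ (N + 1) * Real.pi := by
    rw [show N + 2 + 1 = N + 1 + 2 by ring, pow_add, Real.sq_sqrt Real.pi_pos.le]
  unfold omS
  rw [h2, Real.Gamma_add_one (by positivity), h3]
  field_simp

theorem omS_key {b k : ℝ} (h0 : Real.sin b * Real.cos b = 0) (h1 : 2 * b = k * Real.pi)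
    (h2 : 1 - Real.cos b = k) (N : ℕ) :
    (N.factorial : ℝ) * omS N ^ 2 * ∫ x in (0 : ℝ)..b, Real.sin x ^ N
      = k * (2 * Real.pi) ^ (N + 1) := by
  induction N using Nat.twoStepInduction with
  | zero =>
    rw [omS_zero]
    simp only [Nat.factorial_zero, Nat.cast_one, pow_zero, intervalIntegral.integral_const,
      smul_eq_mul]
    linear_combination 2 * h1
  | one =>
    rw [omS_one]
    simp only [Nat.factorial_one, Nat.cast_one, pow_one, integral_sin, Real.cos_zero]
    rw [h2]
    ring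
  | more N ih _ =>
    have h3 : Real.sin b ^ (N + 1) * Real.cos b = 0 := by
      rw [pow_succ, mul_assoc, h0, mul_zero]
    rw [integral_sin_pow, h3, omS_two, Real.sin_zero, zero_pow (Nat.succ_ne_zero N),
      Nat.factorial_succ, Nat.factorial_succ, pow_succ _ (N + 2), pow_succ _ (N + 1),
      ← mul_assoc k, ← mul_assoc k, ← ih]
    push_cast
    field_simp
    ring

theorem num_sph (N : ℕ) {D : ℝ} (hD : 0 < D) : 2 * (2 * D) ^ (N + 1) /
    ((N.factorial : ℝ) * (2 * √Real.pi ^ (N + 1) / Real.Gamma (((N : ℝ) + 1) / 2))) =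
      Blaschke.modelVolume N N D := by
  have hπ := Real.pi_pos
  have h := omS_key (b := Real.pi) (k := 2) (by simp) rfl (by rw [Real.cos_pi]; norm_num) N
  have h1 : ∀ r : ℝ, (2 * D / Real.pi * Real.sin (Real.pi * r / (2 * D))) ^ N *
      Real.cos (Real.pi * r / (2 * D)) ^ N
      = (D / Real.pi) ^ N * Real.sin (Real.pi / D * r) ^ N := by
    intro r
    have e : Real.pi / D * r = 2 * (Real.pi * r / (2 * D)) := by field_simp
    rw [e, Real.sin_two_mul, ← mul_pow, ← mul_pow]
    congr 1
    ring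
  have h2 := intervalIntegral.integral_comp_mul_left (a := 0) (b := D)
    (fun x => Real.sin x ^ N) (c := Real.pi / D) (by positivity)
  rw [mul_zero, div_mul_cancel₀ _ hD.ne'] at h2
  have h3 := omS_pos N
  have h4 : (0 : ℝ) < N.factorial := by exact_mod_cast N.factorial_pos
  change 2 * (2 * D) ^ (N + 1) / (N.factorial * omS N) = omS N * _
  simp only [h1]
  rw [intervalIntegral.integral_const_mul, h2, div_eq_iff (by positivity), smul_eq_mul]
  have h5 : (2 * D) ^ (N + 1) = (D / Real.pi) ^ N * (Real.pi / D)⁻¹ * (2 * Real.pi) ^ (N + 1) := by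
    rw [inv_div, ← pow_succ, ← mul_pow]
    congr 1
    field_simp
  rw [h5]
  linear_combination (-(D / Real.pi) ^ N * (Real.pi / D)⁻¹) * h

theorem num_proj (N : ℕ) {D : ℝ} (hD : 0 < D) : 2 ^ (N + 1) * (2 * D) ^ (N + 1) /
    ((N.factorial : ℝ) * (2 * √Real.pi ^ (N + 1) / Real.Gamma (((N : ℝ) + 1) / 2))) =
      Blaschke.modelVolume N 0 D := by
  have hπ := Real.pi_pos
  have h := omS_key (b := Real.pi / 2) (k := 1) (by simp) (by ring)
    (by rw [Real.cos_pi_div_two]; norm_num) N
  have h1 : ∀ r : ℝ, (2 * D / Real.pi * Real.sin (Real.pi * r / (2 * D))) ^ N *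
      Real.cos (Real.pi * r / (2 * D)) ^ 0
      = (2 * D / Real.pi) ^ N * Real.sin (Real.pi / (2 * D) * r) ^ N := by
    intro r
    have e : Real.pi / (2 * D) * r = Real.pi * r / (2 * D) := by field_simp
    rw [e, pow_zero, mul_one, mul_pow]
  have h2 := intervalIntegral.integral_comp_mul_left (a := 0) (b := D)
    (fun x => Real.sin x ^ N) (c := Real.pi / (2 * D)) (by positivity)
  have e2 : Real.pi / (2 * D) * D = Real.pi / 2 := by field_simp
  rw [mul_zero, e2] at h2
  have h3 := omS_pos N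
  have h4 : (0 : ℝ) < N.factorial := by exact_mod_cast N.factorial_pos
  change 2 ^ (N + 1) * (2 * D) ^ (N + 1) / (N.factorial * omS N) = omS N * _
  simp only [h1]
  rw [intervalIntegral.integral_const_mul, h2, div_eq_iff (by positivity), smul_eq_mul]
  have h5 : 2 ^ (N + 1) * (2 * D) ^ (N + 1)
      = (2 * D / Real.pi) ^ N * (Real.pi / (2 * D))⁻¹ * (2 * Real.pi) ^ (N + 1) := by
    rw [inv_div, ← pow_succ, ← mul_pow, ← mul_pow]
    congr 1
    field_simp
  rw [h5]
  linear_combination (-(2 * D / Real.pi) ^ N * (Real.pi / (2 * D))⁻¹) * h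

end

end Vale.Agent.P231Z.C
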