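import Vale.Agent.P231Z.C.Model
import Vale.Agent.P231Z.C.Flow
import Vale.Agent.P231Z.C.JSph
import Vale.Agent.P231Z.C.Cov
import Vale.Agent.P231Z.C.Num
import Vale.Agent.P231Z.Cov.Main

/-!
# P231, spheres and real projective spaces: the volume inequality
-/

set_option linter.unusedSectionVars false
set_option linter.unusedVariables false
set_option maxSynthPendingDepth 3

open Bundle Manifold Set Filter Module MeasureTheory Metric
open scoped ContDiff Topology Manifold

namespace Vale.Agent.P231Z.C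

noncomputable section

open Vale.Agent.P234 Vale.Agent.P231 Vale.Agent.P231.Fm Vale.Agent.P231.W Vale.Agent.P231.H584
  Vale.Agent.P231.WG

section Path

variable {W : Type} [NormedAddCommGroup W] [InnerProductSpace ℝ W] [FiniteDimensional ℝ W]

theorem at_const_St {V : Type} [NormedAddCommGroup V] [NormedSpace ℝ V] [FiniteDimensional ℝ V]
    (x : St W) (y : V) : (dSt W).At (fun _ : V => x) y :=
  Sm.of_contDiff (g := fun _ : V => x.1) contDiff_const y

/-- the orbits of a smooth map on the cylinder are continuous -/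
theorem continuous_orbit {Φ : St W × ℝ → St W}
    (hΦ : ((dSt W).prod (Dif.lin ℝ)).Map (dSt W) Φ) (x : St W) {g : ℝ → ℝ}
    (hg : ContDiff ℝ ∞ g) : Continuous fun t => Φ (x, g t) := by
  refine continuous_induced_rng.2 (continuous_iff_continuousAt.2 fun t => ?_)
  have h1 : ((dSt W).prod (Dif.lin ℝ)).At (fun t => (x, g t)) t :=
    ⟨at_const_St x t, Sm.of_contDiff hg t⟩
  have h2 : Sm (Subtype.val ∘ Φ ∘ fun t => (x, g t)) t := hΦ h1
  exact h2.continuousAt

end Path

variable {E : Type*} [NormedAddCommGroup E] [NormedSpace ℝ E]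
  {M : Type*} [MetricSpace M] [ChartedSpace E M]
  [RiemannianBundle (fun x : M => TangentSpace 𝓘(ℝ, E) x)]
  {e : ∀ x : M, TangentSpace 𝓘(ℝ, E) x → M}
  [FiniteDimensional ℝ E] [IsManifold 𝓘(ℝ, E) ∞ M]
  [IsContMDiffRiemannianBundle 𝓘(ℝ, E) ∞ E (fun x : M => TangentSpace 𝓘(ℝ, E) x)]
  [CompactSpace M] [ConnectedSpace M] [IsRiemannianManifold 𝓘(ℝ, E) M]
  {W : Type} [NormedAddCommGroup W] [InnerProductSpace ℝ W] [FiniteDimensional ℝ W]

/-- the contact form vanishes where the foot is constant -/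
theorem res_alpha {u : St W → UT E M} (hu : (dSt W).Map (dUT E M) u) {O : Set (St W)} {q : M}
    (hq : ∀ x ∈ O, foot (u x) = q) : Form.res O (Form.pull u hu (CV.alpha E M)) = 0 :=
  Form.ext_val fun V _ _ _ v x h => by
    have h1 : (dUT E M).At (u ∘ v) x := hu h.1
    rw [Form.res_val _ h, Form.pull_val hu _ h.1, CV.alpha_val h1, Form.zero_val]
    have h2 : CV.acov (u ∘ v) x = 0 := by
      refine ContinuousLinearMap.ext fun ζ => ?_
      have h3 : (fun y => foot ((u ∘ v) y)) =ᶠ[𝓝 x] fun _ => q :=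
        h.2.mono fun y hy => hq _ hy
      have h4 : (CV.dF (fun _ : V => q) x ζ : E) = 0 := by
        change mfderiv 𝓘(ℝ, V) 𝓘(ℝ, E) (fun _ : V => q) x ζ = 0
        rw [mfderiv_const]
        rfl
      rw [CV.acov_apply, CV.dF_congr h3, h4]
      exact inner_zero_right (𝕜 := ℝ) (E := TangentSpace 𝓘(ℝ, E) (foot ((u ∘ v) x))) _
    rw [h2, map_zero]

/-- the two fundamental cycles agree -/
theorem IM_pull {p : M} (S : Spl (Eu E) W) (x0 : St W) {c R D' : ℝ} (hc : Real.pi * c = D')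
    {u : St W → UT E M} (hu : (dSt W).Map (dUT E M) u) (X : Fr e p R) (v0 : UT E M)
    (hX : ∀ z : Eu E × Eu E, ‖z.1‖ < R → z.2 ≠ 0 → cc X v0 z = u (ccM S x0 c z)) {k : ℕ}
    (o : OrthonormalBasis (Fin k) ℝ (Eu E)) {r : Eu E → ℝ} {K : Set (Eu E)} (hr : Q.Cut r K)
    (hDR : D' < R) (w : Form (dUT E M)) :
    IM S x0 o.toBasis c r (Form.pull u hu w) = II X v0 o.toBasis hr hDR w := by
  rw [II_apply, IM, o.addHaar_eq_volume, hc]
  refine setIntegral_congr_fun measurableSet_ball fun ξ hξ => ?_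
  have hξ' : ‖ξ‖ < R := (mem_ball_zero_iff.1 hξ).trans hDR
  have h1 : Q.phi volume o.toBasis r ((Form.pull u hu w).val (ccM S x0 c)) ξ =
      th X v0 o.toBasis r w ξ := by
    refine integral_congr_ae (Eventually.of_forall fun y => ?_)
    change slice _ (Q.cw r ((Form.pull u hu w).val (ccM S x0 c)) (ξ, y)) =
      slice _ (Q.cw r (w.val (cc X v0)) (ξ, y))
    by_cases hy : y = 0
    · subst hy
      rw [(Q.cw_near hr _ ξ).self_of_nhds, (Q.cw_near hr _ ξ).self_of_nhds]
    · have h2 : cc X v0 =ᶠ[𝓝 (ξ, y)] u ∘ ccM S x0 c := by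
        filter_upwards [(isOpen_dom (E := E) R).mem_nhds
          (show (ξ, y) ∈ ball (0 : Eu E) R ×ˢ ({0}ᶜ : Set (Eu E)) from
            ⟨mem_ball_zero_iff.2 hξ', hy⟩)] with z hz
        exact hX z (mem_ball_zero_iff.1 hz.1) hz.2
      rw [Q.cw, Q.cw, Form.pull_val hu w (at_ccM S x0 c (z := (ξ, y)) hy),
        w.congr (at_cc X v0 (z := (ξ, y)) hξ' hy) h2]
  change evalForm (Q.phi volume o.toBasis r ((Form.pull u hu w).val (ccM S x0 c)) ξ) _ = _
  rw [h1]

variable (F : Facts e) {D : ℝ} (hD : 0 < D) (hB : InjGE e D) (hdiam : ∀ p q : M, dist p q ≤ D)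
  {N : ℕ} (hN : finrank ℝ E = N + 1)

include hN in
/-- the bound of the contact volume from a covering by the orthonormal pairs -/
theorem core (h1 : 1 ≤ N) {p : M} (S : Spl (Eu E) W) {c D' : ℝ} (hc : 0 < c)
    (hD' : Real.pi * c = D') {u : St W → UT E M} (hu : Cov (dUT E M) u) {j : W → M}
    (hf : ∀ x, foot (u x) = j x.1.1)
    (hX : ∀ (R : ℝ) (x0 : St W) (v0 : UT E M), ∃ X : Fr e p R, ∀ z : Eu E × Eu E, ‖z.1‖ < R →
      z.2 ≠ 0 → cc X v0 z = u (ccM S x0 c z))
    (hm : ∀ x : St W, x.1.1 = S.e → ∀ t : ℝ, u (mf (x, t / c)) = phi F (u x, t))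
    {Φ : St W × ℝ → St W} (hΦ : IsFlow (dSt W) (2 * D') Φ)
    (hl : ∀ x t, u (Φ (x, t)) = phi F (u x, t)) (o : OrthonormalBasis (Fin (N + 1)) ℝ (Eu E)) :
    ∃ (X : Fr e p (D' + 1)) (v0 : UT E M) (r : Eu E → ℝ) (K : Set (Eu E)) (hr : Q.Cut r K),
      |II X v0 o.toBasis hr (lt_add_one D') (CV.alpha E M * (CV.alpha E M).d ^ N)| ≤
        2 * (2 * D') ^ (N + 1) := by
  have hnt : Nontrivial E := nontrivial_of_finrank_pos (R := ℝ) (by omega)
  have hpi := Real.pi_pos
  obtain ⟨v0, -⟩ := S2II.exists_foot (E := E) p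
  obtain ⟨x0, -⟩ := hu.surj v0
  obtain ⟨X, hX⟩ := hX (D' + 1) x0 v0
  have hT : 0 < 2 * D' := by rw [← hD']; positivity
  have hα : Form.pull Φ hΦ.map (Form.pull u hu.map (CV.alpha E M)) =
      pr (Form.pull u hu.map (CV.alpha E M)) + dt := by
    have h0 : ((dSt W).prod (Dif.lin ℝ)).Map (dUT E M) (fun q => phi F (u q.1, q.2)) :=
      fun h => map_phi F (map_cyl hu.map h)
    rw [pull_pull hΦ.map hu.map h0 (fun q => hl _ _), ← pull_pull (map_cyl hu.map) (map_phi F) h0
      (fun q => rfl), CV.pull_phi_alpha F]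
    refine (map_add (Form.pullA _ (map_cyl hu.map)) (pr (CV.alpha E M)) dt).trans ?_
    congr 1
    · exact pull_pr hu.map _
    · exact pull_dt hu.map
  have hαN : (Form.pull u hu.map (CV.alpha E M)).d ^ (N + 1) = 0 := by
    have h2 : WA.DimLE (dUT E M) (2 * N + 1) := L.dimLE_bridge (WF.dimLE_UT E M hN)
    have h3 : (CV.alpha E M).d ^ (N + 1) = 0 := h2.pow_eq_zero (by omega) CV.isDeg_alpha.d
    rw [← Form.pull_d]
    refine (map_pow (Form.pullA u hu.map) _ _).symm.trans ?_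
    rw [h3, map_zero]
  have hU : ∀ x : St W, x.1.1 = S.e → ∀ t, (Φ (x, t)).1.1 =
      Real.cos (2 * Real.pi * t / (2 * D')) • S.e +
        Real.sin (2 * Real.pi * t / (2 * D')) • x.1.2 := fun x hx t => by
    have h2 := lift_unique hu (γ := fun t => Φ (x, t)) (γ' := fun t => mf (x, t / c))
      (continuous_orbit hΦ.map x contDiff_id)
      (continuous_orbit map_mf x (contDiff_id.div_const c))
      (by simp only [zero_div]; rw [hΦ.zero, mf_zero]) (fun t => by rw [hl, hm x hx])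
    have h3 : Φ (x, t) = mf (x, t / c) := congrFun h2 t
    have h4 : 2 * Real.pi * t / (2 * D') = t / c := by
      rw [← hD']
      field_simp
    rw [h3, mf_val, h4, hx]
  obtain ⟨r, K, hr, hb⟩ := model S h1 o.toBasis x0 hc hT hΦ hα hαN hU
    (res_alpha hu.map (q := j S.e) fun x hx => by rw [hf, show x.1.1 = S.e from hx])
  refine ⟨X, v0, r, K, hr, ?_⟩
  rw [← IM_pull S x0 hD' hu.map X v0 hX o hr]
  have h5 : Form.pull u hu.map (CV.alpha E M * (CV.alpha E M).d ^ N) =
      Form.pull u hu.map (CV.alpha E M) * (Form.pull u hu.map (CV.alpha E M)).d ^ N := by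
    rw [← Form.pull_d]
    refine (map_mul (Form.pullA u hu.map) _ _).trans ?_
    rw [map_pow]
    rfl
  rwa [h5]

variable [MeasurableSpace M] [BorelSpace M]

include F hD hB hdiam hN in
theorem volume_sph (h1 : 1 ≤ N)
    (hl : ∀ x y : M, dist x y = D → finrank ℝ (H775.Pl e D x y) = N + 1) :
    Blaschke.riemannianVolume (N + 1) M univ ≤
      ENNReal.ofReal (Blaschke.modelVolume N N D) := by
  have hpi := Real.pi_pos
  obtain ⟨p⟩ : Nonempty M := inferInstance
  obtain ⟨S⟩ := exists_spl' (Eu E)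
  have hc : 0 < D / Real.pi := by positivity
  obtain ⟨j, hj, hi⟩ := exists_j_sph F hD hB hdiam hN hl p S
  obtain ⟨u, hu, hf, h2, -, hX, hm⟩ := exists_cov F hc hj (Or.inl hi)
  obtain ⟨Φ, hΦ, hΦu⟩ := lift_flow_one hu (h2 hi) (isFlow_phi F hD hB hdiam)
  let o : OrthonormalBasis (Fin (N + 1)) ℝ (Eu E) :=
    (stdOrthonormalBasis ℝ (Eu E)).reindex (finCongr (by
      rw [finrank_euclideanSpace, Fintype.card_fin, hN]))
  obtain ⟨X, v0, r, K, hr, hb⟩ := core F hN h1 S hc (D' := D) (by field_simp) hu hf hX hm hΦ hΦu o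
  exact L3.le_ofReal_of hD (WH.vol_ne_top F hD hB hN) rfl
    (CV.abs_II_alpha F hD hB hdiam hN X v0 hr (lt_add_one D) o) hb (by norm_num) (num_sph N hD)

omit [MeasurableSpace M] [BorelSpace M] in
/-- the volume inequality for the spheres -/
theorem volLe_sph (e : ∀ x : M, TangentSpace 𝓘(ℝ, E) x → M) (N : ℕ) (h1 : 1 ≤ N) :
    Fin.VolLe e N N := fun F D hD hB hdiam hl hN => volume_sph F hD hB hdiam hN h1 hl

omit [MeasurableSpace M] [BorelSpace M] in
/-- the volume inequality for the real projective spaces -/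
theorem volLe_proj (e : ∀ x : M, TangentSpace 𝓘(ℝ, E) x → M) (N : ℕ) (h1 : 1 ≤ N) :
    Fin.VolLe e N 0 := Cov.volLe_zero h1 fun Y _ _ _ _ _ _ _ _ e1 => volLe_sph e1 N h1

end

end Vale.Agent.P231Z.C
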