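import Vale.Agent.P231Z.C.Basic
import Vale.Agent.P231Z.C.Deg
import Vale.Agent.P231Z.C.Rot
import Vale.Agent.P231Z.C.Col
import Vale.Agent.P231Z.C.Thin
import Vale.Agent.P231Z.C.Chart

/-!
# P231, spheres and real projective spaces, the volume: cycles of top degree

On closed forms a cycle of top degree is an integer multiple of the fundamental cycle.
-/

set_option linter.unusedSectionVars false
set_option linter.unusedVariables false
set_option maxSynthPendingDepth 3

open Set Filter Module MeasureTheory Metric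
open scoped ContDiff Topology

namespace Vale.Agent.P231Z.C

noncomputable section

open Vale.Agent.P231 Vale.Agent.P231.Fm Vale.Agent.P231.W Vale.Agent.P231.H584
  Vale.Agent.P231Z.I7
open Vale.Agent.P231.WA (prt prtL prt_pull prt_eq_zero evalForm_prt)

theorem TopA.thin_prt {X : Type*} {D : Dif X} {m : ℕ} {A : Type} [NormedAddCommGroup A]
    [NormedSpace ℝ A] [FiniteDimensional ℝ A] {u : A → X} {x : A} (h : Thin D m u x)
    (w : Form D) : prt m (w.val u x) = 0 := by
  obtain ⟨G, _, _, _, v, g, h1, h2, h3, h4⟩ := h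
  have h5 : D.At (v ∘ g) x := D.comp h3 h2
  rw [← w.congr h5 h4.symm, w.nat h3 h2, prt_pull, prt_eq_zero h1, map_zero]

variable {V V' W : Type} [NormedAddCommGroup V] [InnerProductSpace ℝ V] [FiniteDimensional ℝ V]
  [NormedAddCommGroup V'] [InnerProductSpace ℝ V'] [FiniteDimensional ℝ V']
  [NormedAddCommGroup W] [InnerProductSpace ℝ W] [FiniteDimensional ℝ W] {N : ℕ}

theorem TopA.pOpen_far (x₀ : St W) (δ : ℝ) : POpen (dSt W) {x | δ < ‖x.1 - x₀.1‖} := by
  intro A _ _ _ u x hu hx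
  have h1 : Sm (Subtype.val ∘ u) x := hu
  have h2 : ContinuousAt (fun y => ‖(u y).1 - x₀.1‖) x :=
    (h1.continuousAt.sub continuousAt_const).norm
  exact continuousAt_const.eventually_lt h2 hx

variable [MeasurableSpace V] [BorelSpace V] [MeasurableSpace V'] [BorelSpace V']

theorem top_of (S : Spl V W) (S' : Spl V' V) (hV : finrank ℝ V = N + 1) (hN : 1 ≤ N)
    (bG : Basis (Fin (2 * N + 1)) ℝ (V × V')) {I : Form (dSt W) → ℝ}
    (hI : ∀ w η : Form (dSt W), I (w + η.d) = I w) {y₀ : V × V'} {ε₀ : ℝ} (h0 : 0 < ε₀) {s : ℤ}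
    (hs : |s| = 1) (hd : Deg (dSt W) (OT S S') (kT S S') bG I y₀ ε₀ s) {z : Form (dSt W) → ℝ}
    (hz : Cy (dSt W) (2 * N + 1) z) :
    ∃ m : ℤ, ∀ w : Form (dSt W), w.d = 0 → z w = m * I w := by
  have hW : finrank ℝ W = N + 2 := by rw [S.finrank_eq, hV]
  obtain ⟨y, hy, ε, hε, d, hdz⟩ := Measure.exists_mem_of_measure_ne_zero_of_ae
    (measure_ball_pos bG.addHaar y₀ h0).ne' (ae_restrict_of_ae
      (locdeg bG hz.rep (pOpen_OT S S') (map_kT S S') (prp_kT S S')))
  obtain ⟨ε', hε', h1, h2⟩ : ∃ ε' > 0, ball y ε' ⊆ ball y ε ∧ ball y ε' ⊆ ball y₀ ε₀ := by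
    obtain ⟨r, hr, h⟩ := Metric.isOpen_iff.mp isOpen_ball y hy
    exact ⟨min ε r, lt_min hε hr, ball_subset_ball (min_le_left _ _),
      (ball_subset_ball (min_le_right _ _)).trans h⟩
  have hdz' := hdz.mono h1
  have hd' := hd.mono h2
  obtain ⟨ψ, hψ, hψO, hkψ, hψk⟩ := exists_psi S S'
  obtain ⟨δ, hδ, hnear⟩ := near_kT S S' (hψO y) (half_pos hε')
  rw [hkψ] at hnear
  obtain ⟨f, hf, ε₁, ε₂, τ, hH, -, hcol⟩ := col_pt (ψ y) (half_pos hδ) one_pos
  have hthin : ∀ {A : Type} [NormedAddCommGroup A] [NormedSpace ℝ A] [FiniteDimensional ℝ A]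
      {u : A → St W} {x : A}, (dSt W).At u x → δ / 2 < ‖(u x).1 - (ψ y).1‖ →
      Thin (dSt W) (2 * N + 1) (f ∘ u) x := fun hu hx =>
    thin_mono (hcol.thin hW hf (POpen.at (TopA.pOpen_far (ψ y) (δ / 2)) hu hx)) (by omega)
  refine ⟨d * s, fun w hw => ?_⟩
  obtain ⟨η, hη⟩ := hH.closed hw
  let v : V × V' → Lam (V × V') := fun g => prt (2 * N + 1) ((Form.pull f hf w).val ψ g)
  have hv : ContDiff ℝ ∞ v := contDiff_iff_contDiffAt.mpr fun g =>
    (prtL (E := V × V') (2 * N + 1)).contDiff.contDiffAt.comp g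
      ((Form.pull f hf w).smooth (hψ g))
  have hsupp : tsupport v ⊆ ball y ε' := by
    refine (closure_minimal (fun g hg => ?_) isClosed_closedBall).trans
      (closedBall_subset_ball (half_lt_self hε'))
    by_cases hg' : δ / 2 < ‖(ψ g).1 - (ψ y).1‖
    · refine absurd ?_ hg
      change prt (2 * N + 1) ((Form.pull f hf w).val ψ g) = 0
      rw [Form.pull_val hf w (hψ g)]
      exact TopA.thin_prt (hthin (hψ g) hg') w
    · have h3 := (hnear (ψ g) ((not_lt.mp hg').trans (half_le_self hδ.le))).2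
      rw [hkψ] at h3
      exact ball_subset_closedBall h3
  have hloc : Loc (dSt W) (OT S S') (kT S S') (2 * N + 1) (Form.pull f hf w) v := by
    intro A _ _ _ u x hu a
    refine ⟨fun hx => ?_, fun hx => ?_⟩
    · have h3 : ((dSt W).on (OT S S')).At u x := POpen.at (pOpen_OT S S') hu hx
      have h4 : Sm (kT S S' ∘ u) x := map_kT S S' h3
      have h5 : u =ᶠ[𝓝 x] ψ ∘ (kT S S' ∘ u) := h3.2.mono fun t ht => (hψk _ ht).symm
      rw [(Form.pull f hf w).congr hu h5, (Form.pull f hf w).nat (hψ _) h4, pb, ← prt_pull,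
        evalForm_prt]
    · rw [Form.pull_val hf w hu]
      refine Thin.eval (hthin hu ?_) w a
      by_contra h3
      exact hx (hnear _ ((not_lt.mp h3).trans (half_le_self hδ.le))).1
  have e1 := hdz' _ v hv hsupp hloc
  have e2 := hd' _ v hv hsupp hloc
  rw [hη, hz.rep.map_add, hz.cl, add_zero] at e1
  rw [hη, hI] at e2
  have hs2 : (s : ℝ) * s = 1 := by
    have h3 : s * s = 1 := by rw [← abs_mul_abs_self, hs, mul_one]
    exact_mod_cast h3
  rw [e1, e2]
  push_cast
  linear_combination (-(d : ℝ) * TW.JJ bG v) * hs2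

end

end Vale.Agent.P231Z.C
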