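import Vale.Agent.P231Z.C.Rot
import Vale.Agent.P231Z.C.Deg
import Vale.Agent.P231Z.C.Chart
import Vale.Agent.P231.WG.Ball

/-!
# P231, spheres and real projective spaces, the volume: the fibre sphere as a cell
-/

set_option linter.unusedSectionVars false
set_option linter.unusedVariables false
set_option maxSynthPendingDepth 3

open Set Filter Module MeasureTheory Metric
open scoped ContDiff Topology

namespace Vale.Agent.P231Z.C

noncomputable section

open Vale.Agent.P231 Vale.Agent.P231.Fm Vale.Agent.P231.W Vale.Agent.P231.H584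
  Vale.Agent.P231Z.I7

variable {V V' W : Type} [NormedAddCommGroup V] [InnerProductSpace ℝ V] [FiniteDimensional ℝ V]
  [NormedAddCommGroup V'] [InnerProductSpace ℝ V'] [FiniteDimensional ℝ V']
  [NormedAddCommGroup W] [InnerProductSpace ℝ W] [FiniteDimensional ℝ W] {N : ℕ}

namespace UCell

/-- the pair over the unit vector of a second splitting -/
def base (S : Spl V W) (S' : Spl V' V) : St W :=
  ⟨(S.e, S.i S'.e), S.he, by rw [S.i.norm_map, S'.he], S.ort _⟩

/-- the fibre over `e`, parametrised by the nonzero vectors -/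
def fb (S : Spl V W) (x0 : St W) (y : V) : St W := mkSt x0 (S.e, S.i (‖y‖⁻¹ • y))

theorem fb_val (S : Spl V W) (x0 : St W) {y : V} (hy : y ≠ 0) :
    (fb S x0 y).1 = (S.e, S.i (‖y‖⁻¹ • y)) :=
  mkSt_val _ ⟨S.he, by rw [S.i.norm_map]; exact norm_smul_inv_norm (𝕜 := ℝ) hy, S.ort _⟩

theorem at_fb (S : Spl V W) (x0 : St W) {y : V} (hy : y ≠ 0) :
    ((dSt W).on {x | x.1.1 = S.e}).At (fb S x0) y := by
  have h0 : ∀ᶠ z in 𝓝 y, z ≠ 0 := isOpen_ne.mem_nhds hy
  refine ⟨?_, h0.mono fun z hz => congrArg Prod.fst (fb_val S x0 hz)⟩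
  have h1 : Sm (fun z : V => ((S.e, S.i (‖z‖⁻¹ • z)) : W × W)) y := by
    filter_upwards [h0] with z hz
    refine contDiffAt_const.prodMk (S.i.toContinuousLinearMap.contDiff.contDiffAt.comp z ?_)
    exact ((contDiffAt_norm ℝ hz).inv (norm_ne_zero_iff.2 hz)).smul contDiffAt_id
  exact h1.congr (h0.mono fun z hz => (fb_val S x0 hz).symm)

/-- polar coordinates on the unit sphere -/
def pl (S' : Spl V' V) (ζ : V') : V := S'.rot ζ S'.e

theorem contDiff_pl (S' : Spl V' V) : ContDiff ℝ ∞ (pl S') :=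
  S'.contDiff_rot.clm_apply contDiff_const

theorem norm_pl (S' : Spl V' V) (ζ : V') : ‖pl S' ζ‖ = 1 := by
  rw [pl, S'.norm_rot, S'.he]

theorem pl_ne (S' : Spl V' V) (ζ : V') : pl S' ζ ≠ 0 :=
  norm_ne_zero_iff.1 (by rw [norm_pl]; exact one_ne_zero)

/-- the plot of the fibre -/
def cf (S : Spl V W) (S' : Spl V' V) : V' → St W := fb S (base S S') ∘ pl S'

theorem cf_val (S : Spl V W) (S' : Spl V' V) (ζ : V') :
    (cf S S' ζ).1 = (S.e, S.i (pl S' ζ)) := by
  have h := fb_val S (base S S') (pl_ne S' ζ)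
  rwa [norm_pl, inv_one, one_smul] at h

theorem at_cf (S : Spl V W) (S' : Spl V' V) (ζ : V') :
    ((dSt W).on {x | x.1.1 = S.e}).At (cf S S') ζ :=
  ((dSt W).on {x | x.1.1 = S.e}).comp (at_fb S _ (pl_ne S' ζ))
    (Sm.of_contDiff (contDiff_pl S') ζ)

/-- the differential of the polar coordinates is degenerate on the boundary sphere -/
theorem exists_ker (S' : Spl V' V) (h2 : 2 ≤ finrank ℝ V') {x : V'} (hx : ‖x‖ = Real.pi) :
    ∃ κ : V', κ ≠ 0 ∧ inner ℝ x κ = (0 : ℝ) ∧ fderiv ℝ (pl S') x κ = 0 := by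
  have hx0 : x ≠ 0 := norm_ne_zero_iff.1 (by rw [hx]; exact Real.pi_ne_zero)
  obtain ⟨S'', h1, -⟩ := exists_spl (‖x‖⁻¹ • x) (norm_smul_inv_norm (𝕜 := ℝ) hx0)
  have h3 := S''.finrank_eq
  have : Nontrivial (ℝ ∙ (‖x‖⁻¹ • x))ᗮ := Module.nontrivial_of_finrank_pos (R := ℝ) (by omega)
  obtain ⟨k, hk⟩ := exists_norm_eq (ℝ ∙ (‖x‖⁻¹ • x))ᗮ Real.pi_pos.le
  have hn : ‖S''.i k‖ = Real.pi := by rw [S''.i.norm_map, hk]
  have ho : inner ℝ x (S''.i k) = (0 : ℝ) := by
    have h4 := S''.ort k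
    rw [h1, real_inner_smul_left] at h4
    exact (mul_eq_zero.1 h4).resolve_left (inv_ne_zero (norm_ne_zero_iff.2 hx0))
  generalize S''.i k = κ at hn ho
  refine ⟨κ, norm_ne_zero_iff.1 (by rw [hn]; exact Real.pi_ne_zero), ho, ?_⟩
  have hc : ∀ t : ℝ, ‖Real.cos t • x + Real.sin t • κ‖ = Real.pi := by
    intro t
    have h4 : ‖Real.cos t • x + Real.sin t • κ‖ ^ 2 = Real.pi ^ 2 := by
      rw [norm_add_sq_real, real_inner_smul_left, real_inner_smul_right, ho, norm_smul, norm_smul,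
        hx, hn, mul_pow, mul_pow, Real.norm_eq_abs, Real.norm_eq_abs, sq_abs, sq_abs]
      linear_combination (Real.pi ^ 2) * Real.sin_sq_add_cos_sq t
    exact (sq_eq_sq₀ (norm_nonneg _) Real.pi_pos.le).1 h4
  have hd : HasDerivAt (fun t : ℝ => Real.cos t • x + Real.sin t • κ) κ 0 := by
    have h4 := ((Real.hasDerivAt_cos 0).smul_const x).add
      ((Real.hasDerivAt_sin 0).smul_const κ)
    rwa [Real.sin_zero, Real.cos_zero, neg_zero, zero_smul, zero_add, one_smul] at h4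
  have h5 : HasFDerivAt (pl S') (fderiv ℝ (pl S') x) (Real.cos 0 • x + Real.sin 0 • κ) := by
    rw [Real.sin_zero, Real.cos_zero, zero_smul, add_zero, one_smul]
    exact ((contDiff_pl S').differentiable (by simp) x).hasFDerivAt
  have h6 := h5.comp_hasDerivAt (0 : ℝ) hd
  have h7 : (pl S' ∘ fun t : ℝ => Real.cos t • x + Real.sin t • κ) = fun _ => -S'.e :=
    funext fun t => S'.rot_pi (hc t)
  rw [h7] at h6
  exact h6.unique (hasDerivAt_const _ _)

variable [MeasurableSpace V'] [BorelSpace V']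

/-- the fibre as a cell -/
def cell (S : Spl V W) (S' : Spl V' V) (b' : Basis (Fin N) ℝ V') : Cell (dSt W) N where
  V := V'
  b := b'
  K := closedBall 0 Real.pi
  c := cf S S'
  cpt := isCompact_closedBall _ _
  fr := (convex_closedBall (0 : V') Real.pi).addHaar_frontier _
  plot := fun z _ => (at_cf S S' z).1

theorem cell_in (S : Spl V W) (S' : Spl V' V) (b' : Basis (Fin N) ℝ V') :
    RepIn (dSt W) N {x | x.1.1 = S.e} (cell S S' b').I := by
  refine ⟨_, Rep.cell ((cell S S' b').re (cell S S' b').c fun z _ => at_cf S S' z), fun w => ?_⟩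
  refine setIntegral_congr_fun (cell S S' b').meas fun z hz => ?_
  change evalForm (w.val (cf S S') z) b' = evalForm ((Form.res _ w).val (cf S S') z) b'
  rw [Form.res_val _ (at_cf S S' z)]

theorem cell_d (S : Spl V W) (S' : Spl V' V) (b' : Basis (Fin N) ℝ V') (h2 : 2 ≤ N)
    (ρ : Form (dSt W)) : (cell S S' b').I ρ.d = 0 := by
  have h1 := WG.ball_stokes_of_iprod b'.addHaar b' Real.pi_pos isOpen_univ (subset_univ _)
    (Φ := ρ.val (cf S S'))
    (fun z _ => ((ρ.smooth (at_cf S S' z).1).of_le (by simp)).contDiffWithinAt) fun x hx => by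
      obtain ⟨κ, k1, k2, k3⟩ := exists_ker S' (by rw [finrank_eq_card_basis b']; simpa) hx
      refine ⟨κ, k1, k2, ?_⟩
      rw [cf, ρ.nat (at_fb S _ (pl_ne S' x)).1 (Sm.of_contDiff (contDiff_pl S') x), pull_iprod, k3,
        Q.iprod_zero_left, map_zero]
  have h3 : (closedBall (0 : V') Real.pi : Set V') =ᵐ[b'.addHaar] (ball 0 Real.pi : Set V') := by
    refine ae_eq_set.2 ⟨?_, ?_⟩
    · rw [closedBall_sdiff_ball]
      exact Measure.addHaar_sphere_of_ne_zero _ _ Real.pi_ne_zero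
    · rw [sdiff_eq_empty.2 ball_subset_closedBall, measure_empty]
  change ∫ z in closedBall (0 : V') Real.pi, evalForm (ρ.d.val (cf S S') z) b' ∂b'.addHaar = 0
  rw [setIntegral_congr_set h3, ← h1]
  refine integral_congr_ae (Eventually.of_forall fun z => ?_)
  change evalForm _ b' = evalForm _ b'
  rw [Form.d_val _ (at_cf S S' z).1]

theorem map_half : ((dSt W).prod (Dif.lin ℝ)).Map (dSt W)
    (fun p : St W × ℝ => mf (p.1, Real.pi * p.2)) := fun h => map_mf (map_scale Real.pi h)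

/-- the half sweep of the fibre -/
def half (S : Spl V W) (S' : Spl V' V) (b' : Basis (Fin N) ℝ V') : Cell (dSt W) (1 + N) :=
  (cell S S' b').cyl.map (fun p : St W × ℝ => mf (p.1, Real.pi * p.2)) map_half

theorem half_I (S : Spl V W) (S' : Spl V' V) (b' : Basis (Fin N) ℝ V') (w : Form (dSt W)) :
    (half S S' b').I w = (cell S S' b').I (KT Real.pi (Form.pull mf map_mf w)) := by
  rw [half, Cell.map_I, Cell.cyl_I, KT,
    pull_pull (map_scale Real.pi) map_mf map_half (fun p => rfl)]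

/-- the plot of the half sweep -/
def ch (S : Spl V W) (S' : Spl V' V) (p : V' × ℝ) : St W := mf (cf S S' p.1, Real.pi * p.2)

theorem ch_foot (S : Spl V W) (S' : Spl V' V) (p : V' × ℝ) : (ch S S' p).1.1 =
    Real.cos (Real.pi * p.2) • S.e + Real.sin (Real.pi * p.2) • S.i (pl S' p.1) := by
  rw [ch, mf_val, cf_val]

theorem ch_inner (S : Spl V W) (S' : Spl V' V) (p : V' × ℝ) :
    (inner ℝ S.e (ch S S' p).1.1 : ℝ) = Real.cos (Real.pi * p.2) := by
  rw [ch_foot, inner_add_right, real_inner_smul_right, real_inner_smul_right, S.ort,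
    real_inner_self_eq_norm_sq, S.he]
  ring

theorem ch_kF (S : Spl V W) (S' : Spl V' V) (p : V' × ℝ) :
    kF S (ch S S' p) = Real.tan (Real.pi * p.2) • pl S' p.1 := by
  rw [kF, ch_inner, ch_foot, map_add, map_smul, map_smul, S.pre, S.pri, smul_zero, zero_add,
    smul_smul, Real.tan_eq_sin_div_cos, div_eq_inv_mul]

theorem lt_half {t : ℝ} (ht : t ∈ Ioo (0 : ℝ) 1) (hc : 0 < Real.cos (Real.pi * t)) :
    Real.pi * t ∈ Ioo 0 (Real.pi / 2) := by
  refine ⟨mul_pos Real.pi_pos ht.1, ?_⟩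
  by_contra h
  have h1 : Real.pi * t ≤ Real.pi := mul_le_of_le_one_right Real.pi_pos.le ht.2.le
  have h2 := Real.cos_nonpos_of_pi_div_two_le_of_le (not_lt.1 h) (by linarith [Real.pi_pos])
  linarith

theorem ch_inj (S : Spl V W) (S' : Spl V' V) :
    InjOn (kF S ∘ ch S S') ((ball 0 Real.pi ×ˢ Ioo 0 1) ∩ ch S S' ⁻¹' OF S) := by
  rintro p ⟨⟨p1, p2⟩, p3⟩ q ⟨⟨q1, q2⟩, q3⟩ h
  have p4 : 0 < (inner ℝ S.e (ch S S' p).1.1 : ℝ) := p3
  have q4 : 0 < (inner ℝ S.e (ch S S' q).1.1 : ℝ) := q3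
  rw [ch_inner] at p4 q4
  have p5 := lt_half p2 p4
  have q5 := lt_half q2 q4
  have p6 := Real.tan_pos_of_pos_of_lt_pi_div_two p5.1 p5.2
  have q6 := Real.tan_pos_of_pos_of_lt_pi_div_two q5.1 q5.2
  have h1 : kF S (ch S S' p) = kF S (ch S S' q) := h
  rw [ch_kF, ch_kF] at h1
  have h2 := congrArg norm h1
  rw [norm_smul, norm_smul, norm_pl, norm_pl, mul_one, mul_one, Real.norm_of_nonneg p6.le,
    Real.norm_of_nonneg q6.le] at h2
  have h3 : Real.pi * p.2 = Real.pi * q.2 :=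
    Real.injOn_tan ⟨by linarith [p5.1, Real.pi_pos], p5.2⟩
      ⟨by linarith [q5.1, Real.pi_pos], q5.2⟩ h2
  rw [h2] at h1
  exact Prod.ext (S'.injOn_rot p1 q1 (smul_right_injective V q6.ne' h1))
    (mul_left_cancel₀ Real.pi_ne_zero h3)

theorem ch_surj (S : Spl V W) (S' : Spl V' V) : {y : V | 0 < (inner ℝ S'.e y : ℝ)} ⊆
    (kF S ∘ ch S S') '' ((ball 0 Real.pi ×ˢ Ioo 0 1) ∩ ch S S' ⁻¹' OF S) := by
  intro y hy
  have h0 : 0 < (inner ℝ S'.e y : ℝ) := hy
  have hy0 : y ≠ 0 := by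
    rintro rfl
    rw [inner_zero_right] at h0
    exact lt_irrefl _ h0
  have hn : 0 < ‖y‖ := norm_pos_iff.2 hy0
  obtain ⟨ζ, h1, h2⟩ := S'.exists_rot (norm_smul_inv_norm (𝕜 := ℝ) hy0) fun h => by
    have h3 := congrArg (fun a => (inner ℝ S'.e a : ℝ)) h
    simp only [real_inner_smul_right, inner_neg_right, real_inner_self_eq_norm_sq, S'.he] at h3
    have h4 := mul_pos (inv_pos.2 hn) h0
    erw [h3] at h4
    norm_num at h4
  have h3 : Real.pi * (Real.arctan ‖y‖ / Real.pi) = Real.arctan ‖y‖ :=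
    mul_div_cancel₀ _ Real.pi_ne_zero
  refine ⟨(ζ, Real.arctan ‖y‖ / Real.pi), ⟨⟨h1, div_pos (Real.arctan_pos.2 hn) Real.pi_pos, ?_⟩,
    ?_⟩, ?_⟩
  · rw [div_lt_one Real.pi_pos]
    linarith [Real.arctan_lt_pi_div_two ‖y‖, Real.pi_pos]
  · change 0 < (inner ℝ S.e (ch S S' _).1.1 : ℝ)
    rw [ch_inner, h3]
    exact Real.cos_arctan_pos _
  · change kF S (ch S S' _) = y
    have h4 : pl S' ζ = ‖y‖⁻¹ • y := h2
    rw [ch_kF, h3, Real.tan_arctan, h4, smul_inv_smul₀ hn.ne']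

theorem cell_one' {X : Type*} {D : Dif X} {G : Type} [NormedAddCommGroup G] [NormedSpace ℝ G]
    [FiniteDimensional ℝ G] [MeasurableSpace G] [BorelSpace G] {m m' : ℕ} (h : m' = m)
    (b : Basis (Fin m) ℝ G) (C : Cell D m') {O : Set X} (hO : POpen D O) {κ : X → G}
    (hκ : (D.on O).Map (Dif.lin G) κ) {U : Set C.V} (hU : interior C.K = U)
    (hi : InjOn (κ ∘ C.c) (U ∩ C.c ⁻¹' O)) {B : Set G}
    (hB : IsOpen B) (hne : B.Nonempty) (hs : B ⊆ (κ ∘ C.c) '' (U ∩ C.c ⁻¹' O)) :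
    ∃ y ∈ B, ∃ ε > 0, ∃ s : ℤ, |s| = 1 ∧ Deg D O κ b C.I y ε s := by
  subst h hU
  exact cell_one b C hO hκ isOpen_interior interior_subset
    (measure_mono_null (sdiff_subset_sdiff_left subset_closure) C.fr) hi hB hne hs

end UCell

variable [MeasurableSpace V] [BorelSpace V] [MeasurableSpace V'] [BorelSpace V']

open UCell in
theorem exists_U (S : Spl V W) (b : Basis (Fin (N + 1)) ℝ V) (h2 : 2 ≤ N) :
    ∃ U, Cy (dSt W) N U ∧ RepIn (dSt W) N {x | x.1.1 = S.e} U ∧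
      ∃ (y₀ : V) (ε₀ : ℝ) (s : ℤ), 0 < ε₀ ∧ |s| = 1 ∧ Deg (dSt W) (OF S) (kF S) b
        (fun w => U (KT Real.pi (Form.pull mf map_mf w))) y₀ ε₀ s := by
  have h0 : finrank ℝ V = N + 1 := by rw [finrank_eq_card_basis b, Fintype.card_fin]
  have : Nontrivial V := Module.nontrivial_of_finrank_pos (R := ℝ) (by omega)
  obtain ⟨a, ha⟩ := exists_norm_eq V zero_le_one
  obtain ⟨S', -, -⟩ := exists_spl a ha
  have h1 := S'.finrank_eq
  let b' : Basis (Fin N) ℝ (ℝ ∙ a)ᗮ := finBasisOfFinrankEq ℝ _ (by omega)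
  refine ⟨(cell S S' b').I, ⟨Rep.cell _, cell_d S S' b' h2⟩, cell_in S S' b', ?_⟩
  obtain ⟨y, -, ε, hε, s, hs, hd⟩ := cell_one' (Nat.add_comm 1 N) b (half S S' b') (pOpen_OF S)
    (map_kF S) (U := (ball 0 Real.pi ×ˢ Ioo 0 1 : Set ((ℝ ∙ a)ᗮ × ℝ))) (by
      change interior (closedBall (0 : (ℝ ∙ a)ᗮ) Real.pi ×ˢ Icc (0 : ℝ) 1) = _
      rw [interior_prod_eq, interior_closedBall _ Real.pi_ne_zero, interior_Icc])
    (ch_inj S S') (B := {y : V | 0 < (inner ℝ S'.e y : ℝ)})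
    (isOpen_lt continuous_const (continuous_const.inner continuous_id))
    ⟨S'.e, by
      change 0 < (inner ℝ S'.e S'.e : ℝ)
      rw [real_inner_self_eq_norm_sq, S'.he]
      norm_num⟩ (ch_surj S S')
  refine ⟨y, ε, s, hε, hs, fun w v h3 h4 h5 => ?_⟩
  exact (half_I S S' b' w).symm.trans (hd w v h3 h4 h5)

end

end Vale.Agent.P231Z.C
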