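import Vale.Agent.P231Z.C.UTwoA
import Vale.Agent.P231Z.C.Iso

/-!
# P231, spheres and real projective spaces: the full sweep of the fibre
-/

set_option linter.unusedSectionVars false
set_option linter.unusedVariables false
set_option maxSynthPendingDepth 3

open Set Filter Module MeasureTheory Metric
open scoped ContDiff Topology

namespace Vale.Agent.P231Z.C

noncomputable section

open Vale.Agent.P231 Vale.Agent.P231.Fm Vale.Agent.P231.W Vale.Agent.P231.H584
  Vale.Agent.P231Z.I7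
open Vale.Agent.P231.S2I (dP)

variable {V W : Type} [NormedAddCommGroup V] [InnerProductSpace ℝ V] [FiniteDimensional ℝ V]
  [NormedAddCommGroup W] [InnerProductSpace ℝ W] [FiniteDimensional ℝ W] {N : ℕ}
  [MeasurableSpace V] [BorelSpace V]

theorem deg_two (S : Spl V W) (b : Basis (Fin (N + 1)) ℝ V) (hN : Even N) (h2 : 2 ≤ N)
    {U : Form (dSt W) → ℝ} (hU : Cy (dSt W) N U) (hin : RepIn (dSt W) N {x | x.1.1 = S.e} U)
    {y₀ : V} {ε₀ d : ℝ} (hd : Deg (dSt W) (OF S) (kF S) b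
      (fun w => U (KT Real.pi (Form.pull mf map_mf w))) y₀ ε₀ d)
    {T : ℝ} {Φ : St W × ℝ → St W} (hΦ : IsFlow (dSt W) T Φ) (hT : 0 < T)
    (hf : ∀ x : St W, x.1.1 = S.e → ∀ t, (Φ (x, t)).1.1 =
      Real.cos (2 * Real.pi * t / T) • S.e + Real.sin (2 * Real.pi * t / T) • x.1.2) :
    Deg (dSt W) (OF S) (kF S) b (fun w => U (J Φ hΦ.map T w)) y₀ ε₀ (2 * d) :=
  UTwo.deg_two_of S b hN h2 (fun A hW hA hm σ hσ hk => iso_exact hW A hA hm hσ hk) hU hin hd hΦ
    hT hf

end

end Vale.Agent.P231Z.C
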