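import Vale.Agent.P231Z.C.Tower
import Vale.Agent.P231Z.C.Deg
import Vale.Agent.P231Z.C.Thin
import Vale.Agent.P231Z.C.Iso
import Vale.Agent.P231Z.C.FillDeg
import Vale.Agent.P231Z.C.Top
import Vale.Agent.P231Z.C.UCell
import Vale.Agent.P231Z.C.UTwo
import Vale.Agent.P231Z.C.Fund
import Vale.Agent.P231Z.C.FundDeg

/-!
# P231, spheres and real projective spaces, the volume: the bound on the Stiefel manifold
-/

set_option linter.unusedSectionVars false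
set_option linter.unusedVariables false
set_option maxSynthPendingDepth 3

open Set Filter Module MeasureTheory Metric
open scoped ContDiff Topology

namespace Vale.Agent.P231Z.C

noncomputable section

open Vale.Agent.P231 Vale.Agent.P231.Fm Vale.Agent.P231.W Vale.Agent.P231.H584
  Vale.Agent.P231Z.I7

variable {V W : Type} [NormedAddCommGroup V] [InnerProductSpace ℝ V] [FiniteDimensional ℝ V]
  [NormedAddCommGroup W] [InnerProductSpace ℝ W] [FiniteDimensional ℝ W] {N : ℕ}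
  [MeasurableSpace V] [BorelSpace V]

theorem exists_mem_of_ae {k : ℕ} (b : Basis (Fin k) ℝ V) {P : V → Prop}
    (h : ∀ᵐ y ∂b.addHaar, P y) (y₀ : V) {ε : ℝ} (hε : 0 < ε) : ∃ y ∈ ball y₀ ε, P y := by
  by_contra hc
  push Not at hc
  exact (measure_ball_pos b.addHaar y₀ hε).ne' (measure_mono_null (fun y hy => hc y hy) h)

theorem fill_even (S : Spl V W) (b : Basis (Fin (N + 1)) ℝ V) {z zU : Form (dSt W) → ℝ}
    (hz : Cy (dSt W) (N + 1) z) (hU : Cy (dSt W) (N + 1) zU) (h1 : 1 ≤ N) {y₀ : V} {ε₀ : ℝ}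
    (h0 : 0 < ε₀) {s : ℤ} (hs : |s| = 1)
    (hd : Deg (dSt W) (OF S) (kF S) b zU y₀ ε₀ (2 * s)) :
    ∃ m : ℤ, Bd (dSt W) (N + 1) fun w => 2 * z w - m * zU w := by
  have hV : finrank ℝ V = N + 1 := by rw [finrank_eq_card_basis b, Fintype.card_fin]
  have hW : finrank ℝ W = N + 2 := by rw [S.finrank_eq, hV]
  obtain ⟨x₁, hx₁, rfl⟩ := exists_kF S (by omega) y₀
  obtain ⟨η, hη, k1⟩ := near_kF S hx₁ (half_pos h0)
  obtain ⟨x₂, k2, δ₂, hδ₂, k3⟩ := gen_pt hW (j := N + 1) (by omega) hz.rep x₁ (half_pos hη)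
  obtain ⟨x₃, k4, δ₃, hδ₃, k5⟩ := gen_pt hW (j := N + 1) (by omega) hU.rep x₂
    (lt_min (half_pos hδ₂) (half_pos hη))
  have k6 : ‖x₃.1 - x₂.1‖ < δ₂ / 2 := k4.trans_le (min_le_left _ _)
  have k7 : ‖x₃.1 - x₂.1‖ < η / 2 := k4.trans_le (min_le_right _ _)
  obtain ⟨k8, k9⟩ := k1 x₃ (by
    have e1 : ‖x₃.1.1 - x₁.1.1‖ ≤ ‖x₃.1 - x₁.1‖ := norm_fst_le (x₃.1 - x₁.1)
    have e2 := norm_sub_le_norm_sub_add_norm_sub x₃.1 x₂.1 x₁.1
    linarith)
  set δ := min (δ₂ / 2) δ₃ / 2 with hδ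
  have hδ0 : 0 < δ := half_pos (lt_min (half_pos hδ₂) hδ₃)
  have hδ1 : 2 * δ ≤ δ₂ / 2 := by rw [hδ, mul_div_cancel₀ _ two_ne_zero]; exact min_le_left _ _
  have hδ2 : 2 * δ ≤ δ₃ := by rw [hδ, mul_div_cancel₀ _ two_ne_zero]; exact min_le_right _ _
  obtain ⟨ε₅, hε₅, k10⟩ := open_kF S k8 hδ0
  obtain ⟨y, hy, ε, hε, d, k11⟩ := exists_mem_of_ae b
    (locdeg b hz.rep (pOpen_OF S) (map_kF S) (prp_kF S)) (kF S x₃)
    (lt_min hε₅ (half_pos (half_pos h0)))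
  obtain ⟨x, hx, rfl, k12⟩ := k10 y (ball_subset_ball (min_le_left _ _) hy)
  have k13 : dist (kF S x) (kF S x₃) < ε₀ / 2 / 2 := (mem_ball.1 hy).trans_le (min_le_right _ _)
  have k14 : ball (kF S x) (min ε (ε₀ / 2 / 2)) ⊆ ball (kF S x₁) ε₀ := fun a ha => by
    have e1 : dist a (kF S x) < ε₀ / 2 / 2 := (mem_ball.1 ha).trans_le (min_le_right _ _)
    have e2 := dist_triangle4 a (kF S x) (kF S x₃) (kF S x₁)
    have e3 := mem_ball.1 k9
    rw [mem_ball]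
    linarith
  have hs2 : (s : ℝ) * s = 1 := by
    rcases (abs_eq zero_le_one).1 hs with rfl | rfl <;> norm_num
  refine ⟨d * s, ?_⟩
  have c1 : Cy (dSt W) (N + 1) fun w => 2 * z w - (d * s : ℤ) * zU w :=
    ((hz.zsmul 2).add (hU.zsmul (-(d * s)))).of_eq fun w => by push_cast; ring
  have r1 : RepIn (dSt W) (N + 1) {x' | δ < ‖x'.1 - x.1‖} z := k3.mono fun x' h => by
    have e1 : δ₂ < ‖x'.1 - x₂.1‖ := h
    have e2 := norm_sub_le_norm_sub_add_norm_sub x'.1 x.1 x₂.1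
    have e3 := norm_sub_le_norm_sub_add_norm_sub x.1 x₃.1 x₂.1
    change δ < _
    linarith
  have r2 : RepIn (dSt W) (N + 1) {x' | δ < ‖x'.1 - x.1‖} zU := k5.mono fun x' h => by
    have e1 : δ₃ < ‖x'.1 - x₃.1‖ := h
    have e2 := norm_sub_le_norm_sub_add_norm_sub x'.1 x.1 x₃.1
    change δ < _
    linarith
  refine fill_deg S b c1 hx hδ0 (lt_min hε (half_pos (half_pos h0)))
    (((r1.zsmul 2).add (r2.zsmul (-(d * s)))).of_eq fun w => by push_cast; ring) ?_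
  intro w v hv hv' hl
  have e1 := k11 w v hv (hv'.trans (ball_subset_ball (min_le_left _ _))) hl
  have e2 := hd w v hv (hv'.trans k14) hl
  beta_reduce
  rw [e1, e2]
  push_cast
  linear_combination (-2 * d * TW.JJ b v) * hs2

theorem model (S : Spl V W) (hN : 1 ≤ N) (b : Basis (Fin (N + 1)) ℝ V) (x0 : St W) {c : ℝ}
    (hc : 0 < c) {T : ℝ} (hT : 0 < T) {Φ : St W × ℝ → St W} (hΦ : IsFlow (dSt W) T Φ)
    {α : Form (dSt W)} (hα : Form.pull Φ hΦ.map α = pr α + dt) (hαN : α.d ^ (N + 1) = 0)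
    (hU : ∀ x : St W, x.1.1 = S.e → ∀ t, (Φ (x, t)).1.1 =
      Real.cos (2 * Real.pi * t / T) • S.e + Real.sin (2 * Real.pi * t / T) • x.1.2)
    (hαU : Form.res {x : St W | x.1.1 = S.e} α = 0) :
    ∃ (r : V → ℝ) (K : Set V), Q.Cut r K ∧
      |IM S x0 b c r (α * α.d ^ N)| ≤ 2 * T ^ (N + 1) := by
  have hV : finrank ℝ V = N + 1 := by rw [finrank_eq_card_basis b, Fintype.card_fin]
  have hW : finrank ℝ W = N + 2 := by rw [S.finrank_eq, hV]
  have : Nontrivial V := nontrivial_of_finrank_pos (R := ℝ) (by omega)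
  obtain ⟨w₁, hw₁⟩ := exists_norm_eq V zero_le_one
  obtain ⟨S', -, -⟩ := exists_spl w₁ hw₁
  have hV' : finrank ℝ (V × (ℝ ∙ w₁)ᗮ) = 2 * N + 1 := by
    have h1 := S'.finrank_eq
    rw [finrank_prod]
    omega
  let bG : Basis (Fin (2 * N + 1)) ℝ (V × (ℝ ∙ w₁)ᗮ) := finBasisOfFinrankEq ℝ _ hV'
  obtain ⟨r, K, y₀, ε₀, s, hr, h0, hs, hd⟩ := IM_deg S S' x0 b bG hc
  refine ⟨r, K, hr, ?_⟩
  obtain ⟨z, hz, hval⟩ := tower hΦ hT hα hN x0 (Sm.of_contDiff contDiff_const _)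
    (fun j h1 h2 h3 h4 z hz => by
      rcases lt_or_gt_of_ne h3 with h5 | h5
      · exact fill_low hW h1 h5 hz
      · exact fill_high hW (by omega) h2 hz)
    (fun hodd z hz => fill_odd hW hodd hz)
    (fun hev => by
      have h2 : 2 ≤ N := by obtain ⟨k, rfl⟩ := hev; omega
      obtain ⟨U, hU1, hU2, y₁, ε₁, s₁, k0, k1, k2⟩ := exists_U S b h2
      have k3 := deg_two S b hev h2 hU1 hU2 k2 hΦ hT hU
      refine ⟨U, hU1, ?_, fun z hz => ?_⟩
      · obtain ⟨z₁, k4, k5⟩ := hU2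
        obtain ⟨i, hi⟩ : ∃ i, N / 2 = i + 1 := ⟨N / 2 - 1, by omega⟩
        rw [k5, hi, pow_succ, Form.res_mul, ← Form.res_d, hαU, Form.d_zero, mul_zero,
          rep_zero k4]
      · have k6 : Cy (dSt W) (N + 1) fun w => U (J Φ hΦ.map T w) := by
          refine ⟨?_, fun ρ => ?_⟩
          · rw [add_comm]
            exact (hU1.rep.KT T).pull Φ hΦ.map
          · rw [J_d hΦ, rep_neg hU1.rep, hU1.cl, neg_zero]
        exact fill_even S b hz k6 hN k0 k1 k3)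
  obtain ⟨m, hm⟩ := top_of S S' hV hN bG (fun w η => IM_exact S x0 b hN hc hr w η) h0 hs hd hz
  have hpw : ∀ i, (α.d ^ i).d = 0 := fun i => by
    induction i with
    | zero => rw [pow_zero, Form.d_one]
    | succ i ih => rw [pow_succ, Form.d_mul, ih, Form.d_d, zero_mul, mul_zero, add_zero]
  have hcl : (α * α.d ^ N).d = 0 := by
    rw [Form.d_mul, hpw, mul_zero, add_zero, ← pow_succ', hαN]
  rw [hm _ hcl, abs_mul] at hval
  have hpos : 0 < 2 * T ^ (N + 1) := by positivity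
  have hm0 : m ≠ 0 := by
    rintro rfl
    simp at hval
    exact hT.ne' hval
  have hm1 : (1 : ℝ) ≤ |(m : ℝ)| := by
    rw [← Int.cast_abs]
    exact_mod_cast Int.one_le_abs hm0
  rw [← hval]
  exact le_mul_of_one_le_left (abs_nonneg _) hm1

end

end Vale.Agent.P231Z.C
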