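import Vale.Agent.P231Z.C.Defs
import Vale.Agent.P231Z.I7.Abs

/-!
# P231, spheres and real projective spaces, the volume: the sweep and fill tower
-/

set_option linter.unusedSectionVars false
set_option linter.unusedVariables false

open Set Filter Module MeasureTheory Metric
open scoped ContDiff Topology

namespace Vale.Agent.P231Z.C

noncomputable section

open Vale.Agent.P231 Vale.Agent.P231.Fm Vale.Agent.P231.W Vale.Agent.P231.H584
  Vale.Agent.P231Z.I7

section Tower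

variable {X : Type*} {D : Dif X} {T : ℝ} {Φ : X × ℝ → X}

namespace Tw

theorem zero {n : ℕ} {A : Form D → ℝ} (h : Rep D n A) : A 0 = 0 := by
  have h1 := h.map_smul 0 0
  rwa [zero_smul, zero_mul] at h1

theorem cast {n m : ℕ} {A : Form D → ℝ} (h : Rep D n A) (e : n = m) : Rep D m A := e ▸ h

theorem pow_d (α : Form D) (i : ℕ) : (α.d ^ i).d = 0 := by
  induction i with
  | zero => rw [pow_zero, Form.d_one]
  | succ i ih => rw [pow_succ, Form.d_mul, ih, Form.d_d, zero_mul, mul_zero, add_zero]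

theorem d_mul_pow (α : Form D) (i : ℕ) : (α * α.d ^ i).d = α.d ^ (i + 1) := by
  rw [Form.d_mul, pow_d, mul_zero, add_zero, pow_succ']

/-- the sweep of a cycle of the orbit space is a cycle -/
theorem sweep (hΦ : IsFlow D T Φ) {n : ℕ} {A : Form D → ℝ} (h : Rep D n A)
    (hc : ∀ ρ : Form D, Basic Φ hΦ.map ρ → A ρ.d = 0) :
    Cy D (n + 1) fun w => A (J Φ hΦ.map T w) where
  rep := cast ((h.KT T).pull Φ hΦ.map) (add_comm _ _)
  cl := fun ρ => by
    have h1 := h.map_smul (-1) (J Φ hΦ.map T ρ).d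
    rw [hc _ (J_basic hΦ ρ), mul_zero, neg_one_smul] at h1
    rw [J_d hΦ, h1]

theorem J_val (hΦ : IsFlow D T Φ) {α : Form D} (hα : Form.pull Φ hΦ.map α = pr α + dt) (i : ℕ) :
    J Φ hΦ.map T (α * α.d ^ i) = T • α.d ^ i := by
  rw [J_mul_basic T _ (Basic.pow (basic_d_contact hΦ hα) i), J_contact hΦ hα, smul_mul_assoc,
    one_mul]

end Tw

theorem tower (hΦ : IsFlow D T Φ) (hT : 0 < T) {α : Form D}
    (hα : Form.pull Φ hΦ.map α = pr α + dt) {N : ℕ} (hN : 1 ≤ N) (x₀ : X)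
    (hx : D.At (fun _ : Fin 0 → ℝ => x₀) 0)
    (fill : ∀ j, 1 ≤ j → j ≤ 2 * N → j ≠ N → j ≠ N + 1 → ∀ z, Cy D j z → Bd D j z)
    (hodd : Odd N → ∀ z, Cy D N z → Bd D N fun w => 2 * z w)
    (hev : Even N → ∃ U, Cy D N U ∧ U (α.d ^ (N / 2)) = 0 ∧ ∀ z, Cy D (N + 1) z →
      ∃ m : ℤ, Bd D (N + 1) fun w => 2 * z w - m * U (J Φ hΦ.map T w)) :
    ∃ z, Cy D (2 * N + 1) z ∧ |z (α * α.d ^ N)| = 2 * T ^ (N + 1) := by
  have key : ∀ i, i ≤ N → ∃ A, Rep D (2 * i) A ∧
      (∀ ρ : Form D, Basic Φ hΦ.map ρ → A ρ.d = 0) ∧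
      A (α.d ^ i) = (if 2 * i ≤ N then 1 else 2) * T ^ i := by
    intro i
    induction i with
    | zero =>
      intro _
      refine ⟨(ptCell hx).I, Rep.cell _, fun ρ _ => Cell.d_zero _ ρ, ?_⟩
      rw [pow_zero, pow_zero, ptCell_one, if_pos (by omega), mul_one]
    | succ i ih =>
      intro hi
      obtain ⟨A, h1, h2, h3⟩ := ih (by omega)
      have hz := Tw.sweep hΦ h1 h2
      have h4 : A (J Φ hΦ.map T (α * α.d ^ i)) = T * A (α.d ^ i) := by
        rw [Tw.J_val hΦ hα, h1.map_smul]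
      have h5 : ∀ ρ : Form D, Basic Φ hΦ.map ρ → A (J Φ hΦ.map T ρ) = 0 := fun ρ hρ => by
        rw [J_of_basic T hρ, Tw.zero h1]
      by_cases c1 : 2 * i + 1 = N
      · obtain ⟨C, k1, k2⟩ := hodd ⟨i, c1.symm⟩ _ (c1 ▸ hz)
        refine ⟨C, Tw.cast k1 (by omega), fun ρ hρ => ?_, ?_⟩
        · rw [k2]
          beta_reduce
          rw [h5 ρ hρ, mul_zero]
        · rw [← Tw.d_mul_pow, k2]
          beta_reduce
          rw [h4, h3, if_pos (by omega), if_neg (by omega)]
          ring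
      by_cases c2 : 2 * i = N
      · obtain ⟨U, u1, u2, u3⟩ := hev ⟨i, by omega⟩
        obtain ⟨m, C, k1, k2⟩ := u3 _ (c2 ▸ hz)
        have u4 : N / 2 = i := by omega
        rw [u4] at u2
        refine ⟨C, Tw.cast k1 (by omega), fun ρ hρ => ?_, ?_⟩
        · rw [k2]
          beta_reduce
          rw [h5 ρ hρ, J_of_basic T hρ, Tw.zero u1.rep, mul_zero, mul_zero, sub_zero]
        · rw [← Tw.d_mul_pow, k2]
          beta_reduce
          rw [h4, h3, Tw.J_val hΦ hα, u1.rep.map_smul, u2, if_pos (by omega), if_neg (by omega)]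
          ring
      · obtain ⟨C, k1, k2⟩ := fill (2 * i + 1) (by omega) (by omega) c1 (by omega) _ hz
        refine ⟨C, Tw.cast k1 (by omega), fun ρ hρ => ?_, ?_⟩
        · rw [k2]
          exact h5 ρ hρ
        · rw [← Tw.d_mul_pow, k2]
          beta_reduce
          rw [h4, h3]
          by_cases c3 : 2 * i ≤ N
          · rw [if_pos c3, if_pos (by omega)]
            ring
          · rw [if_neg c3, if_neg (by omega)]
            ring
  obtain ⟨A, h1, h2, h3⟩ := key N le_rfl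
  refine ⟨_, Tw.sweep hΦ h1 h2, ?_⟩
  beta_reduce
  rw [Tw.J_val hΦ hα, h1.map_smul, h3, if_neg (by omega), abs_of_nonneg (by positivity)]
  ring

end Tower

end

end Vale.Agent.P231Z.C
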