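import Vale.Agent.P231Z.C.Defs

/-!
# P231, spheres and real projective spaces: the full sweep of the fibre, preparations
-/

set_option linter.unusedSectionVars false
set_option linter.unusedVariables false
set_option maxSynthPendingDepth 3

open Set Filter Module MeasureTheory Metric
open scoped ContDiff Topology

namespace Vale.Agent.P231Z.C.UTwo

noncomputable section

open Vale.Agent.P231 Vale.Agent.P231.Fm Vale.Agent.P231.W Vale.Agent.P231.H584
  Vale.Agent.P231Z.I7
open Vale.Agent.P231.S2I (dP ofOn ofOn_val)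

section General

variable {X : Type*} {D : Dif X} {n : ℕ} {z : Form D → ℝ}

theorem rcongr (h : Rep D n z) {v w : Form D}
    (e : ∀ {V : Type} [NormedAddCommGroup V] [NormedSpace ℝ V] [FiniteDimensional ℝ V]
      {u : V → X} {x : V}, D.At u x → ∀ a : Fin n → V,
        evalForm (v.val u x) a = evalForm (w.val u x) a) : z v = z w := by
  induction h with
  | cell C => exact C.I_congr fun t ht => e (C.plot t ht) _
  | zero => rfl
  | add _ _ h1 h2 => simp only [h1, h2]
  | neg _ h1 => simp only [h1]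

theorem rcongr_in {S : Set X} (h : RepIn D n S z) {v w : Form D}
    (e : ∀ {V : Type} [NormedAddCommGroup V] [NormedSpace ℝ V] [FiniteDimensional ℝ V]
      {u : V → X} {x : V}, (D.on S).At u x → ∀ a : Fin n → V,
        evalForm (v.val u x) a = evalForm (w.val u x) a) : z v = z w := by
  obtain ⟨z', h1, h2⟩ := h
  rw [h2, h2]
  refine rcongr h1 fun hu a => ?_
  rw [Form.res_val _ hu, Form.res_val _ hu]
  exact e hu a

variable {E : Type} [NormedAddCommGroup E] [NormedSpace ℝ E] [FiniteDimensional ℝ E]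

theorem co_aff (w : Form (D.prod (Dif.lin ℝ))) {u : E → X} {x : E} (h : D.At u x) (a c t : ℝ) :
    at1 (w.val (fun p : E × ℝ => (u p.1, a + c * p.2)) (x, t)) = c • co w u x (a + c * t) := by
  have h2 := co_shear w (u := u) (g := fun y : E => y) (a := fun _ => a) (x := x) c h
    (Sm.of_contDiff contDiff_id x) (Sm.of_contDiff contDiff_const x) t
  have h3 : fderiv ℝ (fun y : E => y) x = ContinuousLinearMap.id ℝ E := fderiv_fun_id
  rw [h3, Fm.pull_id] at h2
  exact h2

theorem at_aff {u : E → X} {x : E} (h : D.At u x) (a c t : ℝ) :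
    (D.prod (Dif.lin ℝ)).At (fun p : E × ℝ => (u p.1, a + c * p.2)) (x, t) :=
  ⟨(Form.cyl_at h t).1, Sm.of_contDiff (contDiff_const.add (contDiff_const.mul contDiff_snd)) _⟩

/-- two families which agree on `S` up to an affine change of the time -/
theorem co_eq {Y : Type*} {D' : Dif Y} {f g : X × ℝ → Y} (hf : (D.prod (Dif.lin ℝ)).Map D' f)
    (hg : (D.prod (Dif.lin ℝ)).Map D' g) {S : Set X} (a c : ℝ)
    (e : ∀ x ∈ S, ∀ t, f (x, t) = g (x, a + c * t)) (β : Form D') {u : E → X} {x : E}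
    (h : (D.on S).At u x) (t : ℝ) :
    co (Form.pull f hf β) u x t = c • co (Form.pull g hg β) u x (a + c * t) := by
  rw [← co_aff _ h.1, co, Form.pull_val _ _ (Form.cyl_at h.1 t),
    Form.pull_val _ _ (at_aff h.1 a c t)]
  congr 1
  refine β.congr (hf (Form.cyl_at h.1 t)) ?_
  have h1 : Tendsto (Prod.fst : E × ℝ → E) (𝓝 (x, t)) (𝓝 x) := continuous_fst.continuousAt
  filter_upwards [h1.eventually h.2] with p hp
  exact e _ hp _

end General

section Model

variable {V W : Type} [NormedAddCommGroup V] [InnerProductSpace ℝ V] [FiniteDimensional ℝ V]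
  [NormedAddCommGroup W] [InnerProductSpace ℝ W] [FiniteDimensional ℝ W] {N : ℕ}

theorem finrank_W (S : Spl V W) : finrank ℝ W = finrank ℝ V + 1 := by
  have he : (inner ℝ S.e S.e : ℝ) = 1 := by rw [real_inner_self_eq_norm_sq, S.he, one_pow]
  let L : W →ₗ[ℝ] V × ℝ := (S.pr : W →ₗ[ℝ] V).prod (innerSL ℝ S.e : W →L[ℝ] ℝ)
  have hL : Function.Bijective L := by
    constructor
    · rw [injective_iff_map_eq_zero]
      intro w hw
      have h1 : S.pr w = 0 := congrArg Prod.fst hw
      have h2 : (inner ℝ S.e w : ℝ) = 0 := congrArg Prod.snd hw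
      rw [S.dec w, h1, h2, zero_smul, map_zero, add_zero]
    · rintro ⟨v, t⟩
      refine ⟨t • S.e + S.i v, Prod.ext ?_ ?_⟩
      · change S.pr _ = v
        rw [map_add, map_smul, S.pre, S.pri, smul_zero, zero_add]
      · change (inner ℝ S.e _ : ℝ) = t
        rw [inner_add_right, real_inner_smul_right, he, S.ort, mul_one, add_zero]
  rw [(LinearEquiv.ofBijective L hL).finrank_eq, finrank_prod, finrank_self]

/-- the foot -/
def ft (x : St W) : W := x.1.1

theorem ft_ne (x : St W) : ft x ≠ 0 := fun h => by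
  have h1 : ‖ft x‖ = 1 := x.2.1
  rw [h, norm_zero] at h1
  exact zero_ne_one h1

theorem map_ft : (dSt W).Map (dP W) ft := fun {E} _ _ _ {u x} h =>
  ⟨Sm.fst (f := fun y => (u y).1) h, Eventually.of_forall fun y => ft_ne _⟩

/-- the gnomonic projection -/
def ka (S : Spl V W) (y : W) : V := (inner ℝ S.e y : ℝ)⁻¹ • S.pr y

theorem isOpen_pos (S : Spl V W) : IsOpen {y : W | 0 < (inner ℝ S.e y : ℝ)} :=
  isOpen_lt continuous_const (innerSL ℝ S.e).continuous

theorem sm_ka (S : Spl V W) {y : W} (hy : 0 < (inner ℝ S.e y : ℝ)) : Sm (ka S) y := by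
  filter_upwards [(isOpen_pos S).mem_nhds hy] with y' hy'
  exact ((innerSL ℝ S.e).contDiff.contDiffAt.inv (ne_of_gt hy')).smul S.pr.contDiff.contDiffAt

open Classical in
/-- the pull-back under the projection, extended by zero -/
def BB (S : Spl V W) (v : V → Lam V) (y : W) : Lam W :=
  if 0 < (inner ℝ S.e y : ℝ) then pb (ka S) v y else 0

theorem BB_pos (S : Spl V W) (v : V → Lam V) {y : W} (hy : 0 < (inner ℝ S.e y : ℝ)) :
    BB S v =ᶠ[𝓝 y] pb (ka S) v := by
  filter_upwards [(isOpen_pos S).mem_nhds hy] with y' hy'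
  exact if_pos hy'

theorem BB_neg (S : Spl V W) {v : V → Lam V} {R : ℝ} (hv : ∀ x, R < ‖x‖ → v x = 0) {y : W}
    (h0 : y ≠ 0) (hy : ¬ 0 < (inner ℝ S.e y : ℝ)) : BB S v =ᶠ[𝓝 y] fun _ => 0 := by
  rcases (not_lt.1 hy).lt_or_eq with h1 | h1
  · have h2 : IsOpen {y : W | (inner ℝ S.e y : ℝ) < 0} :=
      isOpen_lt (innerSL ℝ S.e).continuous continuous_const
    filter_upwards [h2.mem_nhds h1] with y' hy'
    exact if_neg (not_lt.2 (le_of_lt hy'))
  · have h2 : IsOpen {y : W | R * (inner ℝ S.e y : ℝ) < ‖S.pr y‖} :=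
      isOpen_lt (continuous_const.mul (innerSL ℝ S.e).continuous) S.pr.continuous.norm
    have h3 : S.pr y ≠ 0 := fun h3 => h0 (by
      rw [S.dec y, h1, h3, zero_smul, map_zero, add_zero])
    have h4 : y ∈ {y : W | R * (inner ℝ S.e y : ℝ) < ‖S.pr y‖} := by
      change R * _ < _
      rw [h1, mul_zero]
      exact norm_pos_iff.2 h3
    filter_upwards [h2.mem_nhds h4] with y' hy'
    by_cases h5 : 0 < (inner ℝ S.e y' : ℝ)
    · rw [BB, if_pos h5, pb, hv, map_zero]
      rw [ka, norm_smul, norm_inv, Real.norm_of_nonneg h5.le, inv_mul_eq_div, lt_div_iff₀ h5]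
      exact hy'
    · exact if_neg h5

theorem contDiffOn_BB (S : Spl V W) {v : V → Lam V} (hs : ContDiff ℝ ∞ v) {R : ℝ}
    (hv : ∀ x, R < ‖x‖ → v x = 0) : ContDiffOn ℝ ∞ (BB S v) {y | y ≠ 0} := by
  intro y h0
  refine ContDiffAt.contDiffWithinAt ?_
  by_cases hy : 0 < (inner ℝ S.e y : ℝ)
  · exact (contDiffAt_pb (m := ∞) (n := ∞) (sm_ka S hy).contDiffAt hs.contDiffAt
      (by simp)).congr_of_eventuallyEq (BB_pos S v hy)
  · exact contDiffAt_const.congr_of_eventuallyEq (BB_neg S hv h0 hy)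

/-- the form on the punctured space -/
theorem exists_beta (S : Spl V W) (hV : finrank ℝ V = N + 1) {v : V → Lam V}
    (hs : ContDiff ℝ ∞ v) {y₀ : V} {ε : ℝ} (hv : tsupport v ⊆ ball y₀ ε) :
    ∃ β : Form (dP W), β.d = 0 ∧ Form.IsDeg (N + 1) β ∧
      Loc (dSt W) (OF S) (kF S) (N + 1) (Form.pull ft map_ft β) v := by
  let v' : V → Lam V := fun x => WA.prt (N + 1) (v x)
  have hs' : ContDiff ℝ ∞ v' := (WA.prtL (E := V) (N + 1)).contDiff.comp hs
  have hv' : ∀ x, ‖y₀‖ + ε < ‖x‖ → v' x = 0 := fun x hx => by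
    have h1 : x ∉ tsupport v := fun h => by
      have h2 := mem_ball_iff_norm.1 (hv h)
      have h3 := norm_sub_norm_le x y₀
      linarith
    change WA.prt (N + 1) (v x) = 0
    rw [image_eq_zero_of_notMem_tsupport h1, map_zero]
  have hO : IsOpen {y : W | y ≠ 0} := isOpen_ne
  have hd : ∀ x, extd v' x = 0 := fun x => by
    have h1 : HasFDerivAt v' (WA.prtL (N + 1) ∘L fderiv ℝ v x) x :=
      (WA.prtL (E := V) (N + 1)).hasFDerivAt.comp x (hs.differentiable (by simp) x).hasFDerivAt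
    rw [extd_of h1, ← WA.prt_succ_dLin, WA.prt_eq_zero (by omega)]
  refine ⟨ofOn hO (BB S v') (contDiffOn_BB S hs' hv'), ?_, ?_, ?_⟩
  · rw [S2I.d_ofOn]
    refine S2I.ext_id hO fun y hy => ?_
    rw [S2I.ofOn_val_id hO _ _ hy, Form.zero_val]
    by_cases h : 0 < (inner ℝ S.e y : ℝ)
    · rw [extd_congr (BB_pos S v' h), extd_pb ((sm_ka S h).contDiffAt.of_le two_le_infty)
        (hs'.differentiable (by simp) _), pb, hd, map_zero]
    · rw [extd_congr (BB_neg S hv' hy h), extd_const]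
  · refine S2I.ext_id hO fun y hy => ?_
    rw [Form.part_val, S2I.ofOn_val_id hO _ _ hy, BB]
    split_ifs
    · rw [pb, WA.prt_pull, WA.prt_prt_self]
    · exact map_zero _
  · intro E _ _ _ u x hu a
    have h1 := map_ft hu
    rw [Form.pull_val _ _ hu, ofOn_val hO _ _ h1]
    constructor
    · intro hx
      have h2 : 0 < (inner ℝ S.e ((ft ∘ u) x) : ℝ) := hx
      have h3 : pb (ft ∘ u) (BB S v') x = pb (ft ∘ u) (pb (ka S) v') x := by
        rw [pb, pb, (BB_pos S v' h2).eq_of_nhds]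
      rw [h3, ← pb_comp v' (sm_ka S h2).differentiableAt h1.1.differentiableAt, pb, pb,
        ← WA.prt_pull, WA.evalForm_prt]
      rfl
    · intro hx
      have h2 : ¬ 0 < (inner ℝ S.e ((ft ∘ u) x) : ℝ) := hx
      rw [pb, BB, if_neg h2, map_zero]
      exact map_zero (evalL a)

/-- the foot along the great circles -/
def gc (p : St W × ℝ) : W := ft (mf p)

theorem map_gc : ((dSt W).prod (Dif.lin ℝ)).Map (dP W) gc := fun h => map_ft (map_mf h)

theorem gc_eq (x : St W) (t : ℝ) : gc (x, t) = Real.cos t • x.1.1 + Real.sin t • x.1.2 := by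
  rw [gc, ft, mf_val]

/-- the half sweep of a cycle in the fibre kills exact forms -/
theorem half_exact {e : W} (h1 : 1 ≤ N) {U : Form (dSt W) → ℝ} (hU : Cy (dSt W) N U)
    (hin : RepIn (dSt W) N {x | x.1.1 = e} U) (ζ : Form (dP W)) :
    U (KT Real.pi (Form.pull gc map_gc ζ.d)) = 0 := by
  have key : ∀ (c : ℝ), Real.sin c = 0 → U (at_ c (Form.pull gc map_gc ζ)) = U 0 := by
    intro c hc
    refine rcongr_in hin fun {E} _ _ _ {u x} hu a => ?_
    have h2 := map_at map_gc c hu.1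
    have h3 : ((fun x => gc (x, c)) ∘ u) =ᶠ[𝓝 x] id ∘ fun _ => Real.cos c • e := by
      filter_upwards [hu.2] with y hy
      have hy' : (u y).1.1 = e := hy
      change gc (u y, c) = Real.cos c • e
      rw [gc_eq, hc, zero_smul, add_zero, hy']
    have h4 : Real.cos c • e ≠ 0 := by
      have h5 := h2.2.self_of_nhds
      rw [h3.eq_of_nhds] at h5
      exact h5
    rw [at_pull_of, Form.pull_val _ _ hu.1, ζ.congr h2 h3,
      ζ.nat (u := id) (g := fun _ : E => Real.cos c • e) (⟨Sm.of_contDiff contDiff_id _,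
        isOpen_ne.mem_nhds h4⟩ : (dP W).At (id : W → W) (Real.cos c • e))
        (Sm.of_contDiff contDiff_const x), evalForm_pull, Form.zero_val]
    refine Eq.trans ?_ (map_zero (evalL a)).symm
    refine AlternatingMap.map_coord_zero _ ⟨0, h1⟩ ?_
    simp
  have h6 := KT_homotopy Real.pi (Form.pull gc map_gc ζ)
  have h7 := congrArg U h6
  rw [hU.rep.map_sub, hU.rep.map_add, key _ Real.sin_pi, key _ Real.sin_zero, hU.cl, sub_self,
    add_zero, ← Form.pull_d] at h7
  exact h7.symm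

/-- the full sweep is the difference of two half sweeps -/
theorem full_sweep {e : W} {U : Form (dSt W) → ℝ} (hU : Cy (dSt W) N U)
    (hin : RepIn (dSt W) N {x | x.1.1 = e} U) {A : W → W} (hA : (dP W).Map (dP W) A)
    (hAe : ∀ (y : W) (s t : ℝ), (inner ℝ e y : ℝ) = 0 → A (s • e + t • y) = s • e + (-t) • y)
    {T : ℝ} (hT : 0 < T) {g : St W × ℝ → W} (hg : ((dSt W).prod (Dif.lin ℝ)).Map (dP W) g)
    (hf : ∀ x : St W, x.1.1 = e → ∀ t, g (x, t) =
      Real.cos (2 * Real.pi * t / T) • e + Real.sin (2 * Real.pi * t / T) • x.1.2)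
    (β : Form (dP W)) :
    U (KT T (Form.pull g hg β)) = U (KT Real.pi (Form.pull gc map_gc β)) -
      U (KT Real.pi (Form.pull gc map_gc (Form.pull A hA β))) := by
  rw [← hU.rep.map_sub]
  refine rcongr_in hin fun {E} _ _ _ {u x} hu a => ?_
  congr 1
  have hAg : ((dSt W).prod (Dif.lin ℝ)).Map (dP W) (A ∘ gc) := fun h => hA (map_gc h)
  rw [← Form.pull_comp map_gc hA hAg, Form.sub_val, KT_val _ _ hu.1, KT_val _ _ hu.1,
    KT_val _ _ hu.1]
  have e1 : ∀ t, co (Form.pull g hg β) u x t = (2 * Real.pi / T) •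
      co (Form.pull gc map_gc β) u x (0 + (2 * Real.pi / T) * t) :=
    co_eq hg map_gc 0 (2 * Real.pi / T) (fun y hy t => by
      have hy' : y.1.1 = e := hy
      rw [hf y hy', gc_eq, hy', zero_add, div_mul_eq_mul_div]) β hu
  have e2 : ∀ t, co (Form.pull (A ∘ gc) hAg β) u x t = (-1 : ℝ) •
      co (Form.pull gc map_gc β) u x (2 * Real.pi + (-1) * t) :=
    co_eq hAg map_gc (2 * Real.pi) (-1) (fun y hy t => by
      have hy' : y.1.1 = e := hy
      have h1 : (inner ℝ e y.1.2 : ℝ) = 0 := by rw [← hy']; exact y.2.2.2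
      change A (gc (y, t)) = _
      rw [gc_eq, gc_eq, hy', hAe _ _ _ h1, neg_one_mul, ← sub_eq_add_neg, Real.cos_two_pi_sub,
        Real.sin_two_pi_sub]) β hu
  simp only [e1, e2, zero_add]
  have hc := continuous_co (Form.pull gc map_gc β) hu.1
  generalize co (Form.pull gc map_gc β) u x = F at hc ⊢
  rw [intervalIntegral.integral_smul, intervalIntegral.smul_integral_comp_mul_left,
    intervalIntegral.integral_smul]
  have h2 : ∫ t in (0 : ℝ)..Real.pi, F (2 * Real.pi + -1 * t) =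
      ∫ t in Real.pi..2 * Real.pi, F t := by
    have h3 := intervalIntegral.integral_comp_sub_left (a := 0) (b := Real.pi) F (2 * Real.pi)
    rw [sub_zero, show 2 * Real.pi - Real.pi = Real.pi by ring] at h3
    rw [← h3]
    refine intervalIntegral.integral_congr fun t _ => ?_
    simp only [neg_one_mul, sub_eq_add_neg]
  rw [h2, neg_one_smul, sub_neg_eq_add, intervalIntegral.integral_add_adjacent_intervals
    (hc.intervalIntegrable _ _) (hc.intervalIntegrable _ _), mul_zero,
    div_mul_cancel₀ _ hT.ne']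

variable [MeasurableSpace V] [BorelSpace V]

theorem deg_two_of (S : Spl V W) (b : Basis (Fin (N + 1)) ℝ V) (hN : Even N) (h2 : 2 ≤ N)
    (iso : ∀ (A : W ≃ₗᵢ[ℝ] W), finrank ℝ W = N + 2 →
      LinearMap.det (A.toLinearEquiv : W →ₗ[ℝ] W) = -1 → ∀ (hm : (dP W).Map (dP W) A)
      (σ : Form (dP W)), σ.d = 0 → Form.IsDeg (N + 1) σ →
      ∃ ζ : Form (dP W), σ + Form.pull A hm σ = ζ.d)
    {U : Form (dSt W) → ℝ} (hU : Cy (dSt W) N U) (hin : RepIn (dSt W) N {x | x.1.1 = S.e} U)
    {y₀ : V} {ε₀ d : ℝ} (hd : Deg (dSt W) (OF S) (kF S) b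
      (fun w => U (KT Real.pi (Form.pull mf map_mf w))) y₀ ε₀ d)
    {T : ℝ} {Φ : St W × ℝ → St W} (hΦ : IsFlow (dSt W) T Φ) (hT : 0 < T)
    (hf : ∀ x : St W, x.1.1 = S.e → ∀ t, (Φ (x, t)).1.1 =
      Real.cos (2 * Real.pi * t / T) • S.e + Real.sin (2 * Real.pi * t / T) • x.1.2) :
    Deg (dSt W) (OF S) (kF S) b (fun w => U (J Φ hΦ.map T w)) y₀ ε₀ (2 * d) := by
  intro w v hs hv hw
  have hV : finrank ℝ V = N + 1 := by rw [finrank_eq_card_basis b, Fintype.card_fin]
  have hW : finrank ℝ W = N + 2 := by rw [finrank_W S, hV]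
  obtain ⟨β, hβd, hβk, hβ⟩ := exists_beta S hV hs hv
  have e0 : S.e ≠ 0 := fun h => by
    have h1 := S.he
    rw [h, norm_zero] at h1
    exact zero_ne_one h1
  let A : W ≃ₗᵢ[ℝ] W := (ℝ ∙ S.e).reflection
  have hm : (dP W).Map (dP W) A := fun {E} _ _ _ {u x} h =>
    ⟨(Sm.of_contDiff A.contDiff (u x)).comp h.1, h.2.mono fun y hy h3 =>
      hy (A.injective (h3.trans (map_zero A).symm))⟩
  have hdet : LinearMap.det (A.toLinearEquiv : W →ₗ[ℝ] W) = -1 := by
    have : Fact (finrank ℝ W = N + 1 + 1) := ⟨hW⟩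
    have h3 := Submodule.det_reflection (ℝ ∙ S.e)
    rw [Submodule.finrank_orthogonal_span_singleton (n := N + 1) e0, hN.add_one.neg_one_pow] at h3
    exact h3
  have hAe : ∀ (y : W) (s t : ℝ), (inner ℝ S.e y : ℝ) = 0 →
      A (s • S.e + t • y) = s • S.e + (-t) • y := fun y s t hy => by
    rw [map_add, map_smul, map_smul,
      Submodule.reflection_mem_subspace_eq_self (Submodule.mem_span_singleton_self _),
      Submodule.reflection_mem_subspace_orthogonalComplement_eq_neg
        (Submodule.mem_orthogonal_singleton_iff_inner_right.2 hy), smul_neg, neg_smul]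
  obtain ⟨ζ, hζ⟩ := iso A hW hdet hm β hβd hβk
  have hR : Rep (dSt W) (N + 1) fun w => U (J Φ hΦ.map T w) := by
    rw [add_comm]
    exact (hU.rep.KT T).pull Φ hΦ.map
  have k1 : U (J Φ hΦ.map T w) = U (J Φ hΦ.map T (Form.pull ft map_ft β)) := by
    refine rcongr hR fun {E} _ _ _ {u x} hu a => ?_
    by_cases hx : u x ∈ OF S
    · rw [(hw hu a).1 hx, (hβ hu a).1 hx]
    · rw [(hw hu a).2 hx, (hβ hu a).2 hx]
  have hg : ((dSt W).prod (Dif.lin ℝ)).Map (dP W) (ft ∘ Φ) := fun h => map_ft (hΦ.map h)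
  have k2 := full_sweep hU hin hm hAe hT hg hf β
  have k3 := hd _ v hs hv hβ
  have k4 := half_exact (by omega) hU hin ζ
  have k5 : Form.pull gc map_gc (β + Form.pull A hm β) =
      Form.pull gc map_gc β + Form.pull gc map_gc (Form.pull A hm β) :=
    map_add (Form.pullA gc map_gc) _ _
  rw [← hζ, k5, KT_add, hU.rep.map_add] at k4
  have k6 : Form.pull mf map_mf (Form.pull ft map_ft β) = Form.pull gc map_gc β :=
    pull_pull map_mf map_ft map_gc (fun _ => rfl) β
  change U (KT Real.pi _) = _ at k3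
  rw [k6] at k3
  change U (J Φ hΦ.map T w) = _
  rw [k1, J_def, ← Form.pull_comp hΦ.map map_ft hg, k2]
  linarith

end Model

end

end Vale.Agent.P231Z.C.UTwo
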