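import Vale.Agent.P231.H304.HvFin

/-!
# P231, real projective spaces: the contact volume over the ball of radius `2 D`
-/

set_option maxSynthPendingDepth 3
set_option linter.unusedSectionVars false
set_option linter.unusedVariables false

open Bundle Manifold Set Filter Module Topology MeasureTheory
open scoped ContDiff Manifold Topology ENNReal

namespace Vale.Agent.P231Z.C

noncomputable section

open Vale.Agent.P234 Vale.Agent.P231 Vale.Agent.P231.Fm Vale.Agent.P231.W Vale.Agent.P231.H775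
  Vale.Agent.P231.WG Vale.Agent.P231.CV

namespace V2

section Inv

variable {V : Type*} [NormedAddCommGroup V] [InnerProductSpace ℝ V]

/-- the shift by one period -/
def sh (c : ℝ) (ξ : V) : V := ξ - (c / ‖ξ‖) • ξ

theorem sh_eq (c : ℝ) {ξ : V} (h : ξ ≠ 0) : sh c ξ = (‖ξ‖ - c) • (‖ξ‖⁻¹ • ξ) := by
  have h1 : ‖ξ‖ ≠ 0 := norm_ne_zero_iff.2 h
  rw [sh]
  match_scalars
  field_simp

theorem norm_sh {c : ℝ} {ξ : V} (h : ξ ≠ 0) (hc : ‖ξ‖ ≤ c) : ‖sh c ξ‖ = c - ‖ξ‖ := by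
  have h1 : ‖ξ‖ ≠ 0 := norm_ne_zero_iff.2 h
  rw [sh_eq c h, norm_smul, norm_smul, norm_inv, norm_norm, inv_mul_cancel₀ h1, mul_one,
    Real.norm_eq_abs, abs_sub_comm, abs_of_nonneg (by linarith)]

theorem sh_sh {c : ℝ} {ξ : V} (h : ξ ≠ 0) (hc : ‖ξ‖ < c) : sh c (sh c ξ) = ξ := by
  have h1 : ‖ξ‖ ≠ 0 := norm_ne_zero_iff.2 h
  have h2 : c - ‖ξ‖ ≠ 0 := (sub_pos.2 hc).ne'
  conv_lhs => rw [sh, norm_sh h hc.le, sh_eq c h]
  match_scalars
  field_simp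
  ring

theorem diff_sh (c : ℝ) {ξ : V} (h : ξ ≠ 0) : DifferentiableAt ℝ (sh c) ξ := by
  have h1 : DifferentiableAt ℝ (fun ξ : V => ‖ξ‖) ξ :=
    (contDiffAt_norm (n := 1) ℝ h).differentiableAt (by simp)
  have h2 : DifferentiableAt ℝ (fun ξ : V => c / ‖ξ‖) ξ := by
    simp only [div_eq_mul_inv]
    exact (h1.inv (norm_ne_zero_iff.2 h)).const_mul c
  exact differentiableAt_id.sub (h2.smul differentiableAt_id)

end Inv

variable {E : Type*} [NormedAddCommGroup E] [NormedSpace ℝ E]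
  {M : Type*} [MetricSpace M] [ChartedSpace E M]
  [RiemannianBundle (fun x : M => TangentSpace 𝓘(ℝ, E) x)]
  {e : ∀ x : M, TangentSpace 𝓘(ℝ, E) x → M}
  [FiniteDimensional ℝ E] [IsManifold 𝓘(ℝ, E) ∞ M]
  [IsContMDiffRiemannianBundle 𝓘(ℝ, E) ∞ E (fun x : M => TangentSpace 𝓘(ℝ, E) x)]
  [CompactSpace M] [ConnectedSpace M] [IsRiemannianManifold 𝓘(ℝ, E) M]

theorem ef_sh (F : Facts e) {D : ℝ} (hD : 0 < D) (hB : InjGE e D)
    (hdiam : ∀ p q : M, dist p q ≤ D) (p : M) {ξ : Eu E} (h : ξ ≠ 0) :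
    ef e p (sh (2 * D) ξ) = ef e p ξ := by
  have h1 : ‖ξ‖ ≠ 0 := norm_ne_zero_iff.2 h
  have h2 : nm p (fr p (‖ξ‖⁻¹ • ξ) : E) = 1 := by
    rw [nm_fr, norm_smul, norm_inv, norm_norm, inv_mul_cancel₀ h1]
  have h3 := gam_per F hD.le (closed_of_inj_diam F hD hB hdiam) p _ h2 (‖ξ‖ - 2 * D)
  have h4 : ∀ t : ℝ, gam e p (fr p (‖ξ‖⁻¹ • ξ) : E) t = ef e p (t • (‖ξ‖⁻¹ • ξ)) := fun t =>
    congrArg (e p) ((fr (E := E) p).map_smul t _).symm
  rw [h4, h4, sub_add_cancel, smul_smul, mul_inv_cancel₀ h1, one_smul] at h3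
  rw [sh_eq _ h, h3]

theorem jac_sh (F : Facts e) {D : ℝ} (hD : 0 < D) (hB : InjGE e D)
    (hdiam : ∀ p q : M, dist p q ≤ D) (p : M) {ξ : Eu E} (h : ξ ≠ 0) :
    jac e p (fr p ξ) = |(fderiv ℝ (sh (2 * D)) ξ).det| * jac e p (fr p (sh (2 * D) ξ)) := by
  have h1 : ef e p =ᶠ[𝓝 ξ] fun y => ef e p (sh (2 * D) y) := by
    filter_upwards [isOpen_compl_singleton.mem_nhds h] with y hy
    exact (ef_sh F hD hB hdiam p hy).symm
  have h2 : ss e p ξ = ss e p (sh (2 * D) ξ) ∘ₗ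
      (fderiv ℝ (sh (2 * D)) ξ : Eu E →ₗ[ℝ] Eu E) := by
    refine LinearMap.ext fun ζ => (fr (ef e p ξ)).injective ?_
    have h3 := dF_congr (E := E) h1 ζ
    have h4 := dF_comp (E := E) (G := ef e p) (j := sh (2 * D))
      (contMDiff_ef F.isExp p _) (diff_sh (2 * D) h).hasFDerivAt ζ
    rw [fr_ss, ← mfderiv_ef F.isExp]
    refine (h3.trans h4).trans ?_
    rw [mfderiv_ef F.isExp, ← fr_ss, ef_sh F hD hB hdiam p h]
    rfl
  rw [← abs_det_ss, ← abs_det_ss, h2, LinearMap.det_comp, abs_mul, mul_comm]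

theorem jac_pos_two (F : Facts e) {D : ℝ} (hD : 0 < D) (hB : InjGE e D)
    (hdiam : ∀ p q : M, dist p q ≤ D)
    (hk : ∀ (x : M) (v : TangentSpace 𝓘(ℝ, E) x), ‖v‖ = 1 → finrank ℝ (H703.Ker e D x v) = 0)
    (p : M) {ξ : Eu E} (h : ‖ξ‖ < 2 * D) : 0 < jac e p (fr p ξ) := by
  rcases lt_trichotomy ‖ξ‖ D with h1 | h1 | h1
  · exact jac_pos F hB (by rw [nm_fr]; exact h1)
  · rw [← abs_det_ss, abs_pos]
    intro h0
    obtain ⟨ζ, h2, h3⟩ := (Submodule.ne_bot_iff _).1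
      (LinearMap.bot_lt_ker_of_det_eq_zero h0).ne'
    have h4 : nm p (fr p (D⁻¹ • ξ) : E) = 1 := by
      rw [nm_fr, norm_smul, norm_inv, h1, Real.norm_of_nonneg hD.le, inv_mul_cancel₀ hD.ne']
    have h5 := Submodule.finrank_eq_zero.1 (hk p (fr p (D⁻¹ • ξ) : E) h4)
    have h6 : (D • (fr p (D⁻¹ • ξ) : E)) = fr p ξ := by
      rw [← map_smul, smul_smul, mul_inv_cancel₀ hD.ne', one_smul]
    have h7 : dE e p (D • (fr p (D⁻¹ • ξ) : E)) (fr p ζ) = 0 := by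
      rw [h6]
      have h8 := fr_ss (e := e) p ξ ζ
      rw [LinearMap.mem_ker.1 h2, map_zero] at h8
      exact h8.symm
    have h8 : (fr p ζ : E) ∈ H703.Ker e D p (fr p (D⁻¹ • ξ) : E) := H703.mem_Ker.2 h7
    rw [h5] at h8
    exact h3 ((fr (E := E) p).map_eq_zero_iff.1 ((Submodule.mem_bot ℝ).1 h8))
  · have h2 : ξ ≠ 0 := norm_ne_zero_iff.1 (hD.trans h1).ne'
    have h3 := norm_sh h2 h.le
    have h4 : sh (2 * D) ξ ≠ 0 := norm_ne_zero_iff.1 (by rw [h3]; linarith)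
    have h5 := jac_sh F hD hB hdiam p h4
    rw [sh_sh h2 h] at h5
    have h6 : 0 < jac e p (fr p (sh (2 * D) ξ)) := jac_pos F hB (by rw [nm_fr, h3]; linarith)
    rw [h5] at h6
    exact (pos_iff_pos_of_mul_pos h6).1 (lt_of_le_of_ne (abs_nonneg _) fun h7 => by
      rw [← h7, zero_mul] at h6
      exact lt_irrefl _ h6)

theorem integral_two (F : Facts e) {D : ℝ} (hD : 0 < D) (hB : InjGE e D)
    (hdiam : ∀ p q : M, dist p q ≤ D) (hE : 0 < finrank ℝ E) (p : M) :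
    ∫ ξ in Metric.ball (0 : Eu E) (2 * D), jac e p (fr p ξ) =
      2 * ∫ ξ in Metric.ball (0 : Eu E) D, jac e p (fr p ξ) := by
  have : Nontrivial (Eu E) := Module.nontrivial_of_finrank_pos (R := ℝ) (by
    rw [finrank_euclideanSpace, Fintype.card_fin]; exact hE)
  set A : Set (Eu E) := Metric.ball 0 (2 * D) \ Metric.closedBall 0 D with hA
  have mA : MeasurableSet A := measurableSet_ball.diff measurableSet_closedBall
  have hA' : ∀ ξ ∈ A, D < ‖ξ‖ ∧ ‖ξ‖ < 2 * D ∧ ξ ≠ 0 := fun ξ hξ => by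
    have h1 : D < ‖ξ‖ := not_le.1 fun h => hξ.2 (mem_closedBall_zero_iff.2 h)
    exact ⟨h1, mem_ball_zero_iff.1 hξ.1, norm_ne_zero_iff.1 (hD.trans h1).ne'⟩
  have h1 : sh (2 * D) '' A = Metric.ball 0 D \ {0} := by
    ext η
    constructor
    · rintro ⟨ξ, hξ, rfl⟩
      obtain ⟨k1, k2, k3⟩ := hA' ξ hξ
      have k4 := norm_sh k3 k2.le
      exact ⟨mem_ball_zero_iff.2 (by rw [k4]; linarith),
        norm_ne_zero_iff.1 (by rw [k4]; linarith)⟩
    · rintro ⟨k1, k2⟩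
      have k3 := mem_ball_zero_iff.1 k1
      have k4 := norm_sh (c := 2 * D) k2 (by linarith)
      have k5 : 0 < ‖η‖ := norm_pos_iff.2 k2
      refine ⟨sh (2 * D) η, ⟨mem_ball_zero_iff.2 (by rw [k4]; linarith), fun k6 => ?_⟩,
        sh_sh k2 (by linarith)⟩
      have k7 := mem_closedBall_zero_iff.1 k6
      rw [k4] at k7
      linarith
  have h2 := integral_image_eq_integral_abs_det_fderiv_smul volume mA
    (f := sh (2 * D)) (f' := fderiv ℝ (sh (2 * D)))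
    (fun ξ hξ => (diff_sh _ (hA' ξ hξ).2.2).hasFDerivAt.hasFDerivWithinAt)
    (fun ξ hξ η hη h => by
      rw [← sh_sh (hA' ξ hξ).2.2 (hA' ξ hξ).2.1, h, sh_sh (hA' η hη).2.2 (hA' η hη).2.1])
    (fun ξ => jac e p (fr p ξ))
  have h3 : ∫ ξ in A, jac e p (fr p ξ) = ∫ ξ in Metric.ball (0 : Eu E) D, jac e p (fr p ξ) := by
    rw [← setIntegral_congr_set (sdiff_null_ae_eq_self (s := Metric.ball 0 D)
      (measure_singleton (0 : Eu E))), ← h1, h2]
    exact setIntegral_congr_fun mA fun ξ hξ => jac_sh F hD hB hdiam p (hA' ξ hξ).2.2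
  have h4 : Metric.closedBall (0 : Eu E) D ⊆ Metric.ball 0 (2 * D) :=
    Metric.closedBall_subset_ball (by linarith)
  have h5 := setIntegral_sdiff measurableSet_closedBall (WH.integrableOn_jac F (2 * D) p) h4
  have h6 : ∫ ξ in Metric.closedBall (0 : Eu E) D, jac e p (fr p ξ) =
      ∫ ξ in Metric.ball (0 : Eu E) D, jac e p (fr p ξ) := by
    rw [← Metric.closedBall_sdiff_sphere]
    exact setIntegral_congr_set
      (sdiff_null_ae_eq_self (Measure.addHaar_sphere_of_ne_zero volume _ hD.ne')).symm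
  rw [← hA, h3, h6] at h5
  linarith

variable {p : M} {R : ℝ} {k : ℕ}

theorem abs_integral' (F : Facts e) {ρ : ℝ} (hρ : ρ ≤ R)
    (hj : ∀ ξ : Eu E, ‖ξ‖ < ρ → 0 < jac e p (fr p ξ)) (X : Fr e p R)
    (o : OrthonormalBasis (Fin k) ℝ (Eu E)) :
    |∫ ξ in Metric.ball (0 : Eu E) ρ, (Matrix.of fun i j => AA X ξ (o j) (o i)).det *
      |LinearMap.det (tt X ξ)|⁻¹| = ∫ ξ in Metric.ball (0 : Eu E) ρ, jac e p (fr p ξ) := by
  set d : Eu E → ℝ := fun ξ => (Matrix.of fun i j => AA X ξ (o j) (o i)).det with hd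
  have hdc : ContinuousOn d (Metric.ball 0 ρ) :=
    (continuousOn_det F.isExp X o).mono (Metric.ball_subset_ball hρ)
  have key : ∀ ξ ∈ Metric.ball (0 : Eu E) ρ,
      d ξ ≠ 0 ∧ |d ξ| * |LinearMap.det (tt X ξ)|⁻¹ = jac e p (fr p ξ) := by
    intro ξ hξ
    have h1 : ‖ξ‖ < ρ := mem_ball_zero_iff.1 hξ
    obtain ⟨T, hT⟩ := exists_T X (h1.trans_le hρ)
    have h2 : |d ξ| = _ := abs_det_AA X o T hT
    have h3 : |LinearMap.det (T : Eu E →ₗ[ℝ] Eu E)| ≠ 0 :=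
      abs_ne_zero.2 (LinearEquiv.isUnit_det' T.toLinearEquiv).ne_zero
    refine ⟨fun h5 => ?_, ?_⟩
    · rw [h5, abs_zero] at h2
      exact (mul_ne_zero h3 (hj ξ h1).ne') h2.symm
    · rw [tt_eq X T hT, h2, mul_comm, ← mul_assoc, inv_mul_cancel₀ h3, one_mul]
  have hsign : (∀ ξ ∈ Metric.ball (0 : Eu E) ρ, 0 < d ξ) ∨
      ∀ ξ ∈ Metric.ball (0 : Eu E) ρ, d ξ < 0 := by
    by_contra hcon
    push Not at hcon
    obtain ⟨⟨a, ha, ha'⟩, ⟨b, hb, hb'⟩⟩ := hcon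
    obtain ⟨ξ, hξ, h2⟩ := (convex_ball 0 ρ).isPreconnected.intermediate_value ha hb hdc ⟨ha', hb'⟩
    exact (key ξ hξ).1 h2
  rcases hsign with hs | hs
  · rw [setIntegral_congr_fun (g := fun ξ => jac e p (fr p ξ)) measurableSet_ball fun ξ hξ => by
      have h2 := (key ξ hξ).2
      rwa [abs_of_pos (hs ξ hξ)] at h2]
    exact abs_of_nonneg (integral_nonneg fun ξ => Jac.nonneg _ _)
  · rw [setIntegral_congr_fun (g := fun ξ => -jac e p (fr p ξ)) measurableSet_ball fun ξ hξ => by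
      have h2 := (key ξ hξ).2
      rw [abs_of_neg (hs ξ hξ), neg_mul] at h2
      exact neg_eq_iff_eq_neg.1 h2]
    rw [integral_neg, abs_neg]
    exact abs_of_nonneg (integral_nonneg fun ξ => Jac.nonneg _ _)

end V2

variable {E : Type*} [NormedAddCommGroup E] [NormedSpace ℝ E]
  {M : Type*} [MetricSpace M] [ChartedSpace E M]
  [RiemannianBundle (fun x : M => TangentSpace 𝓘(ℝ, E) x)]
  {e : ∀ x : M, TangentSpace 𝓘(ℝ, E) x → M}
  [FiniteDimensional ℝ E] [IsManifold 𝓘(ℝ, E) ∞ M]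
  [IsContMDiffRiemannianBundle 𝓘(ℝ, E) ∞ E (fun x : M => TangentSpace 𝓘(ℝ, E) x)]
  [CompactSpace M] [ConnectedSpace M] [IsRiemannianManifold 𝓘(ℝ, E) M]

variable (F : Facts e) {D : ℝ} (hD : 0 < D) (hB : InjGE e D) (hdiam : ∀ p q : M, dist p q ≤ D)
  {N : ℕ} (hN : finrank ℝ E = N + 1)

variable [MeasurableSpace M] [BorelSpace M]

include F hD hB hdiam hN in
/-- **the contact volume over the ball of radius `2 D`** -/
theorem abs_II_two (hk : ∀ (x : M) (v : TangentSpace 𝓘(ℝ, E) x), ‖v‖ = 1 →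
      finrank ℝ (H703.Ker e D x v) = 0) {p : M} {R : ℝ}
    (X : Fr e p R) (v0 : UT E M) {r : Eu E → ℝ} {K : Set (Eu E)} (hr : Q.Cut r K)
    (hDR : 2 * D < R) (o : OrthonormalBasis (Fin (N + 1)) ℝ (Eu E)) :
    |II X v0 o.toBasis hr hDR (CV.alpha E M * (CV.alpha E M).d ^ N)| =
      2 * ((N.factorial : ℝ) * (2 * √Real.pi ^ (N + 1) / Real.Gamma (((N : ℝ) + 1) / 2)) *
        (Blaschke.riemannianVolume (N + 1) M univ).toReal) := by
  set S : ℝ := (finrank ℝ E : ℕ) * (volume (Metric.ball (0 : Eu E) 1)).toReal with hS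
  have hS1 : S = 2 * √Real.pi ^ (N + 1) / Real.Gamma (((N : ℝ) + 1) / 2) := ball_const hN
  have hS0 : 0 ≤ S := by positivity
  have h1 : II X v0 o.toBasis hr hDR (alpha E M * (alpha E M).d ^ N) =
      ((N.factorial : ℝ) * sgn (N + 1) * S) *
        ∫ ξ in Metric.ball (0 : Eu E) (2 * D),
          (Matrix.of fun i j => AA X ξ (o j) (o i)).det * |LinearMap.det (tt X ξ)|⁻¹ := by
    rw [II_apply, ← integral_const_mul]
    refine setIntegral_congr_fun measurableSet_ball fun ξ hξ => ?_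
    have h2 : ‖ξ‖ < R := (mem_ball_zero_iff.1 hξ).trans hDR
    obtain ⟨T, hT⟩ := exists_T X h2
    refine (evalForm_th F.isExp X v0 hN o.toBasis hr h2 T hT).trans ?_
    have h4 : tt X ξ = ((T : Eu E →L[ℝ] Eu E) : Eu E →ₗ[ℝ] Eu E) := tt_eq X T hT
    rw [o.coe_toBasis, ← hS, ← h4]
    ring
  rw [h1, abs_mul, V2.abs_integral' F hDR.le
    (fun ξ hξ => V2.jac_pos_two F hD hB hdiam hk p hξ) X o,
    V2.integral_two F hD hB hdiam (by omega) p, abs_mul, abs_mul, abs_sgn, mul_one, Nat.abs_cast,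
    abs_of_nonneg hS0, hS1, (WH.vol_total F hD hB hdiam hN p).2.2]
  ring

end

end Vale.Agent.P231Z.C
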